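import Vale.Agent.P157.Conc.RS

/-!
# P157: potentials of small amplitude, and the pressure in the normalisation of the problem
-/

noncomputable section

open MeasureTheory ProbabilityTheory Real Filter Topology Set
open scoped BigOperators

namespace P157.Conc

open Vale.Agent.P150 (gauss)

/-- The mean pressure of the Ising perceptron with potential `f`, density `α` and `N` sites. -/
def pressure (f : ℝ → ℝ) (α : ℝ) (N : ℕ) : ℝ :=
  ∫ g : Fin ⌊α * N⌋₊ → Fin N → ℝ,
    (1 / (N : ℝ)) * Real.log ((1 / (2 : ℝ) ^ N) * ∑ σ : Fin N → Bool,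
      Real.exp (∑ a, f ((∑ i, g a i * (if σ i then (1 : ℝ) else -1)) / Real.sqrt N)))
    ∂Measure.pi (fun _ => Measure.pi fun _ => gaussianReal 0 1)

/-- The replica symmetric (Gardner) functional at overlap `q`. -/
def rsBound (f f1 : ℝ → ℝ) (α q : ℝ) : ℝ :=
  α * ((∫ z, log (∫ ξ, exp (f (√q * z + √(1 - q) * ξ)) ∂gaussianReal 0 1) ∂gaussianReal 0 1)
      - (∫ z, ((∫ ξ, f1 (√q * z + √(1 - q) * ξ) * exp (f (√q * z + √(1 - q) * ξ)) ∂gaussianReal 0 1)
          / ∫ ξ, exp (f (√q * z + √(1 - q) * ξ)) ∂gaussianReal 0 1) ^ 2 ∂gaussianReal 0 1)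
        * (1 - q) / 2)
    + ∫ z, log (cosh (√(α * ∫ z, ((∫ ξ, f1 (√q * z + √(1 - q) * ξ) * exp (f (√q * z + √(1 - q) * ξ)) ∂gaussianReal 0 1)
          / ∫ ξ, exp (f (√q * z + √(1 - q) * ξ)) ∂gaussianReal 0 1) ^ 2 ∂gaussianReal 0 1) * z))
      ∂gaussianReal 0 1

lemma pressure_eq {f : ℝ → ℝ} {B : ℝ} (hf : Continuous f) (hB : ∀ s, |f s| ≤ B) {α : ℝ} {N : ℕ}
    (hN : 0 < N) : pressure f α N = aSeq f α N / N - Real.log 2 := by
  have hNR : (0 : ℝ) < N := by exact_mod_cast hN
  unfold pressure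
  set k := ⌊α * N⌋₊
  have es : ∀ (g : Fin N → ℝ) σ, S (fun _ => (Real.sqrt N)⁻¹) g σ
      = (∑ i, g i * (if σ i then (1 : ℝ) else -1)) / Real.sqrt N := by
    intro g σ
    simp only [S, spin, Finset.sum_div]
    exact Finset.sum_congr rfl fun i _ => by ring
  have e : ∀ g : Fin k → Fin N → ℝ,
      (1 / (N : ℝ)) * Real.log ((1 / (2 : ℝ) ^ N) * ∑ σ : Fin N → Bool,
          Real.exp (∑ a, f ((∑ i, g a i * (if σ i then (1 : ℝ) else -1)) / Real.sqrt N)))
      = (1 / (N : ℝ)) * base (fun σ => (0 : ℝ) + ∑ a, f (S (fun _ => (Real.sqrt N)⁻¹) (g a) σ))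
          - Real.log 2 := by
    intro g
    simp only [base, es, zero_add]
    rw [Real.log_mul (by positivity)
      (Finset.sum_pos (fun σ _ => Real.exp_pos _) Finset.univ_nonempty).ne', one_div ((2 : ℝ) ^ N),
      Real.log_inv, Real.log_pow]
    field_simp
    ring
  simp only [e]
  have hi : Integrable (fun g : Fin k → Fin N → ℝ =>
      base (fun σ => (0 : ℝ) + ∑ a, f (S (fun _ => (Real.sqrt N)⁻¹) (g a) σ)))
      (Measure.pi (fun _ : Fin k => gM (Fin N))) := by
    refine Integrable.of_bound ?_ (|base (0 : (Fin N → Bool) → ℝ)| + k * B) ?_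
    · exact (lip_base.continuous.comp (continuous_pi fun σ => continuous_const.add
        (continuous_finsetSum _ fun a _ => hf.comp ((continuous_S _ σ).comp (continuous_apply a))))).aestronglyMeasurable
    · refine Eventually.of_forall fun g => ?_
      have := lip_base (fun σ : Fin N → Bool => (0 : ℝ) + ∑ a, f (S (fun _ => (Real.sqrt N)⁻¹) (g a) σ))
        0 (k * B) fun σ => by
          simp only [zero_add, Pi.zero_apply, sub_zero]
          refine (Finset.abs_sum_le_sum_abs _ _).trans ?_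
          refine (Finset.sum_le_card_nsmul _ _ _ fun a _ => hB _).trans_eq ?_
          simp
      have h2 := abs_sub_abs_le_abs_sub (base (fun σ : Fin N → Bool => (0 : ℝ) +
        ∑ a, f (S (fun _ => (Real.sqrt N)⁻¹) (g a) σ))) (base (0 : (Fin N → Bool) → ℝ))
      rw [Real.norm_eq_abs]
      linarith
  rw [← gM, integral_sub (hi.const_mul _) (integrable_const _), integral_const_mul]
  have hR : aSeq f α N = ∫ g, base (fun σ : Fin N → Bool => (0 : ℝ) +
      ∑ a, f (S (fun _ => (Real.sqrt N)⁻¹) (g a) σ)) ∂Measure.pi (fun _ : Fin k => gM (Fin N)) :=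
    R_eq_integral hf hB _ k 0
  rw [← hR]
  simp [div_eq_inv_mul]

theorem pressure_limit {f f1 f2 f3 : ℝ → ℝ} {U V W δ κ : ℝ} (hp : Pot f f1 f2 f3 U V W)
    (hs : Small f f1 f2 U V δ κ) {α : ℝ} (hα : 0 < α) :
    ∃ L : ℝ, Tendsto (pressure f α) atTop (𝓝 L) ∧
      ∀ q ∈ Icc (0 : ℝ) 1, L ≤ rsBound f f1 α q := by
  obtain ⟨L, hL⟩ := limit_exists hp hs hα.le
  refine ⟨L - log 2, (hL.sub_const (log 2)).congr' ?_, fun q hq => ?_⟩
  · filter_upwards [eventually_gt_atTop 0] with N hN
    exact (pressure_eq hp.cf (abs_pot hs) hN).symm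
  · have h := limit_le hp hs (abs_pot hs) hα.le hL hq
    set a := √(α * rsTau f f1 q)
    have hi : Integrable (fun z => log (cosh (a * z))) (gaussianReal 0 1) := by
      refine ((integrable_logcosh a).sub (integrable_const (log 2))).congr (ae_of_all _ fun z => ?_)
      simp [Real.log_mul two_ne_zero (cosh_pos _).ne']
    have e : site a = log 2 + ∫ z, log (cosh (a * z)) ∂gaussianReal 0 1 := by
      rw [site]
      simp only [Real.log_mul two_ne_zero (cosh_pos _).ne']
      rw [integral_add (integrable_const _) hi, integral_const, probReal_univ, one_smul]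
    rw [e] at h
    simp only [rsA, rsTau, cav, a] at h
    simp only [rsBound]
    linarith

/-- The pair correlation of `k`. -/
def pairG (k : ℝ → ℝ) (r : ℝ) : ℝ :=
  ∫ p : ℝ × ℝ, k p.1 * k (r * p.1 + √(1 - r ^ 2) * p.2) ∂(gaussianReal 0 1).prod (gaussianReal 0 1)

variable {k : ℝ → ℝ} {M : ℝ}

lemma integrable_pairG (hk : Continuous k) (hM : ∀ s, |k s| ≤ M) (r : ℝ) :
    Integrable (fun p : ℝ × ℝ => k p.1 * k (r * p.1 + √(1 - r ^ 2) * p.2))
      ((gaussianReal 0 1).prod (gaussianReal 0 1)) :=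
  Integrable.of_bound (Continuous.aestronglyMeasurable (by fun_prop)) (M * M) (ae_of_all _ fun p => by
    rw [norm_eq_abs, abs_mul]
    exact mul_le_mul (hM _) (hM _) (abs_nonneg _) ((abs_nonneg _).trans (hM 0)))

lemma continuous_pairG (hk : Continuous k) (hM : ∀ s, |k s| ≤ M) : Continuous (pairG k) :=
  continuous_of_dominated (fun r => (Continuous.aestronglyMeasurable (by fun_prop)))
    (fun r => ae_of_all _ fun p => by
      rw [norm_eq_abs, abs_mul]
      exact mul_le_mul (hM _) (hM _) (abs_nonneg _) ((abs_nonneg _).trans (hM 0)))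
    (integrable_const (M * M)) (ae_of_all _ fun p => by fun_prop)

lemma pairG_neg (hk : Continuous k) (he : ∀ s, k (-s) = k s) {r : ℝ} (hr : r ∈ Icc (-1 : ℝ) 1) :
    pairG k (-r) = pairG k r := by
  have hs : √(1 - r ^ 2) ^ 2 = 1 - r ^ 2 := Real.sq_sqrt (by nlinarith [hr.1, hr.2])
  set a : Bool → Fin 2 → ℝ := fun b => if b then ![r, -√(1 - r ^ 2)] else ![1, 0]
  have h := (integral_pair (G := fun x y => k x * k y) ((hk.comp continuous_fst).mul
    (hk.comp continuous_snd)) a (fun b => by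
      cases b <;> simp [a, Fin.sum_univ_two, hs]) false true).2
  have e : ∑ i, a false i * a true i = r := by simp [a, Fin.sum_univ_two]
  simp only [e] at h
  rw [pairG, pairG, ← h]
  have hm := measurePreserving_finTwoArrow (gaussianReal 0 1)
  rw [← hm.map_eq, integral_map_equiv, show gauss (Fin 2) = Measure.pi fun _ : Fin 2 => gaussianReal 0 1
    from rfl]
  refine integral_congr_ae (Eventually.of_forall fun g => ?_)
  simp only [MeasurableEquiv.finTwoArrow, neg_sq]
  rw [← he (-r * _ + _)]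
  simp [a, lin, Fin.sum_univ_two]
  ring_nf
  tauto

lemma pairG_ge_sq (hk : Continuous k) (hM : ∀ s, |k s| ≤ M) {r : ℝ} (h0 : 0 ≤ r) (h1 : r ≤ 1) :
    (∫ s, k s ∂gaussianReal 0 1) ^ 2 ≤ pairG k r := by
  set c := ∫ s, k s ∂gaussianReal 0 1
  suffices key : ∀ n : ℕ, c ^ 2 + (c ^ 2 - M * M) / ((n + 1 : ℕ) : ℝ) ≤ pairG k r by
    refine le_of_tendsto' (x := (atTop : Filter ℕ)) ?_ key
    have : Tendsto (fun n : ℕ => (c ^ 2 - M * M) / ((n + 1 : ℕ) : ℝ)) atTop (𝓝 0) :=
      tendsto_const_nhds.div_atTop ((tendsto_natCast_atTop_atTop (R := ℝ)).comp (tendsto_add_atTop_nat 1))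
    simpa using this.const_add (c ^ 2)
  intro n
  set a : Fin (n + 2) → Option (Fin (n + 2)) → ℝ :=
    fun x o => o.elim (√r) fun y => if x = y then √(1 - r) else 0
  have hu : ∀ x, ∑ i, a x i ^ 2 = 1 := fun x => by
    simp [a, Fintype.sum_option, ite_pow, Real.sq_sqrt h0, Real.sq_sqrt (sub_nonneg.2 h1)]
  have hg : ∀ x y, x ≠ y → ∑ i, a x i * a y i = r := fun x y hxy => by
    simp [a, Fintype.sum_option, Real.mul_self_sqrt h0, hxy, Ne.symm hxy]
  have hmean : ∀ x, ∫ g, k (lin a g x) ∂gauss _ = c := fun x => by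
    have h := (integral_pair (G := fun s _ => k s) (hk.comp continuous_fst) a hu x x).2
    rw [h, integral_fun_fst (f := k)]
    simp [c]
  have hki : ∀ x, Integrable (fun g => k (lin a g x)) (gauss _) := fun x =>
    Vale.Agent.P150.integrable_gauss_bound (hk.comp ((continuous_apply x).comp (continuous_lin a)))
      fun g => hM _
  have hkk : ∀ x y, Integrable (fun g => k (lin a g x) * k (lin a g y)) (gauss _) := fun x y =>
    Vale.Agent.P150.integrable_gauss_bound
      ((hk.comp ((continuous_apply x).comp (continuous_lin a))).mul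
        (hk.comp ((continuous_apply y).comp (continuous_lin a)))) (B := M * M) fun g => by
      rw [abs_mul]
      exact mul_le_mul (hM _) (hM _) (abs_nonneg _) ((abs_nonneg _).trans (hM 0))
  have hoff : ∀ x y, x ≠ y → ∫ g, k (lin a g x) * k (lin a g y) ∂gauss _ = pairG k r := by
    intro x y hxy
    rw [(integral_pair (G := fun s t => k s * k t) ((hk.comp continuous_fst).mul
      (hk.comp continuous_snd)) a hu x y).2, hg x y hxy]
    rfl
  have hdiag : ∀ x, ∫ g, k (lin a g x) * k (lin a g x) ∂gauss _ ≤ M * M := fun x => by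
    refine (integral_mono (hkk x x) (integrable_const (M * M)) fun g => ?_).trans_eq (by simp)
    exact (le_abs_self _).trans (by
      rw [abs_mul]; exact mul_le_mul (hM _) (hM _) (abs_nonneg _) ((abs_nonneg _).trans (hM 0)))
  have hpair : ∀ x y, ∫ g, (k (lin a g x) - c) * (k (lin a g y) - c) ∂gauss _
      = (∫ g, k (lin a g x) * k (lin a g y) ∂gauss _) - c ^ 2 := by
    intro x y
    have e : ∀ g, (k (lin a g x) - c) * (k (lin a g y) - c)
        = k (lin a g x) * k (lin a g y) - c * k (lin a g x) - c * k (lin a g y) + c ^ 2 := fun g => by ring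
    simp only [e]
    have i1 : Integrable (fun g => k (lin a g x) * k (lin a g y) - c * k (lin a g x)) (gauss _) :=
      (hkk x y).sub ((hki x).const_mul c)
    have i2 : Integrable (fun g => k (lin a g x) * k (lin a g y) - c * k (lin a g x)
        - c * k (lin a g y)) (gauss _) := i1.sub ((hki y).const_mul c)
    rw [integral_add i2 (integrable_const _), integral_sub i1 ((hki y).const_mul c),
      integral_sub (hkk x y) ((hki x).const_mul c), integral_const_mul, integral_const_mul,
      hmean, hmean, integral_const, probReal_univ, one_smul]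
    ring
  have hsq : 0 ≤ ∑ x, ∑ y, ∫ g, (k (lin a g x) - c) * (k (lin a g y) - c) ∂gauss _ := by
    have hint : ∀ x y, Integrable (fun g => (k (lin a g x) - c) * (k (lin a g y) - c)) (gauss _) :=
      fun x y => Vale.Agent.P150.integrable_gauss_bound
        (((hk.comp ((continuous_apply x).comp (continuous_lin a))).sub continuous_const).mul
          ((hk.comp ((continuous_apply y).comp (continuous_lin a))).sub continuous_const))
        (B := (M + |c|) * (M + |c|)) fun g => by
          rw [abs_mul]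
          refine mul_le_mul ?_ ?_ (abs_nonneg _) (add_nonneg ((abs_nonneg _).trans (hM 0)) (abs_nonneg c))
          all_goals exact (abs_sub _ _).trans (add_le_add (hM _) le_rfl)
    simp only [← integral_finsetSum _ fun y _ => hint _ y]
    rw [← integral_finsetSum _ fun x _ => integrable_finsetSum _ fun y _ => hint x y]
    refine integral_nonneg fun g => ?_
    rw [← Finset.sum_mul_sum]
    exact mul_self_nonneg _
  simp only [hpair] at hsq
  have hle : ∀ x, ∑ y, ((∫ g, k (lin a g x) * k (lin a g y) ∂gauss _) - c ^ 2)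
      ≤ (M * M - c ^ 2) + ((n : ℝ) + 1) * (pairG k r - c ^ 2) := by
    intro x
    rw [← Finset.add_sum_erase _ _ (Finset.mem_univ x)]
    refine add_le_add (by linarith [hdiag x]) (le_of_eq ?_)
    rw [Finset.sum_congr rfl fun y hy => by rw [hoff x y (Finset.ne_of_mem_erase hy).symm]]
    simp
    ring
  have h := hsq.trans (Finset.sum_le_sum fun x _ => hle x)
  simp only [Finset.sum_const, Finset.card_univ, Fintype.card_fin, nsmul_eq_mul] at h
  push_cast at h ⊢
  have h2 := nonneg_of_mul_nonneg_right h (by positivity : (0 : ℝ) < (n : ℝ) + 2)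
  rw [add_div' _ _ _ (by positivity), div_le_iff₀ (by positivity)]
  nlinarith

/-- Every potential of small amplitude with a positive pair correlation meets the criterion. -/
theorem small_amplitude {h h1 h2 h3 : ℝ → ℝ} (d1 : ∀ s, HasDerivAt h (h1 s) s)
    (d2 : ∀ s, HasDerivAt h1 (h2 s) s) (d3 : ∀ s, HasDerivAt h2 (h3 s) s) (c3 : Continuous h3)
    {M : ℝ} (b0 : ∀ s, |h s| ≤ M) (b1 : ∀ s, |h1 s| ≤ M) (b2 : ∀ s, |h2 s| ≤ M)
    (b3 : ∀ s, |h3 s| ≤ M)
    (hpos : (∀ r ∈ Icc (-1 : ℝ) 1, 0 < pairG h2 r) ∨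
      ((∀ s, h (-s) = h s) ∧ ∫ s, h2 s ∂gaussianReal 0 1 ≠ 0)) :
    ∃ ε₀ : ℝ, 0 < ε₀ ∧ ∀ ε : ℝ, |ε| < ε₀ → ∃ U V W δ κ,
      Pot (fun s => ε * h s) (fun s => ε * h1 s) (fun s => ε * h2 s) (fun s => ε * h3 s) U V W ∧
      Small (fun s => ε * h s) (fun s => ε * h1 s) (fun s => ε * h2 s) U V δ κ := by
  have hM : 0 ≤ M := (abs_nonneg _).trans (b0 0)
  have hc2 : Continuous h2 := continuous_iff_continuousAt.2 fun s => (d3 s).continuousAt
  have hc1 : Continuous h1 := continuous_iff_continuousAt.2 fun s => (d2 s).continuousAt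
  have hpos' : ∀ r ∈ Icc (-1 : ℝ) 1, 0 < pairG h2 r := by
    rcases hpos with h | ⟨he, hne⟩
    · exact h
    · have e1 : ∀ s, h1 (-s) = -h1 s := fun s => by
        have a : HasDerivAt (fun x => h (-x)) (-h1 (-s)) s := by
          exact ((d1 (-s)).comp s ((hasDerivAt_id s).neg)).congr_deriv (by simp)
        simp only [he] at a
        linarith [a.unique (d1 s)]
      have e2 : ∀ s, h2 (-s) = h2 s := fun s => by
        have a : HasDerivAt (fun x => h1 (-x)) (-h2 (-s)) s := by
          exact ((d2 (-s)).comp s ((hasDerivAt_id s).neg)).congr_deriv (by simp)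
        simp only [e1] at a
        linarith [a.unique (d2 s).neg]
      intro r hr
      have hsq : 0 < (∫ s, h2 s ∂gaussianReal 0 1) ^ 2 := by positivity
      rcases le_total 0 r with h | h
      · exact hsq.trans_le (pairG_ge_sq hc2 b2 h hr.2)
      · rw [← pairG_neg hc2 e2 hr]
        exact hsq.trans_le (pairG_ge_sq hc2 b2 (by linarith) (by linarith [hr.1]))
  obtain ⟨r₀, hr₀, hmin⟩ := isCompact_Icc.exists_isMinOn
    (Set.nonempty_Icc.2 (by norm_num : (-1 : ℝ) ≤ 1)) (continuous_pairG hc2 b2).continuousOn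
  set m0 := pairG h2 r₀
  have hm0 : 0 < m0 := hpos' r₀ hr₀
  set C1 := 2 * M * M ^ 2 + M ^ 4
  set C2 := 12 * (M + M ^ 2) * M ^ 2 + 8 * M * (M + M ^ 2) ^ 2
  refine ⟨min (1 / (4 * (M + 1))) (m0 / (C1 + C2 + 1)), by positivity, fun ε hε => ?_⟩
  obtain ⟨hε1, hε2⟩ := lt_min_iff.1 hε
  rw [lt_div_iff₀ (by positivity)] at hε1 hε2
  have ha : 0 ≤ |ε| := abs_nonneg ε
  have hε0 : |ε| * M ≤ 1 / 4 := by nlinarith
  have hεone : |ε| ≤ 1 := by nlinarith
  refine ⟨|ε| * M, |ε| * (M + M ^ 2), |ε| * M, 2 * (|ε| * M), ε ^ 2 * (m0 - |ε| * C1), ?_, ?_⟩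
  · refine ⟨fun s => (d1 s).const_mul ε, fun s => (d2 s).const_mul ε, fun s => (d3 s).const_mul ε,
      continuous_const.mul c3, fun s => ?_, fun s => ?_, fun s => ?_⟩
    · rw [abs_mul]; exact mul_le_mul_of_nonneg_left (b1 s) ha
    · refine (abs_add_le _ _).trans ?_
      rw [abs_mul, abs_pow, abs_mul, mul_pow, mul_add]
      refine add_le_add (mul_le_mul_of_nonneg_left (b2 s) ha) ?_
      refine mul_le_mul (pow_le_of_le_one ha hεone two_ne_zero)
        (pow_le_pow_left₀ (abs_nonneg _) (b1 s) 2) (by positivity) ha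
    · rw [abs_mul]; exact mul_le_mul_of_nonneg_left (b3 s) ha
  · refine ⟨fun s t => ?_, fun r hr => ?_, ?_⟩
    · rw [← mul_sub, abs_mul]
      calc |ε| * |h s - h t| ≤ |ε| * (M + M) :=
            mul_le_mul_of_nonneg_left ((abs_sub _ _).trans (add_le_add (b0 s) (b0 t))) ha
        _ = _ := by ring
    · have hmr : m0 ≤ pairG h2 r := hmin hr
      set g : ℝ × ℝ → ℝ := fun p => r * p.1 + √(1 - r ^ 2) * p.2
      have i2 : Integrable (fun p : ℝ × ℝ => ε ^ 2 * (h2 p.1 * h2 (g p)) - |ε| ^ 3 * C1)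
          ((gaussianReal 0 1).prod (gaussianReal 0 1)) :=
        ((integrable_pairG hc2 b2 r).const_mul _).sub (integrable_const _)
      refine le_trans ?_ (integral_mono i2 (Integrable.of_bound (Continuous.aestronglyMeasurable
        (by simp only [g]; fun_prop)) ((|ε| * (M + M ^ 2)) * (|ε| * (M + M ^ 2))) (ae_of_all _ fun p => ?_)) fun p => ?_)
      · have e : ∫ p, h2 p.1 * h2 (g p) ∂(gaussianReal 0 1).prod (gaussianReal 0 1) = pairG h2 r := rfl
        rw [integral_sub ((integrable_pairG hc2 b2 r).const_mul _) (integrable_const _),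
          integral_const_mul, e]
        simp only [integral_const, probReal_univ, one_smul]
        have h3 : |ε| ^ 3 = ε ^ 2 * |ε| := by rw [← sq_abs ε]; ring
        rw [h3]
        nlinarith [mul_le_mul_of_nonneg_left hmr (sq_nonneg ε)]
      · have hb : ∀ s, |ε * h2 s + (ε * h1 s) ^ 2| ≤ |ε| * (M + M ^ 2) := fun s => by
          refine (abs_add_le _ _).trans ?_
          rw [abs_mul, abs_pow, abs_mul, mul_pow, mul_add]
          refine add_le_add (mul_le_mul_of_nonneg_left (b2 s) ha) ?_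
          exact mul_le_mul (pow_le_of_le_one ha hεone two_ne_zero)
            (pow_le_pow_left₀ (abs_nonneg _) (b1 s) 2) (by positivity) ha
        rw [norm_eq_abs, abs_mul]
        exact mul_le_mul (hb _) (hb _) (abs_nonneg _) (by positivity)
      · have hq : ∀ s, |h1 s ^ 2| ≤ M ^ 2 := fun s => by
          rw [abs_pow]; exact pow_le_pow_left₀ (abs_nonneg _) (b1 s) 2
        have t1 : |h2 p.1 * h1 (g p) ^ 2 + h1 p.1 ^ 2 * h2 (g p)| ≤ 2 * M * M ^ 2 := by
          refine (abs_add_le _ _).trans ?_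
          rw [abs_mul, abs_mul]
          have u1 := mul_le_mul (b2 p.1) (hq (g p)) (abs_nonneg _) hM
          have u2 := mul_le_mul (hq p.1) (b2 (g p)) (abs_nonneg _) (by positivity)
          linarith
        have t2 : |ε * (h1 p.1 ^ 2 * h1 (g p) ^ 2)| ≤ M ^ 4 := by
          rw [abs_mul, abs_mul, show M ^ 4 = 1 * (M ^ 2 * M ^ 2) by ring]
          exact mul_le_mul hεone (mul_le_mul (hq _) (hq _) (abs_nonneg _) (by positivity)) (by positivity) zero_le_one
        have t3 := neg_abs_le (ε ^ 3 * (h2 p.1 * h1 (g p) ^ 2 + h1 p.1 ^ 2 * h2 (g p)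
          + ε * (h1 p.1 ^ 2 * h1 (g p) ^ 2)))
        rw [abs_mul, abs_pow] at t3
        have t4 := mul_le_mul_of_nonneg_left ((abs_add_le _ _).trans (add_le_add t1 t2))
          (pow_nonneg ha 3)
        simp only [g, C1] at *
        nlinarith
    · have hd : 2 * (2 * (|ε| * M)) ≤ 1 := by linarith
      have he1 : exp (2 * (2 * (|ε| * M))) - 1 ≤ 2 * (2 * (2 * (|ε| * M))) := by
        have h := Real.abs_exp_sub_one_le (x := 2 * (2 * (|ε| * M)))
          (by rwa [abs_of_nonneg (by positivity)])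
        rw [abs_of_nonneg (by positivity : (0 : ℝ) ≤ 2 * (2 * (|ε| * M)))] at h
        exact (le_abs_self _).trans h
      have he2 : exp (2 * (2 * (|ε| * M))) ≤ 3 := by linarith
      have h3 : ε ^ 2 = |ε| ^ 2 := (sq_abs ε).symm
      calc 4 * exp (2 * (2 * (|ε| * M))) * (|ε| * (M + M ^ 2)) * (|ε| * M) ^ 2
            + (exp (2 * (2 * (|ε| * M))) - 1) * (|ε| * (M + M ^ 2)) ^ 2
          ≤ 4 * 3 * (|ε| * (M + M ^ 2)) * (|ε| * M) ^ 2
            + 2 * (2 * (2 * (|ε| * M))) * (|ε| * (M + M ^ 2)) ^ 2 := by gcongr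
        _ = |ε| ^ 2 * (|ε| * C2) := by simp only [C2]; ring
        _ ≤ ε ^ 2 * (m0 - |ε| * C1) := by
            rw [h3]
            refine mul_le_mul_of_nonneg_left ?_ (sq_nonneg _)
            nlinarith

end P157.Conc

end
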