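import Vale.Agent.P157.Conc.Gibbs

/-!
# P157: concavity of one row in the covariance, for potentials of small amplitude
-/

noncomputable section

open MeasureTheory ProbabilityTheory Real Filter Topology Set
open scoped BigOperators Classical

namespace P157.Conc

open Vale.Agent.P150 (gauss)

variable {X ι : Type*} [Fintype X] [Fintype ι]

/-- The pair correlation of `f'' + f'^2` at two Gaussians of covariance `r`. -/
def pairK (f1 f2 : ℝ → ℝ) (r : ℝ) : ℝ :=
  ∫ p : ℝ × ℝ, (f2 p.1 + f1 p.1 ^ 2) *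
      (f2 (r * p.1 + √(1 - r ^ 2) * p.2) + f1 (r * p.1 + √(1 - r ^ 2) * p.2) ^ 2)
    ∂(gaussianReal 0 1).prod (gaussianReal 0 1)

/-- The small amplitude criterion. -/
structure Small (f f1 f2 : ℝ → ℝ) (U V δ κ : ℝ) : Prop where
  osc : ∀ s t, |f s - f t| ≤ δ
  low : ∀ r ∈ Icc (-1 : ℝ) 1, κ ≤ pairK f1 f2 r
  crit : 4 * exp (2 * δ) * V * U ^ 2 + (exp (2 * δ) - 1) * V ^ 2 ≤ κ

/-- The data of a path: nonnegative squares, unit variances at both ends. -/
structure Path (e : X → ι → ℝ) (P R : ι → ℝ) : Prop where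
  hP : ∀ i, 0 ≤ P i
  hR : ∀ i, 0 ≤ R i
  nP : ∀ x, ∑ i, P i * e x i ^ 2 = 1
  nR : ∀ x, ∑ i, R i * e x i ^ 2 = 1

variable {e : X → ι → ℝ} {P R : ι → ℝ}

omit [Fintype X] in
lemma Path.diag (h : Path e P R) (x : X) : Dmat e P R x x = 0 := by
  have : Dmat e P R x x = ∑ i, R i * e x i ^ 2 - ∑ i, P i * e x i ^ 2 := by
    rw [← Finset.sum_sub_distrib]; exact Finset.sum_congr rfl fun i _ => by ring
  rw [this, h.nP, h.nR, sub_self]

omit [Fintype X] in
lemma Dmat_comm (x y : X) : Dmat e P R x y = Dmat e P R y x :=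
  Finset.sum_congr rfl fun i _ => by ring

omit [Fintype X] in
lemma Path.unit (h : Path e P R) {t : ℝ} (ht : t ∈ Icc (0 : ℝ) 1) (x : X) :
    ∑ i, pathE e P R t x i ^ 2 = 1 := by
  have : ∀ i, pathE e P R t x i ^ 2 = (1 - t) * (P i * e x i ^ 2) + t * (R i * e x i ^ 2) := by
    intro i
    rw [pathE, mul_pow, coef, Real.sq_sqrt (add_nonneg (mul_nonneg (by linarith [ht.2]) (h.hP i))
      (mul_nonneg ht.1 (h.hR i)))]
    ring
  simp only [this, Finset.sum_add_distrib, ← Finset.mul_sum, h.nP, h.nR]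
  ring

/-- The law of a pair of unit Gaussians of the field. -/
lemma integral_pair {G : ℝ → ℝ → ℝ} (hG : Continuous fun p : ℝ × ℝ => G p.1 p.2) (a : X → ι → ℝ)
    (hu : ∀ x, ∑ i, a x i ^ 2 = 1) (x y : X) :
    (∑ i, a x i * a y i) ∈ Icc (-1 : ℝ) 1 ∧
    ∫ g, G (lin a g x) (lin a g y) ∂gauss ι
      = ∫ p : ℝ × ℝ, G p.1 ((∑ i, a x i * a y i) * p.1 + √(1 - (∑ i, a x i * a y i) ^ 2) * p.2)
        ∂(gaussianReal 0 1).prod (gaussianReal 0 1) := by
  set r := ∑ i, a x i * a y i with hr
  have hr1 : r ^ 2 ≤ 1 := by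
    have := Finset.sum_mul_sq_le_sq_mul_sq Finset.univ (a x) (a y)
    rw [hu x, hu y, one_mul] at this
    exact this
  refine ⟨abs_le.1 ((sq_le_one_iff_abs_le_one r).1 hr1), ?_⟩
  set a2 : Bool → ι → ℝ := fun b i => if b then a y i else a x i
  set b2 : Bool → Fin 2 → ℝ := fun b => if b then ![r, √(1 - r ^ 2)] else ![1, 0]
  have key := integral_lin_eq a2 b2 (fun p q => ?_) (H := fun v => G (v false) (v true))
    (hG.comp (Continuous.prodMk (continuous_apply false) (continuous_apply true)))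
  · refine Eq.trans ?_ (key.trans ?_)
    · rfl
    · have h := measurePreserving_finTwoArrow (gaussianReal 0 1)
      rw [← h.map_eq, integral_map_equiv, show gauss (Fin 2) = Measure.pi fun _ : Fin 2 => gaussianReal 0 1
        from rfl]
      refine integral_congr_ae (Eventually.of_forall fun g => ?_)
      simp [b2, lin, Fin.sum_univ_two, MeasurableEquiv.finTwoArrow]
  · have hs : √(1 - r ^ 2) ^ 2 = 1 - r ^ 2 := Real.sq_sqrt (by linarith)
    have h1 : ∀ z, ∑ i, a z i * a z i = 1 := fun z => by simp only [← sq]; exact hu z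
    have h2 : ∑ i, a y i * a x i = r := by
      rw [hr]; exact Finset.sum_congr rfl fun i _ => mul_comm _ _
    rcases p with _ | _ <;> rcases q with _ | _ <;>
      simp [a2, b2, Fin.sum_univ_two, h1, h2, ← hr]
    linear_combination -hs

variable {f f1 f2 f3 : ℝ → ℝ} {U V W δ κ : ℝ}

omit [Fintype ι] in
lemma pw_bounds [Nonempty X] (hosc : ∀ s t, |f s - f t| ≤ δ) (u v : X → ℝ) (x : X) :
    exp (-δ) * (exp (u x) / ∑ y, exp (u y)) ≤ pw f u v x ∧
      pw f u v x ≤ exp δ * (exp (u x) / ∑ y, exp (u y)) := by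
  have hs : 0 < ∑ y, exp (u y) := Finset.sum_pos (fun _ _ => exp_pos _) Finset.univ_nonempty
  have hZ : 0 < part f u v := part_pos v
  constructor
  · rw [pw, le_div_iff₀ hZ, mul_div_assoc', div_mul_eq_mul_div, div_le_iff₀ hs, part,
      Finset.mul_sum, Finset.mul_sum]
    refine Finset.sum_le_sum fun y _ => ?_
    simp only [← exp_add]
    exact exp_le_exp.2 (by linarith [(abs_le.1 (hosc (v x) (v y))).1])
  · rw [pw, div_le_iff₀ hZ, mul_div_assoc', div_mul_eq_mul_div, le_div_iff₀ hs, part,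
      Finset.mul_sum, Finset.mul_sum]
    refine Finset.sum_le_sum fun y _ => ?_
    simp only [← exp_add]
    exact exp_le_exp.2 (by linarith [(abs_le.1 (hosc (v x) (v y))).2])

omit [Fintype ι] in
/-- The pointwise lower bound for the sign quantity. -/
lemma Sgn_ge [Nonempty X] (hp : Pot f f1 f2 f3 U V W) (hosc : ∀ s t, |f s - f t| ≤ δ)
    (u : X → ℝ) (D : X → X → ℝ) (v : X → ℝ) :
    (∑ x, ∑ y, D x y ^ 2 * ((exp (u x) / ∑ z, exp (u z)) * (exp (u y) / ∑ z, exp (u z)))
        * ((f2 (v x) + f1 (v x) ^ 2) * (f2 (v y) + f1 (v y) ^ 2)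
          - ((exp (2 * δ) - 1) * V ^ 2 + 4 * exp (2 * δ) * V * U ^ 2)))
      ≤ Sgn f f1 f2 u D v := by
  set w : X → ℝ := fun x => exp (u x) / ∑ z, exp (u z)
  set p : X → ℝ := pw f u v
  set k : X → ℝ := fun x => f2 (v x) + f1 (v x) ^ 2
  have hδ : 0 ≤ δ := (abs_nonneg _).trans (hosc 0 0)
  have hV : 0 ≤ V := (abs_nonneg _).trans (hp.b2 0)
  have hU : 0 ≤ U := (abs_nonneg _).trans (hp.b1 0)
  have hw : ∀ x, 0 ≤ w x := fun x =>
    div_nonneg (exp_pos _).le (Finset.sum_nonneg fun _ _ => (exp_pos _).le)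
  have hp0 : ∀ x, 0 ≤ p x := pw_nonneg v
  have e1 : ∀ x, exp (-δ) * w x ≤ p x := fun x => (pw_bounds hosc u v x).1
  have e2 : ∀ x, p x ≤ exp δ * w x := fun x => (pw_bounds hosc u v x).2
  have hxx : exp δ * exp δ = exp (2 * δ) := by rw [← exp_add]; ring_nf
  have hyy : exp (-δ) * exp (-δ) = exp (-(2 * δ)) := by rw [← exp_add]; ring_nf
  have pp1 : ∀ x y, p x * p y ≤ exp (2 * δ) * (w x * w y) := fun x y => by
    refine (mul_le_mul (e2 x) (e2 y) (hp0 y) (mul_nonneg (exp_pos _).le (hw x))).trans_eq ?_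
    rw [← hxx]; ring
  have pp2 : ∀ x y, exp (-(2 * δ)) * (w x * w y) ≤ p x * p y := fun x y => by
    refine le_trans (le_of_eq ?_) (mul_le_mul (e1 x) (e1 y) (mul_nonneg (exp_pos _).le (hw y)) (hp0 x))
    rw [← hyy]; ring
  have hk : ∀ x, |k x| ≤ V := fun x => hp.b2 (v x)
  have t1 : ∀ x y, w x * w y * (k x * k y - (exp (2 * δ) - 1) * V ^ 2)
      ≤ p x * k x * (p y * k y) := by
    intro x y
    have hkk : |k x * k y| ≤ V ^ 2 := by
      rw [abs_mul, sq]; exact mul_le_mul (hk x) (hk y) (abs_nonneg _) hV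
    have h3 : exp (-(2 * δ)) + exp (2 * δ) ≥ 2 := by
      have := add_one_le_exp (-(2 * δ)); have := add_one_le_exp (2 * δ); linarith
    have hww := mul_nonneg (hw x) (hw y)
    have d : |p x * p y - w x * w y| ≤ (exp (2 * δ) - 1) * (w x * w y) :=
      abs_le.2 ⟨by nlinarith [pp2 x y], by nlinarith [pp1 x y]⟩
    have := neg_abs_le ((p x * p y - w x * w y) * (k x * k y))
    rw [abs_mul] at this
    have := mul_le_mul d hkk (abs_nonneg _) ((abs_nonneg _).trans d)
    nlinarith
  have t2 : ∀ x, rD f f1 u D v x ^ 2 * sw f f1 f2 u v x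
      ≤ ∑ y, V * U ^ 2 * exp (2 * δ) * (D x y ^ 2 * (w x * w y)) := by
    intro x
    have hq : ∀ y, |qw f f1 u v y| ≤ p y * U := fun y => by
      rw [qw, abs_mul, abs_of_nonneg (hp0 y)]
      exact mul_le_mul_of_nonneg_left (hp.b1 _) (hp0 y)
    have hr : rD f f1 u D v x ^ 2 ≤ U ^ 2 * ∑ y, D x y ^ 2 * p y := by
      have hcs := Finset.sum_mul_sq_le_sq_mul_sq Finset.univ (fun y => |D x y| * √(p y)) (fun y => √(p y))
      have e3 : ∀ y, |D x y| * √(p y) * √(p y) = |D x y| * p y := fun y => by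
        rw [mul_assoc, Real.mul_self_sqrt (hp0 y)]
      have e4 : ∀ y, (|D x y| * √(p y)) ^ 2 = D x y ^ 2 * p y := fun y => by
        rw [mul_pow, sq_abs, Real.sq_sqrt (hp0 y)]
      have e5 : ∑ y, √(p y) ^ 2 = 1 := by
        simp only [Real.sq_sqrt (hp0 _)]; exact sum_pw v
      simp only [e3, e4] at hcs
      rw [e5, mul_one] at hcs
      have h4 : |rD f f1 u D v x| ≤ U * ∑ y, |D x y| * p y := by
        rw [rD, Finset.mul_sum]
        refine (Finset.abs_sum_le_sum_abs _ _).trans (Finset.sum_le_sum fun y _ => ?_)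
        rw [abs_mul]
        exact (mul_le_mul_of_nonneg_left (hq y) (abs_nonneg _)).trans_eq (by ring)
      rw [← sq_abs]
      refine (pow_le_pow_left₀ (abs_nonneg _) h4 2).trans ?_
      rw [mul_pow]
      exact mul_le_mul_of_nonneg_left hcs (sq_nonneg U)
    have hs : sw f f1 f2 u v x ≤ p x * V :=
      mul_le_mul_of_nonneg_left ((le_abs_self _).trans (hk x)) (hp0 x)
    refine (mul_le_mul_of_nonneg_left hs (sq_nonneg _)).trans ?_
    refine (mul_le_mul_of_nonneg_right hr (mul_nonneg (hp0 x) hV)).trans ?_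
    rw [Finset.mul_sum, Finset.sum_mul]
    refine Finset.sum_le_sum fun y _ => ?_
    have := mul_le_mul_of_nonneg_left (pp1 x y)
      (mul_nonneg (mul_nonneg hV (sq_nonneg U)) (sq_nonneg (D x y)))
    linarith
  have h3 : 0 ≤ 3 * QD f f1 u D v ^ 2 := by positivity
  refine le_trans ?_ (le_add_of_nonneg_right h3)
  rw [Finset.mul_sum, ← Finset.sum_sub_distrib]
  refine Finset.sum_le_sum fun x _ => ?_
  have := t2 x
  refine le_trans ?_ (sub_le_sub_left (mul_le_mul_of_nonneg_left this (by norm_num)) _)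
  rw [Finset.mul_sum, ← Finset.sum_sub_distrib]
  refine Finset.sum_le_sum fun y _ => ?_
  have := mul_le_mul_of_nonneg_left (t1 x y) (sq_nonneg (D x y))
  simp only [sw]
  linarith

/-- The expected log partition sum with one row. -/
def phi (f : ℝ → ℝ) (u : X → ℝ) (e : X → ι → ℝ) (P R : ι → ℝ) (t : ℝ) : ℝ :=
  ∫ g, H0 f u (Sp e P R t g) ∂gauss ι

/-- The expected replica average along the path. -/
def psi (f f1 : ℝ → ℝ) (u : X → ℝ) (e : X → ι → ℝ) (P R : ι → ℝ) (t : ℝ) : ℝ :=
  ∫ g, QD f f1 u (Dmat e P R) (Sp e P R t g) ∂gauss ι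

variable [Nonempty X] (hp : Pot f f1 f2 f3 U V W) (h : Path e P R) (u : X → ℝ)
include hp h

lemma continuousOn_phi : ContinuousOn (phi f u e P R) (Icc 0 1) := by
  obtain ⟨C, hC⟩ := Bd.bound2 fun x => bd_qw (u := u) hp x
  exact continuousOn_path h.hP h.hR (continuous_H0 hp) ((grad_H0 hp).lip hC)

lemma hasDerivAt_phi {t : ℝ} (ht : t ∈ Ioo (0 : ℝ) 1) :
    HasDerivAt (phi f u e P R) (-(1 / 2) * psi f f1 u e P R t) t := by
  obtain ⟨C1, hC1⟩ := Bd.bound2 fun x => bd_qw (u := u) hp x
  obtain ⟨C2, hC2⟩ := Bd.bound2 fun z : X × X =>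
    show Bd fun v => H0two f f1 f2 u v z.1 z.2 from by
      unfold H0two
      refine Bd.sub ?_ ((bd_qw hp _).mul (bd_qw hp _))
      split_ifs
      · exact bd_sw hp _
      · exact Bd.const 0
  refine (hasDerivAt_path h.hP h.hR (H1 := fun v x => qw f f1 u v x)
    (H2 := H0two f f1 f2 u) (grad_H0 hp) (fun x => grad_qw hp x) (continuous_H0 hp)
    (fun x => continuous_qw hp x) (fun x y => ?_) (C := max C1 C2)
    (fun v x => (hC1 v x).trans (le_max_left _ _))
    (fun v x y => (hC2 v (x, y)).trans (le_max_right _ _)) ht).congr_deriv ?_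
  · unfold H0two
    refine Continuous.sub ?_ ((continuous_qw hp x).mul (continuous_qw hp y))
    split_ifs
    · exact continuous_sw hp x
    · exact continuous_const
  · simp only [sum_H0two h.diag, integral_neg, psi]
    ring

lemma continuousOn_psi : ContinuousOn (psi f f1 u e P R) (Icc 0 1) := by
  obtain ⟨C, hC⟩ := bd_QD (u := u) (D := Dmat e P R) hp
  refine continuousOn_of_dominated (bound := fun _ => C)
    (fun t _ => ((continuous_QD hp).comp (continuous_Sp t)).aestronglyMeasurable)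
    (fun t _ => ae_of_all _ fun g => hC _) (integrable_const _)
    (ae_of_all _ fun g => ((continuous_QD hp).comp (continuous_Sp_t g)).continuousOn)

lemma hasDerivAt_psi {t : ℝ} (ht : t ∈ Ioo (0 : ℝ) 1) :
    HasDerivAt (psi f f1 u e P R)
      (∫ g, Sgn f f1 f2 u (Dmat e P R) (Sp e P R t g) ∂gauss ι) t := by
  obtain ⟨C1, hC1⟩ := Bd.bound2 fun x => show Bd fun v => 2 * (sw f f1 f2 u v x * rD f f1 u (Dmat e P R) v x)
      - 2 * (QD f f1 u (Dmat e P R) v * qw f f1 u v x) from
    ((Bd.const 2).mul ((bd_sw hp x).mul (bd_rD hp x))).sub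
      ((Bd.const 2).mul ((bd_QD hp).mul (bd_qw hp x)))
  obtain ⟨C2, hC2⟩ := Bd.bound2 fun z : X × X =>
    show Bd fun v => QDtwo f f1 f2 f3 u (Dmat e P R) v z.1 z.2 from by
      have i1 : Bd fun v => if z.1 = z.2 then tw f f1 f2 f3 u v z.1 else 0 := by
        split_ifs
        · exact bd_tw hp _
        · exact Bd.const 0
      have i2 : Bd fun v => if z.1 = z.2 then sw f f1 f2 u v z.1 else 0 := by
        split_ifs
        · exact bd_sw hp _
        · exact Bd.const 0
      exact ((Bd.const 2).mul (((i1.sub ((bd_sw hp _).mul (bd_qw hp _))).mul (bd_rD hp _)).add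
        ((bd_sw hp _).mul (((Bd.const _).mul (bd_sw hp _)).sub ((bd_rD hp _).mul (bd_qw hp _)))))).sub
        ((Bd.const 2).mul (((((Bd.const 2).mul ((bd_sw hp _).mul (bd_rD hp _))).sub
          ((Bd.const 2).mul ((bd_QD hp).mul (bd_qw hp _)))).mul (bd_qw hp _)).add
          ((bd_QD hp).mul (i2.sub ((bd_qw hp _).mul (bd_qw hp _))))))
  refine (hasDerivAt_path h.hP h.hR (H2 := QDtwo f f1 f2 f3 u (Dmat e P R))
    (grad_QD hp Dmat_comm) (fun x => grad_QD1 hp Dmat_comm x) (continuous_QD hp)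
    (fun x => ?_) (fun x y => ?_) (C := max C1 C2)
    (fun v x => (hC1 v x).trans (le_max_left _ _))
    (fun v x y => (hC2 v (x, y)).trans (le_max_right _ _)) ht).congr_deriv ?_
  · exact (continuous_const.mul ((continuous_sw hp x).mul (continuous_rD hp x))).sub
      (continuous_const.mul ((continuous_QD hp).mul (continuous_qw hp x)))
  · have hi1 : Continuous fun v => if x = y then tw f f1 f2 f3 u v x else 0 := by
      split_ifs
      · exact continuous_tw hp x
      · exact continuous_const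
    have hi2 : Continuous fun v => if x = y then sw f f1 f2 u v x else 0 := by
      split_ifs
      · exact continuous_sw hp x
      · exact continuous_const
    have := continuous_sw (u := u) hp x
    have := continuous_sw (u := u) hp y
    have := continuous_qw (u := u) hp x
    have := continuous_qw (u := u) hp y
    have := continuous_rD (u := u) (D := Dmat e P R) hp x
    have := continuous_rD (u := u) (D := Dmat e P R) hp y
    have := continuous_QD (u := u) (D := Dmat e P R) hp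
    unfold QDtwo
    fun_prop
  · simp only [sum_QDtwo Dmat_comm h.diag, integral_const_mul]
    ring

lemma Sgn_integral_nonneg (hs : Small f f1 f2 U V δ κ) {t : ℝ} (ht : t ∈ Ioo (0 : ℝ) 1) :
    0 ≤ ∫ g, Sgn f f1 f2 u (Dmat e P R) (Sp e P R t g) ∂gauss ι := by
  set c := (exp (2 * δ) - 1) * V ^ 2 + 4 * exp (2 * δ) * V * U ^ 2
  set w : X → ℝ := fun x => exp (u x) / ∑ z, exp (u z)
  set k : ℝ → ℝ := fun s => f2 s + f1 s ^ 2
  have hkc : Continuous k := hp.c2.add (hp.c1.pow 2)
  have hki : ∀ x y, Integrable (fun g => k (Sp e P R t g x) * k (Sp e P R t g y)) (gauss ι) := by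
    intro x y
    refine Integrable.of_bound (((hkc.comp ((continuous_apply x).comp (continuous_Sp t))).mul
      (hkc.comp ((continuous_apply y).comp (continuous_Sp t))))).aestronglyMeasurable (V * V)
      (ae_of_all _ fun g => ?_)
    rw [norm_eq_abs, abs_mul]
    exact mul_le_mul (hp.b2 _) (hp.b2 _) (abs_nonneg _) ((abs_nonneg _).trans (hp.b2 0))
  have hlow : ∀ x y, κ ≤ ∫ g, k (Sp e P R t g x) * k (Sp e P R t g y) ∂gauss ι := by
    intro x y
    obtain ⟨hr, he⟩ := integral_pair (G := fun a b => k a * k b)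
      ((hkc.comp continuous_fst).mul (hkc.comp continuous_snd)) (pathE e P R t)
      (h.unit ⟨ht.1.le, ht.2.le⟩) x y
    exact (hs.low _ hr).trans_eq he.symm
  have hL : ∀ x y, Integrable (fun g => Dmat e P R x y ^ 2 * (w x * w y)
      * (k (Sp e P R t g x) * k (Sp e P R t g y) - c)) (gauss ι) := fun x y =>
    ((hki x y).sub (integrable_const c)).const_mul _
  have hSc : Continuous fun v => Sgn f f1 f2 u (Dmat e P R) v := by
    have := fun x => continuous_sw (u := u) hp x
    have := fun x => continuous_rD (u := u) (D := Dmat e P R) hp x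
    have := continuous_QD (u := u) (D := Dmat e P R) hp
    unfold Sgn
    fun_prop
  have hSb : Bd fun v => Sgn f f1 f2 u (Dmat e P R) v := by
    have q := bd_QD (u := u) (D := Dmat e P R) hp
    simp only [Sgn, sq]
    exact ((Bd.sum fun x => Bd.sum fun y => (Bd.const _).mul ((bd_sw hp x).mul (bd_sw hp y))).sub
      ((Bd.const 4).mul (Bd.sum fun x => ((bd_rD hp x).mul (bd_rD hp x)).mul (bd_sw hp x)))).add
      ((Bd.const 3).mul (q.mul q))
  obtain ⟨C, hC⟩ := hSb
  refine le_trans ?_ (integral_mono (integrable_finsetSum _ fun x _ => integrable_finsetSum _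
    fun y _ => hL x y) (Integrable.of_bound (hSc.comp (continuous_Sp t)).aestronglyMeasurable C
      (ae_of_all _ fun g => hC _)) fun g => Sgn_ge hp hs.osc u _ (Sp e P R t g))
  rw [integral_finsetSum _ fun x _ => integrable_finsetSum _ fun y _ => hL x y]
  refine Finset.sum_nonneg fun x _ => ?_
  rw [integral_finsetSum _ fun y _ => hL x y]
  refine Finset.sum_nonneg fun y _ => ?_
  rw [integral_const_mul, integral_sub (hki x y) (integrable_const c)]
  refine mul_nonneg (mul_nonneg (sq_nonneg _) (mul_nonneg ?_ ?_)) ?_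
  · exact div_nonneg (exp_pos _).le (Finset.sum_nonneg fun _ _ => (exp_pos _).le)
  · exact div_nonneg (exp_pos _).le (Finset.sum_nonneg fun _ _ => (exp_pos _).le)
  · simp only [integral_const, probReal_univ, one_smul]
    linarith [hlow x y, hs.crit]

lemma psi_mono (hs : Small f f1 f2 U V δ κ) : MonotoneOn (psi f f1 u e P R) (Icc 0 1) := by
  refine monotoneOn_of_deriv_nonneg (convex_Icc 0 1) (continuousOn_psi hp h u)
    (fun t ht => ?_) fun t ht => ?_ <;> rw [interior_Icc] at ht
  · exact (hasDerivAt_psi hp h u ht).differentiableAt.differentiableWithinAt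
  · rw [(hasDerivAt_psi hp h u ht).deriv]
    exact Sgn_integral_nonneg hp h u hs ht

/-- Concavity of one row along the path. -/
theorem concaveOn_phi (hs : Small f f1 f2 U V δ κ) :
    ConcaveOn ℝ (Icc 0 1) (phi f u e P R) := by
  refine AntitoneOn.concaveOn_of_deriv (convex_Icc 0 1) (continuousOn_phi hp h u) (fun t ht => ?_) ?_
  · rw [interior_Icc] at ht
    exact (hasDerivAt_phi hp h u ht).differentiableAt.differentiableWithinAt
  · rw [interior_Icc]
    intro a ha b hb hab
    rw [(hasDerivAt_phi hp h u ha).deriv, (hasDerivAt_phi hp h u hb).deriv]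
    linarith [psi_mono hp h u hs ⟨ha.1.le, ha.2.le⟩ ⟨hb.1.le, hb.2.le⟩ hab]

/-- The tangent bound at the beginning of the path. -/
theorem phi_tangent (hs : Small f f1 f2 U V δ κ) :
    phi f u e P R 1 ≤ phi f u e P R 0 - (1 / 2) * psi f f1 u e P R 0 := by
  obtain ⟨c, hc, he⟩ := exists_hasDerivAt_eq_slope (phi f u e P R)
    (fun t => -(1 / 2) * psi f f1 u e P R t) zero_lt_one (continuousOn_phi hp h u)
    (fun t ht => hasDerivAt_phi hp h u ht)
  have := psi_mono hp h u hs (left_mem_Icc.2 zero_le_one) ⟨hc.1.le, hc.2.le⟩ hc.1.le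
  simp only [sub_zero, div_one] at he
  linarith

end P157.Conc

end
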