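import Vale.Agent.P157.Conc.Gauss

/-!
# P157: derivative of Gaussian expectations along a linear path of covariances
-/

noncomputable section

open MeasureTheory ProbabilityTheory Real Filter Topology Set
open scoped BigOperators

namespace P157.Conc

open Vale.Agent.P150 (gauss)

variable {X ι : Type*} [Fintype X] [Fintype ι]

/-- The coefficient at time `t` of the path from squares `P` to squares `R`. -/
def coef (P R : ι → ℝ) (t : ℝ) (i : ι) : ℝ := √((1 - t) * P i + t * R i)

/-- The coefficients of the field at time `t`. -/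
def pathE (e : X → ι → ℝ) (P R : ι → ℝ) (t : ℝ) (x : X) (i : ι) : ℝ := coef P R t i * e x i

/-- The field at time `t`. -/
def Sp (e : X → ι → ℝ) (P R : ι → ℝ) (t : ℝ) (g : ι → ℝ) : X → ℝ := lin (pathE e P R t) g

/-- The derivative of the Gram matrix along the path. -/
def Dmat (e : X → ι → ℝ) (P R : ι → ℝ) (x y : X) : ℝ := ∑ i, (R i - P i) * (e x i * e y i)

/-- A function with a gradient `H1`, along differentiable curves. -/
def Grad (H : (X → ℝ) → ℝ) (H1 : (X → ℝ) → X → ℝ) : Prop :=
  ∀ (v : ℝ → X → ℝ) (w : X → ℝ) (s : ℝ), (∀ x, HasDerivAt (fun r => v r x) (w x) s) →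
    HasDerivAt (fun r => H (v r)) (∑ x, H1 (v s) x * w x) s

lemma Grad.lip {H : (X → ℝ) → ℝ} {H1 : (X → ℝ) → X → ℝ} (h : Grad H H1) {C : ℝ}
    (hC : ∀ v x, |H1 v x| ≤ C) (v v' : X → ℝ) : |H v - H v'| ≤ C * ∑ x, |v x - v' x| := by
  have hd : ∀ s, HasDerivAt (fun r : ℝ => H (fun x => v' x + r * (v x - v' x)))
      (∑ x, H1 (fun x => v' x + s * (v x - v' x)) x * (v x - v' x)) s :=
    fun s => h (fun r x => v' x + r * (v x - v' x)) _ s
      fun x => (hasDerivAt_mul_const _).const_add _
  have hb : ∀ s : ℝ, ‖∑ x, H1 (fun x => v' x + s * (v x - v' x)) x * (v x - v' x)‖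
      ≤ C * ∑ x, |v x - v' x| := fun s => by
    rw [Real.norm_eq_abs, Finset.mul_sum]
    refine (Finset.abs_sum_le_sum_abs _ _).trans (Finset.sum_le_sum fun x _ => ?_)
    rw [abs_mul]
    exact mul_le_mul_of_nonneg_right (hC _ x) (abs_nonneg _)
  have := Convex.norm_image_sub_le_of_norm_hasDerivWithin_le (s := Set.univ)
    (fun s _ => (hd s).hasDerivWithinAt) (fun s _ => hb s) convex_univ (mem_univ 0) (mem_univ 1)
  simpa [Real.norm_eq_abs] using this

variable {e : X → ι → ℝ} {P R : ι → ℝ}

omit [Fintype X] in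
lemma Sp_eq (t : ℝ) (g : ι → ℝ) (x : X) :
    Sp e P R t g x = ∑ i, coef P R t i * e x i * g i := rfl

omit [Fintype X] in
lemma continuous_Sp (t : ℝ) : Continuous fun g => Sp e P R t g := continuous_lin _

omit [Fintype X] in
lemma continuous_Sp_t (g : ι → ℝ) : Continuous fun t => Sp e P R t g := by
  unfold Sp lin pathE coef
  fun_prop

omit [Fintype ι] in
lemma coef_le (hP : ∀ i, 0 ≤ P i) (hR : ∀ i, 0 ≤ R i) {t : ℝ} (ht : t ∈ Icc (0 : ℝ) 1) (i : ι) :
    |coef P R t i| ≤ √(P i + R i) := by
  rw [coef, abs_of_nonneg (Real.sqrt_nonneg _)]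
  refine Real.sqrt_le_sqrt ?_
  have := mul_nonneg ht.1 (hP i)
  have := mul_nonneg (sub_nonneg.2 ht.2) (hR i)
  nlinarith

lemma integrable_H {H : (X → ℝ) → ℝ} (hHc : Continuous H) {C : ℝ}
    (hlip : ∀ v v', |H v - H v'| ≤ C * ∑ x, |v x - v' x|) (a : X → ι → ℝ) :
    Integrable (fun g => H (lin a g)) (gauss ι) := by
  refine Vale.Agent.P150.integrable_of_linear_bound (hHc.comp (continuous_lin a)) (A := |H 0|)
    (B := |C| * ∑ x, ∑ i, |a x i|) fun g => ?_
  have h1 := hlip (lin a g) 0
  simp only [Pi.zero_apply, sub_zero] at h1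
  have h2 : ∑ x, |lin a g x| ≤ (∑ x, ∑ i, |a x i|) * ∑ i, |g i| := by
    rw [Finset.sum_mul]
    refine Finset.sum_le_sum fun x _ => (Finset.abs_sum_le_sum_abs _ _).trans ?_
    rw [Finset.sum_mul]
    refine Finset.sum_le_sum fun i _ => ?_
    rw [abs_mul]
    exact mul_le_mul_of_nonneg_left
      (Finset.single_le_sum (f := fun j => |g j|) (fun j _ => abs_nonneg _) (Finset.mem_univ i))
      (abs_nonneg _)
  have h3 : C * ∑ x, |lin a g x| ≤ |C| * ((∑ x, ∑ i, |a x i|) * ∑ i, |g i|) :=
    (mul_le_mul_of_nonneg_right (le_abs_self C) (Finset.sum_nonneg fun x _ => abs_nonneg _)).trans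
      (mul_le_mul_of_nonneg_left h2 (abs_nonneg _))
  have h4 := abs_sub_abs_le_abs_sub (H (lin a g)) (H 0)
  nlinarith

/-- Continuity of the expectation along the path, up to the end points. -/
theorem continuousOn_path (hP : ∀ i, 0 ≤ P i) (hR : ∀ i, 0 ≤ R i) {H : (X → ℝ) → ℝ}
    (hHc : Continuous H) {C : ℝ} (hlip : ∀ v v', |H v - H v'| ≤ C * ∑ x, |v x - v' x|) :
    ContinuousOn (fun t => ∫ g, H (Sp e P R t g) ∂gauss ι) (Icc 0 1) := by
  refine continuousOn_of_dominated
    (bound := fun g => |H 0| + |C| * ∑ x, ∑ i, √(P i + R i) * |e x i| * |g i|)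
    (fun t _ => (hHc.comp (continuous_Sp t)).aestronglyMeasurable)
    (fun t ht => ae_of_all _ fun g => ?_) ?_
    (ae_of_all _ fun g => (hHc.comp (continuous_Sp_t g)).continuousOn)
  · rw [Real.norm_eq_abs]
    have h1 := hlip (Sp e P R t g) 0
    simp only [Pi.zero_apply, sub_zero] at h1
    have h2 : ∑ x, |Sp e P R t g x| ≤ ∑ x, ∑ i, √(P i + R i) * |e x i| * |g i| := by
      refine Finset.sum_le_sum fun x _ => ?_
      rw [Sp_eq]
      refine (Finset.abs_sum_le_sum_abs _ _).trans (Finset.sum_le_sum fun i _ => ?_)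
      rw [abs_mul, abs_mul]
      gcongr
      exact coef_le hP hR ht i
    have h3 : C * ∑ x, |Sp e P R t g x| ≤ |C| * ∑ x, ∑ i, √(P i + R i) * |e x i| * |g i| :=
      (mul_le_mul_of_nonneg_right (le_abs_self C) (Finset.sum_nonneg fun x _ => abs_nonneg _)).trans
        (mul_le_mul_of_nonneg_left h2 (abs_nonneg _))
    have h4 := abs_sub_abs_le_abs_sub (H (Sp e P R t g)) (H 0)
    linarith
  · exact (integrable_const _).add ((integrable_finsetSum _ fun x _ => integrable_finsetSum _
      fun i _ => (Vale.Agent.P150.integrable_eval i).abs.const_mul _).const_mul _)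

omit [Fintype ι] in
lemma hasDerivAt_coef (hP : ∀ i, 0 ≤ P i) (hR : ∀ i, 0 ≤ R i) {t : ℝ} (ht : t ∈ Ioo (0 : ℝ) 1)
    (i : ι) : HasDerivAt (fun s => coef P R s i) ((R i - P i) / (2 * coef P R t i)) t := by
  rcases eq_or_lt_of_le (add_nonneg (hP i) (hR i)) with h | h
  · have hP0 : P i = 0 := by linarith [hP i, hR i]
    have hR0 : R i = 0 := by linarith [hP i, hR i]
    simp only [coef, hP0, hR0, mul_zero, add_zero, sub_zero, zero_div, Real.sqrt_zero]
    exact hasDerivAt_const t (0 : ℝ)
  · have hpos : 0 < (1 - t) * P i + t * R i := by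
      rcases eq_or_lt_of_le (hP i) with hp | hp
      · have : 0 < R i := by linarith
        rw [← hp, mul_zero, zero_add]; exact mul_pos ht.1 this
      · exact add_pos_of_pos_of_nonneg (mul_pos (by linarith [ht.2]) hp) (mul_nonneg ht.1.le (hR i))
    have h1 : HasDerivAt (fun s => (1 - s) * P i + s * R i) (R i - P i) t :=
      ((((hasDerivAt_id t).const_sub 1).mul_const (P i)).add
        ((hasDerivAt_id t).mul_const (R i))).congr_deriv (by ring)
    exact h1.sqrt hpos.ne'

omit [Fintype ι] in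
lemma coef_deriv_mul (hP : ∀ i, 0 ≤ P i) (hR : ∀ i, 0 ≤ R i) {t : ℝ} (ht : t ∈ Ioo (0 : ℝ) 1)
    (i : ι) : (R i - P i) / (2 * coef P R t i) * coef P R t i = (R i - P i) / 2 := by
  rcases eq_or_ne (coef P R t i) 0 with h | h
  · have h0 : (1 - t) * P i + t * R i = 0 := by
      have := (Real.sqrt_eq_zero'.1 h)
      have := mul_nonneg (sub_nonneg.2 ht.2.le) (hP i)
      have := mul_nonneg ht.1.le (hR i)
      linarith
    have hp : P i = 0 := by
      have := mul_nonneg ht.1.le (hR i)
      nlinarith [hP i, ht.2]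
    have hr : R i = 0 := by
      rw [hp, mul_zero, zero_add] at h0
      exact (mul_eq_zero.1 h0).resolve_left ht.1.ne'
    simp [h, hp, hr]
  · field_simp

/-- Derivative of the expectation of a smooth function of the field along the path. -/
theorem hasDerivAt_path (hP : ∀ i, 0 ≤ P i) (hR : ∀ i, 0 ≤ R i) {H : (X → ℝ) → ℝ}
    {H1 : (X → ℝ) → X → ℝ} {H2 : (X → ℝ) → X → X → ℝ} (hg : Grad H H1)
    (hg2 : ∀ x, Grad (fun v => H1 v x) (fun v => H2 v x)) (hHc : Continuous H)
    (hc1 : ∀ x, Continuous fun v => H1 v x) (hc2 : ∀ x y, Continuous fun v => H2 v x y) {C : ℝ}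
    (hb1 : ∀ v x, |H1 v x| ≤ C) (hb2 : ∀ v x y, |H2 v x y| ≤ C) {t : ℝ} (ht : t ∈ Ioo (0 : ℝ) 1) :
    HasDerivAt (fun s => ∫ g, H (Sp e P R s g) ∂gauss ι)
      ((1 / 2) * ∫ g, ∑ x, ∑ y, Dmat e P R x y * H2 (Sp e P R t g) x y ∂gauss ι) t := by
  classical
  obtain ⟨a, hta⟩ : ∃ a, a = t / 2 := ⟨_, rfl⟩
  obtain ⟨b, htb⟩ : ∃ b, b = (1 + t) / 2 := ⟨_, rfl⟩
  have ha : 0 < a := by linarith [ht.1]
  have hb : b < 1 := by linarith [ht.2]
  set m : ℝ := min a (1 - b)
  have hm : 0 < m := lt_min ha (by linarith)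
  set K : ι → ℝ := fun i => |R i - P i| / (2 * √(m * (P i + R i)))
  set c' : ℝ → ι → ℝ := fun s i => (R i - P i) / (2 * coef P R s i)
  have hK : ∀ s ∈ Ioo a b, ∀ i, |c' s i| ≤ K i := by
    intro s hs i
    simp only [c', K, abs_div, abs_mul, abs_two, abs_of_nonneg (Real.sqrt_nonneg _), coef]
    rcases eq_or_lt_of_le (add_nonneg (hP i) (hR i)) with h | h
    · have hP0 : P i = 0 := by linarith [hP i, hR i]
      have hR0 : R i = 0 := by linarith [hP i, hR i]
      simp [hP0, hR0]
    · have := Real.sqrt_pos.2 (mul_pos hm h)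
      gcongr
      · have h1 : m * P i ≤ (1 - s) * P i :=
          mul_le_mul_of_nonneg_right ((min_le_right _ _).trans (by linarith [hs.2])) (hP i)
        have h2 : m * R i ≤ s * R i :=
          mul_le_mul_of_nonneg_right ((min_le_left _ _).trans (by linarith [hs.1])) (hR i)
        linarith
  have hsub : ∀ s ∈ Ioo a b, s ∈ Ioo (0 : ℝ) 1 := fun s hs => ⟨ha.trans hs.1, hs.2.trans hb⟩
  have hderiv : ∀ g, ∀ s ∈ Ioo a b, HasDerivAt (fun r => H (Sp e P R r g))
      (∑ x, H1 (Sp e P R s g) x * ∑ i, c' s i * e x i * g i) s := by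
    intro g s hs
    refine hg _ _ s fun x => ?_
    simp only [Sp_eq]
    exact HasDerivAt.fun_sum fun i _ =>
      ((hasDerivAt_coef hP hR (hsub s hs) i).mul_const (e x i)).mul_const (g i)
  obtain ⟨-, h2⟩ := hasDerivAt_integral_of_dominated_loc_of_deriv_le
    (μ := gauss ι) (s := Ioo a b) (x₀ := t) (F := fun s g => H (Sp e P R s g))
    (F' := fun s g => ∑ x, H1 (Sp e P R s g) x * ∑ i, c' s i * e x i * g i)
    (bound := fun g => ∑ x, C * ∑ i, K i * |e x i| * |g i|)
    (Ioo_mem_nhds (by linarith [ht.1]) (by linarith [ht.2]))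
    (Eventually.of_forall fun s => (hHc.comp (continuous_Sp s)).aestronglyMeasurable)
    (integrable_H hHc (hg.lip hb1) _)
    (Continuous.aestronglyMeasurable (continuous_finsetSum _ fun x _ =>
      ((hc1 x).comp (continuous_Sp t)).mul (by fun_prop)))
    (ae_of_all _ fun g s hs => by
      rw [Real.norm_eq_abs]
      refine (Finset.abs_sum_le_sum_abs _ _).trans (Finset.sum_le_sum fun x _ => ?_)
      rw [abs_mul]
      refine mul_le_mul (hb1 _ x) ?_ (abs_nonneg _) ((abs_nonneg _).trans (hb1 (Sp e P R s g) x))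
      refine (Finset.abs_sum_le_sum_abs _ _).trans (Finset.sum_le_sum fun i _ => ?_)
      rw [abs_mul, abs_mul]
      gcongr
      exact hK s hs i)
    (integrable_finsetSum _ fun x _ => (integrable_finsetSum _ fun i _ =>
      (Vale.Agent.P150.integrable_eval i).abs.const_mul _).const_mul C)
    (ae_of_all _ hderiv)
  refine h2.congr_deriv ?_
  have hibp : ∀ x i, ∫ g, g i * H1 (Sp e P R t g) x ∂gauss ι
      = ∫ g, ∑ y, H2 (Sp e P R t g) x y * (coef P R t i * e y i) ∂gauss ι := by
    intro x i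
    refine ibp_coord i (fun g r => ?_) ((hc1 x).comp (continuous_Sp t))
      (continuous_finsetSum _ fun y _ => ((hc2 x y).comp (continuous_Sp t)).mul continuous_const)
      (B := max C (∑ y, C * |coef P R t i * e y i|))
      (fun g => (hb1 _ x).trans (le_max_left _ _)) (fun g => ?_)
    · refine hg2 x _ _ r fun y => ?_
      have hupd : ∀ r, Sp e P R t (Function.update g i r) y
          = Sp e P R t g y + coef P R t i * e y i * (r - g i) := by
        intro r
        simp only [Sp_eq]
        have : ∀ j, coef P R t j * e y j * Function.update g i r j = coef P R t j * e y j * g j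
            + if j = i then coef P R t i * e y i * (r - g i) else 0 := by
          intro j
          by_cases hj : j = i
          · subst hj; simp; ring
          · simp [hj]
        simp [this, Finset.sum_add_distrib]
      simp only [hupd]
      exact ((((hasDerivAt_id r).sub_const (g i)).const_mul (coef P R t i * e y i)).const_add
        (Sp e P R t g y)).congr_deriv (mul_one _)
    · refine le_trans ?_ (le_max_right _ _)
      refine (Finset.abs_sum_le_sum_abs _ _).trans (Finset.sum_le_sum fun y _ => ?_)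
      rw [abs_mul]
      exact mul_le_mul_of_nonneg_right (hb2 _ x y) (abs_nonneg _)
  have hi1 : ∀ x i, Integrable (fun g => g i * H1 (Sp e P R t g) x) (gauss ι) := fun x i =>
    ((Vale.Agent.P150.integrable_eval i).bdd_mul ((hc1 x).comp (continuous_Sp t)).aestronglyMeasurable
      (ae_of_all _ fun g => by rw [norm_eq_abs]; exact hb1 _ x)).congr
      (ae_of_all _ fun g => mul_comm _ _)
  have hi2 : ∀ x y, Integrable (fun g => H2 (Sp e P R t g) x y) (gauss ι) := fun x y =>
    Vale.Agent.P150.integrable_gauss_bound ((hc2 x y).comp (continuous_Sp t)) fun g => hb2 _ x y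
  calc ∫ g, ∑ x, H1 (Sp e P R t g) x * ∑ i, c' t i * e x i * g i ∂gauss ι
      = ∫ g, ∑ x, ∑ i, c' t i * e x i * (g i * H1 (Sp e P R t g) x) ∂gauss ι := by
        refine integral_congr_ae (ae_of_all _ fun g => Finset.sum_congr rfl fun x _ => ?_)
        simp only [Finset.mul_sum]
        exact Finset.sum_congr rfl fun i _ => by ring
    _ = ∑ x, ∑ i, c' t i * e x i * ∫ g, g i * H1 (Sp e P R t g) x ∂gauss ι := by
        rw [integral_finsetSum _ fun x _ => integrable_finsetSum _ fun i _ => (hi1 x i).const_mul _]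
        refine Finset.sum_congr rfl fun x _ => ?_
        rw [integral_finsetSum _ fun i _ => (hi1 x i).const_mul _]
        exact Finset.sum_congr rfl fun i _ => integral_const_mul _ _
    _ = ∑ x, ∑ i, ∑ y, (R i - P i) / 2 * (e x i * e y i) * ∫ g, H2 (Sp e P R t g) x y ∂gauss ι := by
        refine Finset.sum_congr rfl fun x _ => Finset.sum_congr rfl fun i _ => ?_
        rw [hibp, integral_finsetSum _ fun y _ => (hi2 x y).mul_const _, Finset.mul_sum]
        refine Finset.sum_congr rfl fun y _ => ?_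
        rw [integral_mul_const, ← coef_deriv_mul hP hR ht i]
        ring
    _ = _ := by
        rw [integral_finsetSum _ fun x _ => integrable_finsetSum _ fun y _ => (hi2 x y).const_mul _,
          Finset.mul_sum]
        refine Finset.sum_congr rfl fun x _ => ?_
        rw [integral_finsetSum _ fun y _ => (hi2 x y).const_mul _, Finset.sum_comm, Finset.mul_sum]
        refine Finset.sum_congr rfl fun y _ => ?_
        rw [integral_const_mul, Dmat, Finset.sum_mul, Finset.mul_sum]
        exact Finset.sum_congr rfl fun i _ => by ring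

end P157.Conc

end
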