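import Vale.Agent.P157.Conc.RowBound

/-!
# P157: the Gaussian field which absorbs the overlaps
-/

noncomputable section

open MeasureTheory ProbabilityTheory Real Filter Topology Set
open scoped BigOperators

namespace P157.Conc

open Vale.Agent.P150 (gauss)

variable {ι : Type*} [Fintype ι] [DecidableEq ι]

/-- The field of variance `v` at each site. -/
def fieldS (v : ℝ) (g : ι → ℝ) (σ : ι → Bool) : ℝ := √v * ∑ i, g i * spin (σ i)

/-- The log partition sum averaged over the field. -/
def gField (v : ℝ) (u : (ι → Bool) → ℝ) : ℝ := ∫ g, base (fun σ => u σ + fieldS v g σ) ∂gauss ι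

omit [DecidableEq ι] in
lemma continuous_fieldS (v : ℝ) : Continuous fun g : ι → ℝ => fun σ => fieldS v g σ :=
  continuous_pi fun σ => by unfold fieldS; fun_prop

omit [DecidableEq ι] in
lemma abs_fieldS_le (v : ℝ) (g : ι → ℝ) (σ : ι → Bool) : |fieldS v g σ| ≤ √v * ∑ i, |g i| := by
  rw [fieldS, abs_mul, abs_of_nonneg (Real.sqrt_nonneg _)]
  refine mul_le_mul_of_nonneg_left ((Finset.abs_sum_le_sum_abs _ _).trans_eq
    (Finset.sum_congr rfl fun i _ => ?_)) (Real.sqrt_nonneg _)
  cases σ i <;> simp [spin]

lemma abs_base_field_le (v : ℝ) (u : (ι → Bool) → ℝ) (g : ι → ℝ) :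
    |base (fun σ => u σ + fieldS v g σ)| ≤ |base u| + √v * ∑ i, |g i| := by
  have h := lip_base (fun σ => u σ + fieldS v g σ) u (√v * ∑ i, |g i|) fun σ => by
    simpa using abs_fieldS_le v g σ
  linarith [abs_sub_abs_le_abs_sub (base (fun σ => u σ + fieldS v g σ)) (base u)]

lemma integrable_gField (v : ℝ) (u : (ι → Bool) → ℝ) :
    Integrable (fun g => base (fun σ => u σ + fieldS v g σ)) (gauss ι) :=
  Vale.Agent.P150.integrable_of_linear_bound (lip_base.continuous.comp (continuous_pi fun σ =>
    continuous_const.add ((continuous_apply σ).comp (continuous_fieldS v))))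
    (abs_base_field_le v u)

lemma lip_gField (v : ℝ) : Lip (gField (ι := ι) v) := by
  intro a b t ht
  unfold gField
  rw [← integral_sub (integrable_gField v a) (integrable_gField v b), ← Real.norm_eq_abs]
  refine (norm_integral_le_of_norm_le_const (C := t) (ae_of_all _ fun g => ?_)).trans_eq (by simp)
  rw [Real.norm_eq_abs]
  exact lip_base _ _ t fun σ => by simpa using ht σ

lemma gField_zero (u : (ι → Bool) → ℝ) : gField 0 u = base u := by
  simp [gField, fieldS]

/-- Composition of two independent fields. -/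
lemma gField_add {a b : ℝ} (ha : 0 ≤ a) (hb : 0 ≤ b) (u : (ι → Bool) → ℝ) :
    ∫ h, gField b (fun σ => u σ + fieldS a h σ) ∂gauss ι = gField (a + b) u := by
  set e : (ι → Bool) → ι ⊕ ι → ℝ :=
    fun σ => Sum.elim (fun i => √a * spin (σ i)) (fun i => √b * spin (σ i))
  set e' : (ι → Bool) → ι → ℝ := fun σ i => √(a + b) * spin (σ i)
  have hH : Continuous fun v : (ι → Bool) → ℝ => base (fun σ => u σ + v σ) :=
    lip_base.continuous.comp (continuous_pi fun σ => continuous_const.add (continuous_apply σ))
  have hlip : ∀ v v' : (ι → Bool) → ℝ, |base (fun σ => u σ + v σ) - base (fun σ => u σ + v' σ)|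
      ≤ 1 * ∑ σ, |v σ - v' σ| := fun v v' => lip_base _ _ _ fun σ => by
    rw [one_mul, add_sub_add_left_eq_sub]
    exact Finset.single_le_sum (f := fun σ => |v σ - v' σ|) (fun σ _ => abs_nonneg _) (Finset.mem_univ σ)
  have h := integral_lin_eq e e' (fun x y => by
    simp only [e, e', Fintype.sum_sum_type, Sum.elim_inl, Sum.elim_inr, ← Finset.sum_add_distrib]
    refine Finset.sum_congr rfl fun i _ => ?_
    linear_combination (spin (x i) * spin (y i)) * (Real.mul_self_sqrt ha + Real.mul_self_sqrt hb
      - Real.mul_self_sqrt (add_nonneg ha hb))) hH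
  rw [integral_split (integrable_H hH hlip e)] at h
  refine Eq.trans ?_ (h.trans ?_)
  · refine integral_congr_ae (ae_of_all _ fun g => integral_congr_ae (ae_of_all _ fun g' => ?_))
    dsimp only
    congr 1
    funext σ
    simp only [fieldS, lin, e, Fintype.sum_sum_type, Sum.elim_inl, Sum.elim_inr, Finset.mul_sum]
    rw [add_assoc]
    congr 1
    congr 1 <;> exact Finset.sum_congr rfl fun i _ => by ring
  · refine integral_congr_ae (ae_of_all _ fun g => ?_)
    dsimp only
    congr 1
    funext σ
    simp only [fieldS, lin, e', Finset.mul_sum]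
    congr 1
    exact Finset.sum_congr rfl fun i _ => by ring

lemma pot_id : Pot (fun s : ℝ => s) (fun _ => 1) (fun _ => 0) (fun _ => 0) 1 1 0 where
  d1 s := hasDerivAt_id s
  d2 s := hasDerivAt_const s 1
  d3 s := hasDerivAt_const s 0
  c3 := continuous_const
  b1 s := by simp
  b2 s := by simp
  b3 s := by simp

/-- A small field gains `1 - overlap` at first order. -/
theorem gField_lower [Nonempty ι] : ∃ C, ∀ (v : ℝ), 0 ≤ v → ∀ u : (ι → Bool) → ℝ,
    base u + v * Fintype.card ι / 2 * (1 - ovl (fun _ : ι => (√(Fintype.card ι : ℝ))⁻¹) u)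
      - C * (v * √v) ≤ gField v u := by
  set N : ℝ := (Fintype.card ι : ℝ)
  have hN : 0 < N := by simp only [N]; exact_mod_cast Fintype.card_pos
  set m1 : ℝ := ∫ g, ∑ i, |g i| ∂gauss ι
  refine ⟨2 * N * Fintype.card (ι → Bool) * m1, fun v hv u => ?_⟩
  set P : ι → ℝ := 0
  set R : ι → ℝ := fun _ => v
  set f : ℝ → ℝ := fun s => s
  set f1 : ℝ → ℝ := fun _ => 1
  set D := Dmat (spinE (ι := ι)) P R
  have hp := pot_id
  have hP : ∀ i, 0 ≤ P i := fun i => le_rfl
  have hR : ∀ i, 0 ≤ R i := fun i => hv
  have hD : ∀ x y, D x y = v * ∑ i, spin (x i) * spin (y i) := fun x y => by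
    simp [D, Dmat, P, R, spinE, Finset.mul_sum]
  have hDd : ∀ x, D x x = v * N := fun x => by
    rw [hD]
    congr 1
    simp [← sq, spin_sq, N]
  have hDb : ∀ x y, |D x y| ≤ v * N := fun x y => by
    rw [hD, abs_mul, abs_of_nonneg hv]
    refine mul_le_mul_of_nonneg_left ((Finset.abs_sum_le_sum_abs _ _).trans_eq ?_) hv
    rw [show N = ∑ _i : ι, (1 : ℝ) by simp [N]]
    exact Finset.sum_congr rfl fun i _ => by cases x i <;> cases y i <;> simp [spin]
  have hq : ∀ (w : (ι → Bool) → ℝ) x, qw f f1 u w x = pw f u w x := fun w x => by simp [qw, f1]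
  have hs : ∀ (w : (ι → Bool) → ℝ) x, sw f f1 (fun _ => 0) u w x = pw f u w x := fun w x => by
    simp [sw, f1]
  have hrD : ∀ (w : (ι → Bool) → ℝ) x, |rD f f1 u D w x| ≤ v * N := fun w x => by
    refine (Finset.abs_sum_le_sum_abs _ _).trans ?_
    calc ∑ y, |D x y * qw f f1 u w y| ≤ ∑ y, v * N * pw f u w y := Finset.sum_le_sum fun y _ => by
          rw [abs_mul, hq, abs_of_nonneg (pw_nonneg w y)]
          exact mul_le_mul_of_nonneg_right (hDb x y) (pw_nonneg w y)
      _ = v * N := by rw [← Finset.mul_sum, sum_pw, mul_one]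
  have hQ : ∀ w : (ι → Bool) → ℝ, |QD f f1 u D w| ≤ v * N := fun w => by
    refine (Finset.abs_sum_le_sum_abs _ _).trans ?_
    calc ∑ x, |qw f f1 u w x * rD f f1 u D w x| ≤ ∑ x, pw f u w x * (v * N) :=
          Finset.sum_le_sum fun x _ => by
            rw [abs_mul, hq, abs_of_nonneg (pw_nonneg w x)]
            exact mul_le_mul_of_nonneg_left (hrD w x) (pw_nonneg w x)
      _ = v * N := by rw [← Finset.sum_mul, sum_pw, one_mul]
  have hgr : ∀ w x, |2 * (sw f f1 (fun _ => 0) u w x * rD f f1 u D w x)
      - 2 * (QD f f1 u D w * qw f f1 u w x)| ≤ 4 * (v * N) := fun w x => by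
    rw [hs, hq]
    refine (abs_sub _ _).trans ?_
    rw [abs_mul, abs_mul 2, abs_mul, abs_mul (QD f f1 u D w), abs_two,
      abs_of_nonneg (pw_nonneg w x)]
    have h1 := mul_le_mul (pw_le_one (f := f) (u := u) w x) (hrD w x) (abs_nonneg _) zero_le_one
    have h2 := mul_le_mul (hQ w) (pw_le_one (f := f) (u := u) w x) (pw_nonneg w x) (mul_nonneg hv hN.le)
    linarith
  have hlip := (grad_QD (u := u) (D := D) hp Dmat_comm).lip hgr
  obtain ⟨C1, hC1⟩ := Bd.bound2 fun x => bd_qw (u := u) hp x
  obtain ⟨C2, hC2⟩ := Bd.bound2 fun z : (ι → Bool) × (ι → Bool) =>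
    show Bd fun w => H0two f f1 (fun _ => 0) u w z.1 z.2 from by
      unfold H0two
      refine Bd.sub ?_ ((bd_qw hp _).mul (bd_qw hp _))
      split_ifs
      · exact bd_sw hp _
      · exact Bd.const 0
  have hd : ∀ t ∈ Ioo (0 : ℝ) 1, HasDerivAt (fun s => ∫ g, H0 f u (Sp spinE P R s g) ∂gauss ι)
      ((1 / 2) * (v * N - ∫ g, QD f f1 u D (Sp spinE P R t g) ∂gauss ι)) t := by
    intro t ht
    refine (hasDerivAt_path hP hR (H1 := fun w x => qw f f1 u w x)
      (H2 := H0two f f1 (fun _ => 0) u) (grad_H0 hp) (fun x => grad_qw hp x) (continuous_H0 hp)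
      (fun x => continuous_qw hp x) (fun x y => ?_) (C := max C1 C2)
      (fun w x => (hC1 w x).trans (le_max_left _ _))
      (fun w x y => (hC2 w (x, y)).trans (le_max_right _ _)) ht).congr_deriv ?_
    · unfold H0two
      refine Continuous.sub ?_ ((continuous_qw hp x).mul (continuous_qw hp y))
      split_ifs
      · exact continuous_sw hp x
      · exact continuous_const
    · have e : ∀ w : (ι → Bool) → ℝ, ∑ x, ∑ y, D x y * H0two f f1 (fun _ => 0) u w x y
          = v * N - QD f f1 u D w := by
        intro w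
        simp only [H0two, mul_sub, Finset.sum_sub_distrib, mul_ite, mul_zero, Finset.sum_ite_eq,
          Finset.mem_univ, if_true, hDd, hs, ← Finset.mul_sum, sum_pw, mul_one]
        congr 1
        simp only [QD, rD, Finset.mul_sum]
        exact Finset.sum_congr rfl fun x _ => Finset.sum_congr rfl fun y _ => by ring
      simp only [D] at e ⊢
      simp only [e]
      have hiQ : Integrable (fun g => QD f f1 u (Dmat spinE P R) (Sp spinE P R t g)) (gauss ι) :=
        Vale.Agent.P150.integrable_gauss_bound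
          ((continuous_QD hp).comp (continuous_Sp t)) fun g => hQ _
      rw [integral_sub (integrable_const _) hiQ]
      simp
  obtain ⟨c, hc, he⟩ := exists_hasDerivAt_eq_slope _ _ zero_lt_one
    (continuousOn_path hP hR (continuous_H0 hp) ((grad_H0 (u := u) hp).lip hC1)) hd
  have hS1 : ∀ g : ι → ℝ, Sp spinE P R 1 g = fun σ => fieldS v g σ := fun g => by
    funext σ
    simp only [Sp_eq, coef, P, R, fieldS, spinE, Finset.mul_sum, Pi.zero_apply]
    exact Finset.sum_congr rfl fun i _ => by simp; ring
  have hS0 : ∀ g : ι → ℝ, Sp spinE P R 0 g = fun _ => 0 := fun g => by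
    funext σ; simp [Sp_eq, coef, P]
  have e1 : ∫ g, H0 f u (Sp spinE P R 1 g) ∂gauss ι = gField v u := by
    refine integral_congr_ae (ae_of_all _ fun g => ?_)
    simp [hS1, H0, part, base, f]
  have e0 : ∫ g, H0 f u (Sp spinE P R 0 g) ∂gauss ι = base u := by
    simp [hS0, H0, part, base, f]
  have hQ0 : QD f f1 u D (fun _ => 0) = v * N * ovl (fun _ : ι => (√N)⁻¹) u := by
    simp only [QD, rD, hq, ovl, Finset.mul_sum]
    refine Finset.sum_congr rfl fun x _ => Finset.sum_congr rfl fun y _ => ?_
    simp only [hD, pw, part, f, add_zero, wt, inv_pow, Real.sq_sqrt hN.le, Finset.mul_sum,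
      Finset.sum_mul]
    refine Finset.sum_congr rfl fun i _ => ?_
    field_simp
  have hI : ∫ g, QD f f1 u D (Sp spinE P R c g) ∂gauss ι
      ≤ v * N * ovl (fun _ : ι => (√N)⁻¹) u + 4 * (v * N) * (Fintype.card (ι → Bool) * (√v * m1)) := by
    have hi : Integrable (fun g : ι → ℝ => v * N * ovl (fun _ : ι => (√N)⁻¹) u
        + 4 * (v * N) * (Fintype.card (ι → Bool) * (√v * ∑ i, |g i|))) (gauss ι) :=
      (integrable_const _).add ((((integrable_finsetSum _ fun i _ =>
        (Vale.Agent.P150.integrable_eval i).abs).const_mul _).const_mul _).const_mul _)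
    refine (integral_mono (Vale.Agent.P150.integrable_gauss_bound
      ((continuous_QD hp).comp (continuous_Sp c)) fun g => hQ _) hi fun g => ?_).trans_eq ?_
    · have h1 := le_of_abs_le (hlip (Sp spinE P R c g) fun _ => 0)
      have h2 : ∑ σ, |Sp spinE P R c g σ - 0| ≤ Fintype.card (ι → Bool) * (√v * ∑ i, |g i|) := by
        refine (Finset.sum_le_card_nsmul _ _ (√v * ∑ i, |g i|) fun σ _ => ?_).trans_eq ?_
        · rw [sub_zero, Sp_eq, Finset.mul_sum]
          refine (Finset.abs_sum_le_sum_abs _ _).trans (Finset.sum_le_sum fun i _ => ?_)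
          rw [abs_mul, abs_mul]
          refine mul_le_mul_of_nonneg_right ?_ (abs_nonneg _)
          calc |coef P R c i| * |spinE σ i| = |coef P R c i| := by
                simp only [spinE]; cases σ i <;> simp [spin]
            _ ≤ √(P i + R i) := coef_le hP hR ⟨hc.1.le, hc.2.le⟩ i
            _ = √v := by simp [P, R]
        · simp
      have h3 := mul_le_mul_of_nonneg_left h2 (by positivity : 0 ≤ 4 * (v * N))
      rw [hQ0] at h1
      simp only [Function.comp_apply]
      linarith
    · rw [integral_add (integrable_const _) ((((integrable_finsetSum _ fun i _ =>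
        (Vale.Agent.P150.integrable_eval i).abs).const_mul _).const_mul _).const_mul _)]
      simp only [integral_const_mul, integral_const, probReal_univ, one_smul, m1]
  rw [e1, e0] at he
  simp only [sub_zero, div_one] at he
  linarith

/-- The free energy of a product of one-site fields. -/
lemma gField_product (v : ℝ) :
    gField v (0 : (ι → Bool) → ℝ)
      = Fintype.card ι * ∫ t, log (2 * cosh (√v * t)) ∂gaussianReal 0 1 := by
  have e : ∀ g : ι → ℝ, base (fun σ : ι → Bool => (0 : (ι → Bool) → ℝ) σ + fieldS v g σ)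
      = ∑ i, log (2 * cosh (√v * g i)) := by
    intro g
    have h1 : ∑ σ : ι → Bool, exp (fieldS v g σ) = ∏ i, (2 * cosh (√v * g i)) := by
      have : ∀ i, 2 * cosh (√v * g i) = ∑ b : Bool, exp (√v * g i * spin b) := fun i => by
        simp [spin, cosh_eq]; ring
      simp only [this, fieldS, Finset.prod_sum, Finset.mul_sum, exp_sum]
      refine (Finset.sum_bij (fun σ _ => fun i _ => σ i) ?_ ?_ ?_ ?_)
      · intro σ _; simp
      · intro a _ b _ h; funext i; exact congrFun (congrFun h i) (Finset.mem_univ i)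
      · intro b _; exact ⟨fun i => b i (Finset.mem_univ i), Finset.mem_univ _, rfl⟩
      · intro σ _
        rw [← Finset.prod_attach (Finset.univ : Finset ι) fun i => exp (√v * (g i * spin (σ i)))]
        exact Finset.prod_congr rfl fun i _ => by ring_nf
    simp only [base, Pi.zero_apply, zero_add, h1]
    rw [Real.log_prod fun i _ => (mul_pos two_pos (cosh_pos _)).ne']
  simp only [gField, e]
  have hc : Continuous fun t : ℝ => log (2 * cosh (√v * t)) :=
    (continuous_const.mul (continuous_cosh.comp (by fun_prop))).log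
      fun t => (mul_pos two_pos (cosh_pos _)).ne'
  have hi : ∀ i, Integrable (fun g : ι → ℝ => log (2 * cosh (√v * g i))) (gauss ι) := fun i => by
    refine Vale.Agent.P150.integrable_of_linear_bound (hc.comp (continuous_apply i))
      (A := log 2) (B := √v) fun g => ?_
    have h1 : 1 ≤ cosh (√v * g i) := one_le_cosh _
    have h2 : cosh (√v * g i) ≤ exp |√v * g i| := by
      rw [← cosh_abs, cosh_eq]
      have := exp_le_exp.2 (by linarith [abs_nonneg (√v * g i)] : -|√v * g i| ≤ |√v * g i|)
      linarith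
    rw [Real.log_mul two_ne_zero (cosh_pos _).ne',
      abs_of_nonneg (add_nonneg (log_nonneg one_le_two) (log_nonneg h1))]
    have h3 := (Real.log_le_iff_le_exp (cosh_pos _)).2 h2
    rw [abs_mul, abs_of_nonneg (Real.sqrt_nonneg v)] at h3
    have := mul_le_mul_of_nonneg_left
      (Finset.single_le_sum (f := fun j => |g j|) (fun j _ => abs_nonneg _) (Finset.mem_univ i))
      (Real.sqrt_nonneg v)
    linarith
  rw [integral_finsetSum _ fun i _ => hi i]
  have he : ∀ i, ∫ g, log (2 * cosh (√v * g i)) ∂gauss ι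
      = ∫ t, log (2 * cosh (√v * t)) ∂gaussianReal 0 1 := fun i => by
    have h := measurePreserving_eval (fun _ : ι => gaussianReal 0 1) i
    rw [← h.map_eq, integral_map h.measurable.aemeasurable hc.aestronglyMeasurable]
    rfl
  simp [he]

end P157.Conc

end
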