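import Vale.Agent.P150.Interp

/-!
# P157: linear images of standard Gaussian vectors, coordinatewise integration by parts
-/

noncomputable section

open MeasureTheory ProbabilityTheory Real Filter Topology
open scoped BigOperators

namespace P157.Conc

open Vale.Agent.P150 (gauss)

variable {X ι κ : Type*} [Fintype X] [Fintype ι] [Fintype κ]

/-- A Gaussian field with coefficients `e`. -/
def lin (e : X → ι → ℝ) (g : ι → ℝ) (x : X) : ℝ := ∑ i, e x i * g i

omit [Fintype X] in
lemma continuous_lin (e : X → ι → ℝ) : Continuous fun g => lin e g :=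
  continuous_pi fun x => continuous_finsetSum _ fun i _ => continuous_const.mul (continuous_apply i)

lemma charFunDual_lin (e : X → ι → ℝ) (L : StrongDual ℝ (X → ℝ)) :
    charFunDual ((gauss ι).map (lin e)) L
      = Complex.exp (-((∑ i, L (fun x => e x i) ^ 2 : ℝ) : ℂ) / 2) := by
  rw [charFunDual_apply, integral_map (continuous_lin e).measurable.aemeasurable
    (Continuous.aestronglyMeasurable (by fun_prop))]
  have h : ∀ g : ι → ℝ, L (lin e g) = ∑ i, g i * L (fun x => e x i) := by
    intro g
    have : lin e g = ∑ i, g i • (fun x => e x i) := by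
      funext x; simp [lin, Finset.sum_apply, mul_comm]
    rw [this, map_sum]
    simp
  have h2 : ∀ g : ι → ℝ, Complex.exp ((L (lin e g) : ℂ) * Complex.I)
      = ∏ i, Complex.exp ((g i * L (fun x => e x i) : ℂ) * Complex.I) := by
    intro g
    rw [h, ← Complex.exp_sum]
    push_cast
    rw [Finset.sum_mul]
  simp only [h2, gauss]
  rw [integral_fintype_prod_eq_prod (f := fun i (t : ℝ) =>
    Complex.exp ((t * L (fun x => e x i) : ℂ) * Complex.I))]
  have h3 : ∀ b : ℝ, ∫ t : ℝ, Complex.exp ((t * b : ℂ) * Complex.I) ∂gaussianReal 0 1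
      = Complex.exp (-((b ^ 2 : ℝ) : ℂ) / 2) := by
    intro b
    have := charFun_gaussianReal (μ := 0) (v := 1) b
    rw [charFun_apply_real] at this
    convert this using 1
    · exact integral_congr_ae (Eventually.of_forall fun t => by ring_nf)
    · push_cast; ring_nf
  simp only [h3, ← Complex.exp_sum]
  congr 1
  push_cast
  rw [← Finset.sum_div, Finset.sum_neg_distrib]

lemma sum_dual_sq [DecidableEq X] (e : X → ι → ℝ) (L : StrongDual ℝ (X → ℝ)) :
    ∑ i, L (fun x => e x i) ^ 2
      = ∑ x, ∑ y, L (Pi.single x 1) * L (Pi.single y 1) * ∑ i, e x i * e y i := by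
  have h : ∀ i, L (fun x => e x i) = ∑ x, e x i * L (Pi.single x 1) := by
    intro i
    have : (fun x => e x i) = ∑ x, e x i • (Pi.single x (1 : ℝ) : X → ℝ) := by
      funext y; simp [Finset.sum_apply, Pi.single_apply]
    rw [this, map_sum]
    simp
  simp only [h, sq]
  simp only [Finset.sum_mul_sum]
  simp only [Finset.mul_sum]
  rw [Finset.sum_comm]
  refine Finset.sum_congr rfl fun x _ => ?_
  rw [Finset.sum_comm]
  exact Finset.sum_congr rfl fun y _ => Finset.sum_congr rfl fun i _ => by ring

/-- The law of a Gaussian field depends only on its Gram matrix. -/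
theorem map_lin_eq (e : X → ι → ℝ) (e' : X → κ → ℝ)
    (h : ∀ x y, ∑ i, e x i * e y i = ∑ k, e' x k * e' y k) :
    (gauss ι).map (lin e) = (gauss κ).map (lin e') := by
  classical
  have := Measure.isProbabilityMeasure_map (μ := gauss ι) (continuous_lin e).measurable.aemeasurable
  have := Measure.isProbabilityMeasure_map (μ := gauss κ) (continuous_lin e').measurable.aemeasurable
  refine Measure.ext_of_charFunDual (funext fun L => ?_)
  rw [charFunDual_lin, charFunDual_lin, sum_dual_sq, sum_dual_sq]
  simp only [h]

/-- Expectations of functions of a Gaussian field depend only on its Gram matrix. -/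
theorem integral_lin_eq (e : X → ι → ℝ) (e' : X → κ → ℝ)
    (h : ∀ x y, ∑ i, e x i * e y i = ∑ k, e' x k * e' y k) {H : (X → ℝ) → ℝ} (hH : Continuous H) :
    ∫ g, H (lin e g) ∂gauss ι = ∫ g, H (lin e' g) ∂gauss κ := by
  rw [← integral_map (continuous_lin e).measurable.aemeasurable hH.aestronglyMeasurable,
    map_lin_eq e e' h, integral_map (continuous_lin e').measurable.aemeasurable hH.aestronglyMeasurable]

/-- Integration by parts in one coordinate. -/
theorem ibp_coord [DecidableEq ι] (i : ι) {F F' : (ι → ℝ) → ℝ}
    (hF : ∀ g t, HasDerivAt (fun s => F (Function.update g i s)) (F' (Function.update g i t)) t)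
    (hc : Continuous F) (hc' : Continuous F') {B : ℝ} (hB : ∀ g, |F g| ≤ B)
    (hB' : ∀ g, |F' g| ≤ B) :
    ∫ g, g i * F g ∂gauss ι = ∫ g, F' g ∂gauss ι := by
  have h1 : Integrable (fun g => g i * F g) (gauss ι) :=
    ((Vale.Agent.P150.integrable_eval i).bdd_mul hc.aestronglyMeasurable
      (ae_of_all _ fun g => by rw [norm_eq_abs]; exact hB g)).congr
      (ae_of_all _ fun g => mul_comm _ _)
  have h2 : Integrable F' (gauss ι) :=
    Integrable.of_bound hc'.aestronglyMeasurable B (ae_of_all _ hB')
  have e1 : ∀ g : ι → ℝ, @Function.update ι (fun _ => ℝ) (fun a b => Classical.propDecidable _) g i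
      = Function.update g i := fun g => by congr 1; exact Subsingleton.elim _ _
  rw [Vale.Agent.P150.integral_gauss_update h1 i, Vale.Agent.P150.integral_gauss_update h2 i]
  refine integral_congr_ae (ae_of_all _ fun g => ?_)
  simp only [e1, Function.update_self]
  exact Vale.Agent.P150.gaussian_ibp (fun t => hF g t)
    (hc'.comp (continuous_const.update i continuous_id)) (fun t => hB _) (fun t => hB' _)

end P157.Conc

end
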