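import Vale.Agent.P157.Conc.Deriv

/-!
# P157: calculus of Gibbs weights `exp (u x + f (v x))`
-/

noncomputable section

open MeasureTheory ProbabilityTheory Real Filter Topology Set
open scoped BigOperators Classical

namespace P157.Conc

variable {X : Type*} [Fintype X]

/-- A bounded function. -/
def Bd (F : (X → ℝ) → ℝ) : Prop := ∃ C, ∀ v, |F v| ≤ C

namespace Bd

omit [Fintype X] in
lemma const (c : ℝ) : Bd (fun _ : X → ℝ => c) := ⟨|c|, fun _ => le_rfl⟩

omit [Fintype X] in
lemma add {F G : (X → ℝ) → ℝ} (hF : Bd F) (hG : Bd G) : Bd fun v => F v + G v := by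
  obtain ⟨A, hA⟩ := hF; obtain ⟨B, hB⟩ := hG
  exact ⟨A + B, fun v => (abs_add_le _ _).trans (add_le_add (hA v) (hB v))⟩

omit [Fintype X] in
lemma sub {F G : (X → ℝ) → ℝ} (hF : Bd F) (hG : Bd G) : Bd fun v => F v - G v := by
  obtain ⟨A, hA⟩ := hF; obtain ⟨B, hB⟩ := hG
  exact ⟨A + B, fun v => (abs_sub _ _).trans (add_le_add (hA v) (hB v))⟩

omit [Fintype X] in
lemma mul {F G : (X → ℝ) → ℝ} (hF : Bd F) (hG : Bd G) : Bd fun v => F v * G v := by
  obtain ⟨A, hA⟩ := hF; obtain ⟨B, hB⟩ := hG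
  refine ⟨A * B, fun v => ?_⟩
  rw [abs_mul]
  exact mul_le_mul (hA v) (hB v) (abs_nonneg _) ((abs_nonneg _).trans (hA v))

omit [Fintype X] in
lemma sum {α : Type*} [Fintype α] {F : α → (X → ℝ) → ℝ} (hF : ∀ a, Bd (F a)) :
    Bd fun v => ∑ a, F a v := by
  choose C hC using hF
  exact ⟨∑ a, C a, fun v => (Finset.abs_sum_le_sum_abs _ _).trans (Finset.sum_le_sum fun a _ => hC a v)⟩

omit [Fintype X] in
lemma bound2 {α : Type*} [Fintype α] {F : α → (X → ℝ) → ℝ} (hF : ∀ a, Bd (F a)) :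
    ∃ C, ∀ v a, |F a v| ≤ C := by
  choose C hC using hF
  exact ⟨∑ a, |C a|, fun v a => (hC a v).trans ((le_abs_self _).trans
    (Finset.single_le_sum (f := fun b => |C b|) (fun b _ => abs_nonneg _) (Finset.mem_univ a)))⟩

end Bd

namespace Grad

lemma mul {A B : (X → ℝ) → ℝ} {A1 B1 : (X → ℝ) → X → ℝ} (hA : Grad A A1) (hB : Grad B B1) :
    Grad (fun v => A v * B v) (fun v x => A1 v x * B v + A v * B1 v x) := by
  intro v w s hv
  refine ((hA v w s hv).mul (hB v w s hv)).congr_deriv ?_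
  rw [Finset.sum_mul, Finset.mul_sum, ← Finset.sum_add_distrib]
  exact Finset.sum_congr rfl fun x _ => by ring

lemma sub {A B : (X → ℝ) → ℝ} {A1 B1 : (X → ℝ) → X → ℝ} (hA : Grad A A1) (hB : Grad B B1) :
    Grad (fun v => A v - B v) (fun v x => A1 v x - B1 v x) := by
  intro v w s hv
  refine ((hA v w s hv).sub (hB v w s hv)).congr_deriv ?_
  rw [← Finset.sum_sub_distrib]
  exact Finset.sum_congr rfl fun x _ => by ring

lemma const_mul {A : (X → ℝ) → ℝ} {A1 : (X → ℝ) → X → ℝ} (c : ℝ) (hA : Grad A A1) :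
    Grad (fun v => c * A v) (fun v x => c * A1 v x) := by
  intro v w s hv
  refine ((hA v w s hv).const_mul c).congr_deriv ?_
  rw [Finset.mul_sum]
  exact Finset.sum_congr rfl fun x _ => by ring

lemma sum {α : Type*} [Fintype α] {A : α → (X → ℝ) → ℝ} {A1 : α → (X → ℝ) → X → ℝ}
    (hA : ∀ a, Grad (A a) (A1 a)) :
    Grad (fun v => ∑ a, A a v) (fun v x => ∑ a, A1 a v x) := by
  intro v w s hv
  refine (HasDerivAt.fun_sum fun a _ => hA a v w s hv).congr_deriv ?_
  rw [Finset.sum_comm]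
  simp only [Finset.sum_mul]

lemma congr {A : (X → ℝ) → ℝ} {A1 B1 : (X → ℝ) → X → ℝ} (hA : Grad A A1)
    (h : ∀ v x, A1 v x = B1 v x) : Grad A B1 := by
  intro v w s hv
  exact (hA v w s hv).congr_deriv (by simp only [h])

end Grad

/-- A potential `f` with three derivatives and bounds on them. -/
structure Pot (f f1 f2 f3 : ℝ → ℝ) (U V W : ℝ) : Prop where
  d1 : ∀ s, HasDerivAt f (f1 s) s
  d2 : ∀ s, HasDerivAt f1 (f2 s) s
  d3 : ∀ s, HasDerivAt f2 (f3 s) s
  c3 : Continuous f3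
  b1 : ∀ s, |f1 s| ≤ U
  b2 : ∀ s, |f2 s + f1 s ^ 2| ≤ V
  b3 : ∀ s, |f3 s| ≤ W

variable {f f1 f2 f3 : ℝ → ℝ} {U V W : ℝ}

lemma Pot.cf (hp : Pot f f1 f2 f3 U V W) : Continuous f :=
  continuous_iff_continuousAt.2 fun s => (hp.d1 s).continuousAt

lemma Pot.c1 (hp : Pot f f1 f2 f3 U V W) : Continuous f1 :=
  continuous_iff_continuousAt.2 fun s => (hp.d2 s).continuousAt

lemma Pot.c2 (hp : Pot f f1 f2 f3 U V W) : Continuous f2 :=
  continuous_iff_continuousAt.2 fun s => (hp.d3 s).continuousAt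

variable (f f1 f2 f3) (u : X → ℝ)

/-- The partition sum. -/
def part (v : X → ℝ) : ℝ := ∑ x, exp (u x + f (v x))

/-- The Gibbs weight. -/
def pw (v : X → ℝ) (x : X) : ℝ := exp (u x + f (v x)) / part f u v

/-- The weight times `f'`. -/
def qw (v : X → ℝ) (x : X) : ℝ := pw f u v x * f1 (v x)

/-- The weight times `f'' + f'^2`. -/
def sw (v : X → ℝ) (x : X) : ℝ := pw f u v x * (f2 (v x) + f1 (v x) ^ 2)

/-- The weight times the next term. -/
def tw (v : X → ℝ) (x : X) : ℝ :=
  pw f u v x * (f3 (v x) + 3 * f1 (v x) * f2 (v x) + f1 (v x) ^ 3)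

/-- The log partition sum. -/
def H0 (v : X → ℝ) : ℝ := log (part f u v)

variable (D : X → X → ℝ)

/-- `Σ_y D x y q_y`. -/
def rD (v : X → ℝ) (x : X) : ℝ := ∑ y, D x y * qw f f1 u v y

/-- The replica average `Σ D q q`. -/
def QD (v : X → ℝ) : ℝ := ∑ x, qw f f1 u v x * rD f f1 u D v x

variable {f f1 f2 f3 u D}

lemma part_pos [Nonempty X] (v : X → ℝ) : 0 < part f u v :=
  Finset.sum_pos (fun _ _ => exp_pos _) Finset.univ_nonempty

lemma pw_nonneg [Nonempty X] (v : X → ℝ) (x : X) : 0 ≤ pw f u v x :=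
  div_nonneg (exp_pos _).le (part_pos v).le

lemma sum_pw [Nonempty X] (v : X → ℝ) : ∑ x, pw f u v x = 1 := by
  simp only [pw, ← Finset.sum_div]
  exact div_self (part_pos v).ne'

lemma pw_le_one [Nonempty X] (v : X → ℝ) (x : X) : pw f u v x ≤ 1 :=
  (Finset.single_le_sum (f := pw f u v) (fun y _ => pw_nonneg v y) (Finset.mem_univ x)).trans_eq
    (sum_pw v)

section
variable [Nonempty X] (hp : Pot f f1 f2 f3 U V W)
include hp

lemma continuous_part : Continuous (part f u) := by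
  have := hp.cf
  unfold part; fun_prop

lemma continuous_pw (x : X) : Continuous fun v => pw f u v x := by
  have := hp.cf
  exact (by fun_prop : Continuous fun v : X → ℝ => exp (u x + f (v x))).div
    (continuous_part hp) fun v => (part_pos v).ne'

lemma continuous_qw (x : X) : Continuous fun v => qw f f1 u v x :=
  (continuous_pw hp x).mul (hp.c1.comp (continuous_apply x))

lemma continuous_sw (x : X) : Continuous fun v => sw f f1 f2 u v x :=
  (continuous_pw hp x).mul ((hp.c2.comp (continuous_apply x)).add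
    ((hp.c1.comp (continuous_apply x)).pow 2))

lemma continuous_tw (x : X) : Continuous fun v => tw f f1 f2 f3 u v x :=
  (continuous_pw hp x).mul (((hp.c3.comp (continuous_apply x)).add
    ((continuous_const.mul (hp.c1.comp (continuous_apply x))).mul (hp.c2.comp (continuous_apply x)))).add
    ((hp.c1.comp (continuous_apply x)).pow 3))

lemma continuous_H0 : Continuous (H0 f u) :=
  (continuous_part hp).log fun v => (part_pos v).ne'

lemma continuous_rD (x : X) : Continuous fun v => rD f f1 u D v x :=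
  continuous_finsetSum _ fun y _ => continuous_const.mul (continuous_qw hp y)

lemma continuous_QD : Continuous (QD f f1 u D) :=
  continuous_finsetSum _ fun x _ => (continuous_qw hp x).mul (continuous_rD hp x)

lemma abs_qw_le (v : X → ℝ) (x : X) : |qw f f1 u v x| ≤ U := by
  simp only [qw, abs_mul, abs_of_nonneg (pw_nonneg v x)]
  exact (mul_le_mul (pw_le_one v x) (hp.b1 _) (abs_nonneg _) zero_le_one).trans_eq (one_mul U)

lemma bd_qw (x : X) : Bd fun v => qw f f1 u v x := ⟨U, fun v => abs_qw_le hp v x⟩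

lemma bd_sw (x : X) : Bd fun v => sw f f1 f2 u v x := by
  refine ⟨V, fun v => ?_⟩
  simp only [sw, abs_mul, abs_of_nonneg (pw_nonneg v x)]
  exact (mul_le_mul (pw_le_one v x) (hp.b2 _) (abs_nonneg _) zero_le_one).trans_eq (one_mul V)

lemma bd_tw (x : X) : Bd fun v => tw f f1 f2 f3 u v x := by
  refine ⟨W + 3 * U * (V + U ^ 2) + U ^ 3, fun v => ?_⟩
  simp only [tw, abs_mul, abs_of_nonneg (pw_nonneg v x)]
  refine (mul_le_mul (pw_le_one v x) ?_ (abs_nonneg _) zero_le_one).trans_eq (one_mul _)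
  have h1 := hp.b1 (v x)
  have hU : 0 ≤ U := (abs_nonneg _).trans h1
  have hsq : |f1 (v x) ^ 2| ≤ U ^ 2 := by rw [abs_pow]; exact pow_le_pow_left₀ (abs_nonneg _) h1 2
  have h2 : |f2 (v x)| ≤ V + U ^ 2 := by
    have := abs_sub (f2 (v x) + f1 (v x) ^ 2) (f1 (v x) ^ 2)
    rw [add_sub_cancel_right] at this
    linarith [hp.b2 (v x)]
  refine (abs_add_le _ _).trans (add_le_add ((abs_add_le _ _).trans (add_le_add (hp.b3 _) ?_)) ?_)
  · rw [abs_mul, abs_mul, abs_of_nonneg (by norm_num : (0 : ℝ) ≤ 3)]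
    exact mul_le_mul (mul_le_mul_of_nonneg_left h1 (by norm_num)) h2 (abs_nonneg _) (by positivity)
  · rw [abs_pow]; exact pow_le_pow_left₀ (abs_nonneg _) h1 3

lemma bd_rD (x : X) : Bd fun v => rD f f1 u D v x :=
  Bd.sum fun y => (Bd.const _).mul (bd_qw hp y)

lemma bd_QD : Bd (QD f f1 u D) := Bd.sum fun x => (bd_qw hp x).mul (bd_rD hp x)

lemma grad_H0 : Grad (H0 f u) (fun v x => qw f f1 u v x) := by
  intro v w s hv
  have h : ∀ x, HasDerivAt (fun r => exp (u x + f (v r x)))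
      (exp (u x + f (v s x)) * (f1 (v s x) * w x)) s := fun x =>
    (((hp.d1 (v s x)).comp s (hv x)).const_add (u x)).exp
  refine ((HasDerivAt.fun_sum fun x _ => h x).log (part_pos (v s)).ne').congr_deriv ?_
  rw [Finset.sum_div]
  refine Finset.sum_congr rfl fun x _ => ?_
  simp only [qw, pw, part]
  field_simp

lemma grad_pw (x : X) : Grad (fun v => pw f u v x)
    (fun v y => (if x = y then qw f f1 u v x else 0) - pw f u v x * qw f f1 u v y) := by
  intro v w s hv
  have h : ∀ x, HasDerivAt (fun r => exp (u x + f (v r x)))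
      (exp (u x + f (v s x)) * (f1 (v s x) * w x)) s := fun x =>
    (((hp.d1 (v s x)).comp s (hv x)).const_add (u x)).exp
  have e : (fun r => pw f u (v r) x) = fun r => exp (u x + f (v r x)) * exp (-H0 f u (v r)) := by
    funext r
    rw [pw, H0, exp_neg, exp_log (part_pos _), div_eq_mul_inv]
  rw [show (fun r => (fun v => pw f u v x) (v r)) = fun r => pw f u (v r) x from rfl, e]
  refine ((h x).mul ((grad_H0 (u := u) hp v w s hv).neg.exp)).congr_deriv ?_
  simp only [Pi.neg_apply]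
  rw [exp_neg, H0, exp_log (part_pos _)]
  simp only [sub_mul, Finset.sum_sub_distrib, ite_mul, zero_mul, Finset.sum_ite_eq,
    Finset.mem_univ, if_true]
  simp only [qw, pw, mul_assoc, ← Finset.mul_sum]
  field_simp
  ring

lemma grad_qw (x : X) : Grad (fun v => qw f f1 u v x)
    (fun v y => (if x = y then sw f f1 f2 u v x else 0) - qw f f1 u v x * qw f f1 u v y) := by
  intro v w s hv
  refine ((grad_pw hp x v w s hv).mul ((hp.d2 (v s x)).comp s (hv x))).congr_deriv ?_
  simp only [sub_mul, Finset.sum_sub_distrib, ite_mul, zero_mul, Finset.sum_ite_eq,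
    Finset.mem_univ, if_true, mul_assoc, ← Finset.mul_sum, sw, qw, pw, Function.comp_apply]
  ring

lemma grad_sw (x : X) : Grad (fun v => sw f f1 f2 u v x)
    (fun v y => (if x = y then tw f f1 f2 f3 u v x else 0)
      - sw f f1 f2 u v x * qw f f1 u v y) := by
  intro v w s hv
  refine ((grad_pw hp x v w s hv).mul (((hp.d3 (v s x)).comp s (hv x)).add
    (((hp.d2 (v s x)).comp s (hv x)).pow 2))).congr_deriv ?_
  simp only [sub_mul, Finset.sum_sub_distrib, ite_mul, zero_mul, Finset.sum_ite_eq,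
    Finset.mem_univ, if_true, mul_assoc, ← Finset.mul_sum, sw, qw, tw, pw, Function.comp_apply,
    Pi.add_apply, Pi.pow_apply]
  push_cast
  ring

lemma grad_rD (x : X) : Grad (fun v => rD f f1 u D v x)
    (fun v y => D x y * sw f f1 f2 u v y - rD f f1 u D v x * qw f f1 u v y) := by
  refine (Grad.sum fun z => (grad_qw hp z).const_mul (D x z)).congr fun v y => ?_
  simp only [mul_sub, Finset.sum_sub_distrib, mul_ite, mul_zero, Finset.sum_ite_eq',
    Finset.mem_univ, if_true]
  rw [rD, Finset.sum_mul]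
  simp only [mul_assoc]

lemma grad_QD (hD : ∀ x y, D x y = D y x) : Grad (QD f f1 u D)
    (fun v y => 2 * (sw f f1 f2 u v y * rD f f1 u D v y)
      - 2 * (QD f f1 u D v * qw f f1 u v y)) := by
  refine (Grad.sum fun x => (grad_qw hp x).mul (grad_rD hp x)).congr fun v y => ?_
  simp only [sub_mul, mul_sub, ite_mul, zero_mul, Finset.sum_sub_distrib, Finset.sum_add_distrib,
    Finset.sum_ite_eq', Finset.mem_univ, if_true]
  have e1 : ∑ x, qw f f1 u v x * qw f f1 u v y * rD f f1 u D v x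
      = QD f f1 u D v * qw f f1 u v y := by
    rw [QD, Finset.sum_mul]; exact Finset.sum_congr rfl fun x _ => by ring
  have e2 : ∑ x, qw f f1 u v x * (D x y * sw f f1 f2 u v y)
      = sw f f1 f2 u v y * rD f f1 u D v y := by
    rw [rD, Finset.mul_sum]; exact Finset.sum_congr rfl fun x _ => by rw [hD x y]; ring
  have e3 : ∑ x, qw f f1 u v x * (rD f f1 u D v x * qw f f1 u v y)
      = QD f f1 u D v * qw f f1 u v y := by
    rw [QD, Finset.sum_mul]; exact Finset.sum_congr rfl fun x _ => by ring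
  rw [e1, e2, e3]
  ring

end

/-- The second derivatives of `H0`. -/
def H0two (f f1 f2 : ℝ → ℝ) (u : X → ℝ) (v : X → ℝ) (x y : X) : ℝ :=
  (if x = y then sw f f1 f2 u v x else 0) - qw f f1 u v x * qw f f1 u v y

/-- The second derivatives of `QD`. -/
def QDtwo (f f1 f2 f3 : ℝ → ℝ) (u : X → ℝ) (D : X → X → ℝ) (v : X → ℝ) (z y : X) : ℝ :=
  2 * (((if z = y then tw f f1 f2 f3 u v z else 0) - sw f f1 f2 u v z * qw f f1 u v y)
        * rD f f1 u D v z
      + sw f f1 f2 u v z * (D z y * sw f f1 f2 u v y - rD f f1 u D v z * qw f f1 u v y))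
    - 2 * ((2 * (sw f f1 f2 u v y * rD f f1 u D v y) - 2 * (QD f f1 u D v * qw f f1 u v y))
        * qw f f1 u v z
      + QD f f1 u D v * ((if z = y then sw f f1 f2 u v z else 0)
        - qw f f1 u v z * qw f f1 u v y))

lemma grad_QD1 [Nonempty X] (hp : Pot f f1 f2 f3 U V W) (hD : ∀ x y, D x y = D y x) (z : X) :
    Grad (fun v => 2 * (sw f f1 f2 u v z * rD f f1 u D v z)
      - 2 * (QD f f1 u D v * qw f f1 u v z)) (fun v y => QDtwo f f1 f2 f3 u D v z y) :=
  (((grad_sw hp z).mul (grad_rD hp z)).const_mul 2).sub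
    (((grad_QD hp hD).mul (grad_qw hp z)).const_mul 2)

/-- The quantity which controls the sign of the second derivative. -/
def Sgn (f f1 f2 : ℝ → ℝ) (u : X → ℝ) (D : X → X → ℝ) (v : X → ℝ) : ℝ :=
  (∑ x, ∑ y, D x y ^ 2 * (sw f f1 f2 u v x * sw f f1 f2 u v y))
    - 4 * (∑ x, rD f f1 u D v x ^ 2 * sw f f1 f2 u v x) + 3 * QD f f1 u D v ^ 2

lemma sum_QDtwo (hD : ∀ x y, D x y = D y x) (hd : ∀ x, D x x = 0) (v : X → ℝ) :
    ∑ z, ∑ y, D z y * QDtwo f f1 f2 f3 u D v z y = 2 * Sgn f f1 f2 u D v := by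
  have a0 : ∀ (A : X → ℝ) z, ∑ y, D z y * (if z = y then A z else 0) = 0 := fun A z => by
    simp [hd]
  have a1 : ∑ z, ∑ y, D z y * (sw f f1 f2 u v z * qw f f1 u v y * rD f f1 u D v z)
      = ∑ x, rD f f1 u D v x ^ 2 * sw f f1 f2 u v x := by
    refine Finset.sum_congr rfl fun z _ => ?_
    rw [sq, mul_assoc]
    nth_rewrite 2 [rD]
    rw [Finset.sum_mul]
    exact Finset.sum_congr rfl fun y _ => by ring
  have a2 : ∑ z, ∑ y, D z y * (sw f f1 f2 u v y * rD f f1 u D v y * qw f f1 u v z)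
      = ∑ x, rD f f1 u D v x ^ 2 * sw f f1 f2 u v x := by
    rw [← a1, Finset.sum_comm]
    exact Finset.sum_congr rfl fun z _ => Finset.sum_congr rfl fun y _ => by rw [hD y z]; ring
  have a3 : ∑ z, ∑ y, D z y * (QD f f1 u D v * qw f f1 u v y * qw f f1 u v z)
      = QD f f1 u D v ^ 2 := by
    rw [sq]
    nth_rewrite 3 [QD]
    simp only [rD, Finset.mul_sum]
    exact Finset.sum_congr rfl fun z _ => Finset.sum_congr rfl fun y _ => by ring
  have e : ∀ z y, D z y * QDtwo f f1 f2 f3 u D v z y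
      = 2 * (D z y * (if z = y then tw f f1 f2 f3 u v z else 0) * rD f f1 u D v z)
        - 4 * (D z y * (sw f f1 f2 u v z * qw f f1 u v y * rD f f1 u D v z))
        + 2 * (D z y ^ 2 * (sw f f1 f2 u v z * sw f f1 f2 u v y))
        - 4 * (D z y * (sw f f1 f2 u v y * rD f f1 u D v y * qw f f1 u v z))
        + 6 * (D z y * (QD f f1 u D v * qw f f1 u v y * qw f f1 u v z))
        - 2 * QD f f1 u D v * (D z y * (if z = y then sw f f1 f2 u v z else 0)) := fun z y => by
    rw [QDtwo]; ring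
  simp only [e, Finset.sum_sub_distrib, Finset.sum_add_distrib, ← Finset.mul_sum, ← Finset.sum_mul,
    a0, a1, a2, a3, Sgn]
  simp only [zero_mul, mul_zero, Finset.sum_const_zero]
  ring

lemma sum_H0two (hd : ∀ x, D x x = 0) (v : X → ℝ) :
    ∑ x, ∑ y, D x y * H0two f f1 f2 u v x y = -QD f f1 u D v := by
  have a0 : ∀ x, ∑ y, D x y * (if x = y then sw f f1 f2 u v x else 0) = 0 := fun x => by simp [hd]
  simp only [H0two, mul_sub, Finset.sum_sub_distrib, a0, zero_sub, QD, rD, Finset.mul_sum,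
    Finset.sum_neg_distrib, neg_inj]
  exact Finset.sum_congr rfl fun x _ => Finset.sum_congr rfl fun y _ => by ring

end P157.Conc

end
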