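import Vale.Agent.P157.Main
import Vale.Agent.P157.Conc.Concave

/-!
# P157: the one-row inequality and superadditivity for potentials of small amplitude
-/

noncomputable section

open MeasureTheory ProbabilityTheory Real Filter Topology Set
open scoped BigOperators

namespace P157.Conc

open Vale.Agent.P150 (gauss)

variable {ι : Type*} [Fintype ι] [DecidableEq ι] {f f1 f2 f3 : ℝ → ℝ} {U V W δ κ : ℝ}

/-- The spins as coefficients of a field. -/
def spinE (σ : ι → Bool) (i : ι) : ℝ := spin (σ i)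

omit [Fintype ι] [DecidableEq ι] in
lemma spin_sq (b : Bool) : spin b ^ 2 = 1 := by cases b <;> simp [spin]

lemma T_base_eq (hp : Pot f f1 f2 f3 U V W) (u : (ι → Bool) → ℝ) {a P R : ι → ℝ}
    (hP : ∀ i, 0 ≤ P i) (hR : ∀ i, 0 ≤ R i) {t : ℝ} (ht : t ∈ Icc (0 : ℝ) 1)
    (ha : ∀ i, a i ^ 2 = (1 - t) * P i + t * R i) :
    T f a base u = phi f u spinE P R t := by
  have hH := continuous_H0 (u := u) hp
  have e1 : ∀ g : ι → ℝ, (fun σ => S a g σ) = lin (fun σ i => a i * spinE σ i) g := fun g => by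
    funext σ
    exact Finset.sum_congr rfl fun i _ => by simp only [spinE]; ring
  have := integral_lin_eq (fun σ i => a i * spinE σ i) (pathE spinE P R t) (fun x y =>
    Finset.sum_congr rfl fun i _ => by
      have h0 : 0 ≤ (1 - t) * P i + t * R i :=
        add_nonneg (mul_nonneg (by linarith [ht.2]) (hP i)) (mul_nonneg ht.1 (hR i))
      have : coef P R t i * coef P R t i = a i * a i := by
        rw [coef, Real.mul_self_sqrt h0, ← ha, sq]
      simp only [pathE]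
      linear_combination -(spinE x i * spinE y i) * this) hH
  rw [phi]
  refine Eq.trans ?_ this
  refine integral_congr_ae (Eventually.of_forall fun g => ?_)
  simp only [base, H0, part, ← e1]

theorem one_row (hp : Pot f f1 f2 f3 U V W) (hs : Small f f1 f2 U V δ κ) {c c₁ c₂ : ι → ℝ} {w : ℝ}
    (h0 : 0 ≤ w) (h1 : w ≤ 1) (hc : ∀ i, c i ^ 2 = w * c₁ i ^ 2 + (1 - w) * c₂ i ^ 2)
    (hn₁ : ∑ i, c₁ i ^ 2 = 1) (hn₂ : ∑ i, c₂ i ^ 2 = 1) (u : (ι → Bool) → ℝ) :
    w * T f c₁ base u + (1 - w) * T f c₂ base u ≤ T f c base u := by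
  set P : ι → ℝ := fun i => c₂ i ^ 2
  set R : ι → ℝ := fun i => c₁ i ^ 2
  have hP : ∀ i, 0 ≤ P i := fun i => sq_nonneg _
  have hR : ∀ i, 0 ≤ R i := fun i => sq_nonneg _
  have hpath : Path (spinE (ι := ι)) P R := ⟨hP, hR, fun σ => by simp [spinE, spin_sq, P, hn₂],
    fun σ => by simp [spinE, spin_sq, R, hn₁]⟩
  have hI0 : (0 : ℝ) ∈ Icc (0 : ℝ) 1 := ⟨le_rfl, zero_le_one⟩
  have hI1 : (1 : ℝ) ∈ Icc (0 : ℝ) 1 := ⟨zero_le_one, le_rfl⟩
  rw [T_base_eq hp u hP hR hI1 (a := c₁) (fun i => by simp [R]),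
    T_base_eq hp u hP hR hI0 (a := c₂) (fun i => by simp [P]),
    T_base_eq hp u hP hR (t := w) ⟨h0, h1⟩ (a := c) (fun i => by rw [hc]; ring)]
  have := (concaveOn_phi hp hpath u hs).2 hI1 hI0 h0 (sub_nonneg.2 h1) (by ring)
  simpa using this

lemma abs_pot (hs : Small f f1 f2 U V δ κ) (s : ℝ) : |f s| ≤ |f 0| + δ := by
  have := abs_sub_abs_le_abs_sub (f s) (f 0)
  linarith [hs.osc s 0]

theorem limit_exists (hp : Pot f f1 f2 f3 U V W) (hs : Small f f1 f2 U V δ κ) {α : ℝ} (hα : 0 ≤ α) :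
    ∃ L : ℝ, Tendsto (fun N : ℕ => aSeq f α N / N) atTop (𝓝 L) := by
  have hB := abs_pot hs
  have hsup := aSeq_super hp.cf hB
    (fun ι _ _ c c₁ c₂ w h0 h1 hc hn₁ hn₂ u => one_row hp hs h0 h1 hc hn₁ hn₂ u) hα
  have hB0 : 0 ≤ |f 0| + δ := (abs_nonneg _).trans (hB 0)
  obtain ⟨L, hL, -⟩ := exists_limit (by positivity) (aSeq_bound hp.cf hB hα) hsup
  exact ⟨L, hL⟩

end P157.Conc

end
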