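import Vale.Agent.P157.Conc.Amplitude

/-!
# P157: second moment lower bound with concentration
-/

noncomputable section

open MeasureTheory ProbabilityTheory Real Filter Topology Set
open scoped BigOperators

namespace P157.Conc

open Vale.Agent.P150 (gauss)

variable {ι : Type*} [Fintype ι] [DecidableEq ι] {f : ℝ → ℝ} {B : ℝ}

/-- The log partition sum of `k` given rows. -/
def rows (f : ℝ → ℝ) (c : ι → ℝ) (k : ℕ) (u : (ι → Bool) → ℝ) (G : Fin k → ι → ℝ) : ℝ :=
  base fun σ => u σ + ∑ a, f (S c (G a) σ)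

lemma continuous_rows (hf : Continuous f) (c : ι → ℝ) (k : ℕ) (u : (ι → Bool) → ℝ) :
    Continuous (rows f c k u) :=
  lip_base.continuous.comp (continuous_pi fun σ => continuous_const.add
    (continuous_finsetSum _ fun a _ => hf.comp ((continuous_S c σ).comp (continuous_apply a))))

lemma abs_rows_le (hB : ∀ s, |f s| ≤ B) (c : ι → ℝ) (k : ℕ) (u : (ι → Bool) → ℝ)
    (G : Fin k → ι → ℝ) : |rows f c k u G - base u| ≤ k * B :=
  lip_base _ _ _ fun σ => by
    rw [add_sub_cancel_left]
    refine (Finset.abs_sum_le_sum_abs _ _).trans ?_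
    refine (Finset.sum_le_card_nsmul _ _ B fun a _ => hB _).trans_eq ?_
    simp

/-- The variance grows at most linearly in the number of rows. -/
lemma rows_var (hf : Continuous f) (hB : ∀ s, |f s| ≤ B) (c : ι → ℝ) :
    ∀ (k : ℕ) (u : (ι → Bool) → ℝ),
      ∫ G, (rows f c k u G - R f c k u) ^ 2 ∂Measure.pi (fun _ : Fin k => gM ι)
        ≤ 4 * B ^ 2 * k := by
  intro k
  induction k with
  | zero => intro u; simp [rows, R]
  | succ k ih =>
    intro u
    have hB0 : 0 ≤ B := (abs_nonneg _).trans (hB 0)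
    set c0 := R f c (k + 1) u
    have hmp := (measurePreserving_piFinSuccAbove (n := k) (fun _ : Fin (k + 1) => gM ι) 0).symm
    rw [← hmp.map_eq, integral_map_equiv]
    set μk := Measure.pi fun _ : Fin k => gM ι
    have hsplit : ∀ (g : ι → ℝ) (G : Fin k → ι → ℝ),
        rows f c (k + 1) u ((MeasurableEquiv.piFinSuccAbove (fun _ : Fin (k + 1) => ι → ℝ) 0).symm (g, G))
          = rows f c k (fun σ => u σ + f (S c g σ)) G := by
      intro g G
      simp [rows, MeasurableEquiv.piFinSuccAbove, Fin.sum_univ_succ, add_assoc]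
    have hcont : Continuous fun p : (ι → ℝ) × (Fin k → ι → ℝ) =>
        (rows f c k (fun σ => u σ + f (S c p.1 σ)) p.2 - c0) ^ 2 := by
      refine ((lip_base.continuous.comp (continuous_pi fun σ => (continuous_const.add
        (hf.comp ((continuous_S c σ).comp continuous_fst))).add (continuous_finsetSum _ fun a _ =>
          hf.comp ((continuous_S c σ).comp ((continuous_apply a).comp continuous_snd))))).sub
        continuous_const).pow 2
    have hint : Integrable (fun p : (ι → ℝ) × (Fin k → ι → ℝ) =>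
        (rows f c k (fun σ => u σ + f (S c p.1 σ)) p.2 - c0) ^ 2) ((gM ι).prod μk) := by
      refine Integrable.of_bound hcont.aestronglyMeasurable ((B + k * B + |base u - c0|) ^ 2)
        (ae_of_all _ fun p => ?_)
      rw [norm_eq_abs, abs_pow]
      refine pow_le_pow_left₀ (abs_nonneg _) ?_ 2
      have h1 := abs_rows_le hB c k (fun σ => u σ + f (S c p.1 σ)) p.2
      have h2 := lip_base (fun σ => u σ + f (S c p.1 σ)) u B fun σ => by simpa using hB _
      have h3 := abs_sub_le (rows f c k (fun σ => u σ + f (S c p.1 σ)) p.2)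
        (base fun σ => u σ + f (S c p.1 σ)) c0
      have h4 := abs_sub_le (base fun σ => u σ + f (S c p.1 σ)) (base u) c0
      linarith
    refine le_trans (le_of_eq ?_) (?_ :
      ∫ g, ∫ G, (rows f c k (fun σ => u σ + f (S c g σ)) G - c0) ^ 2 ∂μk ∂gM ι ≤ _)
    · rw [← integral_prod _ hint]
      exact integral_congr_ae (ae_of_all _ fun p => by simp only [← hsplit, Prod.mk.eta])
    have hb : ∀ g : ι → ℝ, ∫ G, (rows f c k (fun σ => u σ + f (S c g σ)) G - c0) ^ 2 ∂μk
        ≤ 4 * B ^ 2 * k + (2 * B) ^ 2 := by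
      intro g
      set u' : (ι → Bool) → ℝ := fun σ => u σ + f (S c g σ)
      set m := R f c k u'
      have hm : m = ∫ G, rows f c k u' G ∂μk := R_eq_integral hf hB c k u'
      have hi : Integrable (rows f c k u') μk := by
        refine Integrable.of_bound (continuous_rows hf c k u').aestronglyMeasurable (|base u'| + k * B)
          (ae_of_all _ fun G => ?_)
        have h := abs_rows_le hB c k u' G
        rw [norm_eq_abs]
        linarith [abs_sub_abs_le_abs_sub (rows f c k u' G) (base u')]
      have hi2 : Integrable (fun G => (rows f c k u' G - m) ^ 2) μk := by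
        refine Integrable.of_bound (((continuous_rows hf c k u').sub continuous_const).pow 2).aestronglyMeasurable
          ((k * B + |base u' - m|) ^ 2) (ae_of_all _ fun G => ?_)
        rw [norm_eq_abs, abs_pow]
        refine pow_le_pow_left₀ (abs_nonneg _) ?_ 2
        exact (abs_sub_le _ (base u') _).trans (add_le_add (abs_rows_le hB c k u' G) le_rfl)
      have e : ∀ G, (rows f c k u' G - c0) ^ 2
          = (rows f c k u' G - m) ^ 2 + (2 * (m - c0) * rows f c k u' G
              - 2 * (m - c0) * m + (m - c0) ^ 2) := fun G => by ring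
      simp only [e]
      have i3 : Integrable (fun G => 2 * (m - c0) * rows f c k u' G - 2 * (m - c0) * m) μk :=
        (hi.const_mul _).sub (integrable_const _)
      have i4 : Integrable (fun G => 2 * (m - c0) * rows f c k u' G - 2 * (m - c0) * m + (m - c0) ^ 2) μk :=
        i3.add (integrable_const _)
      rw [integral_add hi2 i4, integral_add i3 (integrable_const _), integral_sub (hi.const_mul _)
        (integrable_const _), integral_const_mul, ← hm]
      simp only [integral_const, probReal_univ, one_smul, sub_self, zero_add]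
      refine add_le_add (ih u') ?_
      rw [← sq_abs]
      refine pow_le_pow_left₀ (abs_nonneg _) ?_ 2
      have h1 : |m - R f c k u| ≤ B := R_lip hf hB c k u' u B fun σ => by simp [u', hB]
      have h2 := R_step hf hB c k u
      have h3 := abs_sub_le m (R f c k u) c0
      rw [abs_sub_comm (R f c k u) c0] at h3
      linarith
    calc _ ≤ ∫ g : ι → ℝ, (4 * B ^ 2 * k + (2 * B) ^ 2) ∂gM ι :=
          integral_mono hint.integral_prod_left (integrable_const _) hb
      _ = _ := by simp; ring

/-- Lower bound on a mean logarithm from the first two moments and a variance bound. -/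
lemma log_lower {Ω : Type*} [MeasurableSpace Ω] {μ : Measure Ω} [IsProbabilityMeasure μ]
    {X : Ω → ℝ} {m1 V Q : ℝ} (hm : 0 < m1) (hX : Integrable X μ)
    (hZ : Integrable (fun w => exp (X w)) μ) (hZ2 : Integrable (fun w => exp (X w) ^ 2) μ)
    (hVi : Integrable (fun w => (X w - ∫ x, X x ∂μ) ^ 2) μ)
    (he : ∫ w, exp (X w) ∂μ = m1) (hV : ∫ w, (X w - ∫ x, X x ∂μ) ^ 2 ∂μ ≤ V)
    (hQ : ∫ w, exp (X w) ^ 2 ∂μ ≤ Q * m1 ^ 2) :
    log m1 - log 2 - √(5 * V * Q) ≤ ∫ x, X x ∂μ := by
  set E := ∫ x, X x ∂μ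
  set t := √(5 * V * Q)
  have hV0 : 0 ≤ V := (integral_nonneg fun w => sq_nonneg _).trans hV
  have hQ0 : 0 < Q := by
    by_contra h
    push Not at h
    have h1 : m1 ^ 2 ≤ ∫ w, exp (X w) ^ 2 ∂μ := by
      have h2 := integral_nonneg (μ := μ) (f := fun w => (exp (X w) - m1) ^ 2) fun w => sq_nonneg _
      have e : ∀ w, (exp (X w) - m1) ^ 2 = exp (X w) ^ 2 + (-(2 * m1) * exp (X w) + m1 ^ 2) :=
        fun w => by ring
      simp only [e] at h2
      have i1 : Integrable (fun w => -(2 * m1) * exp (X w) + m1 ^ 2) μ :=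
        (hZ.const_mul _).add (integrable_const _)
      rw [integral_add hZ2 i1, integral_add (hZ.const_mul _) (integrable_const _), integral_const_mul,
        he] at h2
      simp only [integral_const, probReal_univ, one_smul] at h2
      nlinarith
    nlinarith
  by_contra hc
  push Not at hc
  set d := log m1 - log 2 - E
  have ht : t < d := by simp only [d]; linarith
  have ht0 : 0 ≤ t := Real.sqrt_nonneg _
  have hd : 0 < d := ht0.trans_lt ht
  set l := 1 / (4 * Q * m1)
  have hl : 0 < l := by positivity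
  -- pointwise: Z <= m/2 + l Z^2 + (1/(4l)) (X-E)^2/d^2
  have hp : ∀ w, exp (X w) ≤ m1 / 2 + l * exp (X w) ^ 2 + 1 / (4 * l) * ((X w - E) ^ 2 / d ^ 2) := by
    intro w
    rcases le_or_gt (exp (X w)) (m1 / 2) with h | h
    · have : 0 ≤ l * exp (X w) ^ 2 + 1 / (4 * l) * ((X w - E) ^ 2 / d ^ 2) := by positivity
      linarith
    · have h1 : log m1 - log 2 ≤ X w := by
        rw [← Real.log_div hm.ne' two_ne_zero, Real.log_le_iff_le_exp (by positivity)]
        exact h.le
      have h2 : 1 ≤ (X w - E) ^ 2 / d ^ 2 := by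
        rw [one_le_div (by positivity)]
        exact pow_le_pow_left₀ hd.le (by simp only [d]; linarith) 2
      have h3 : exp (X w) ≤ l * exp (X w) ^ 2 + 1 / (4 * l) := by
        rw [← sub_nonneg]
        have : l * exp (X w) ^ 2 + 1 / (4 * l) - exp (X w) = (2 * l * exp (X w) - 1) ^ 2 / (4 * l) := by
          field_simp; ring
        rw [this]; positivity
      have h4 := mul_le_mul_of_nonneg_left h2 (by positivity : 0 ≤ 1 / (4 * l))
      linarith
  have i1 : Integrable (fun w => m1 / 2 + l * exp (X w) ^ 2) μ :=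
    (integrable_const _).add (hZ2.const_mul l)
  have i2 : Integrable (fun w => 1 / (4 * l) * ((X w - E) ^ 2 / d ^ 2)) μ :=
    (hVi.div_const _).const_mul _
  have h := integral_mono hZ (i1.add i2) hp
  rw [he, integral_add' i1 i2, integral_add (integrable_const _) (hZ2.const_mul l),
    integral_const_mul, integral_const_mul, integral_div] at h
  simp only [integral_const, probReal_univ, one_smul] at h
  have h1 : l * ∫ w, exp (X w) ^ 2 ∂μ ≤ m1 / 4 := by
    refine (mul_le_mul_of_nonneg_left hQ hl.le).trans_eq ?_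
    simp only [l]; field_simp
  have h2 : 1 / (4 * l) * ((∫ w, (X w - E) ^ 2 ∂μ) / d ^ 2) < m1 / 4 := by
    have e : 1 / (4 * l) = Q * m1 := by simp only [l]; field_simp
    rw [e, mul_div_assoc', div_lt_iff₀ (by positivity)]
    have h5 : 5 * V * Q < d ^ 2 :=
      (Real.sq_sqrt (by positivity : 0 ≤ 5 * V * Q)).symm.le.trans_lt (pow_lt_pow_left₀ ht ht0 two_ne_zero)
    have h7 := mul_le_mul_of_nonneg_left hV (mul_nonneg hQ0.le hm.le)
    have h8 := mul_lt_mul_of_pos_left h5 hm
    nlinarith [mul_nonneg (mul_nonneg hV0 hQ0.le) hm.le]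
  simp only [integral_div] at h
  linarith

/-- The exponent `r²/2 + r⁴/12`, below the entropy. -/
def pEnt (r : ℝ) : ℝ := r ^ 2 / 2 + r ^ 4 / 12

lemma logcosh_tilt {r : ℝ} (hr : |r| ≤ 1) :
    pEnt r ≤ (r + r ^ 3 / 3) * r - log (cosh (r + r ^ 3 / 3)) := by
  wlog h0 : 0 ≤ r generalizing r
  · have := this (r := -r) (by rwa [abs_neg]) (by linarith)
    simp only [pEnt, neg_sq] at this ⊢
    rw [show -r + (-r) ^ 3 / 3 = -(r + r ^ 3 / 3) by ring, cosh_neg,
      Even.neg_pow (by decide : Even 4)] at this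
    linarith
  rw [abs_of_nonneg h0] at hr
  set F : ℝ → ℝ := fun x => log (cosh (x + x ^ 3 / 3)) - (x ^ 2 / 2 + x ^ 4 / 4)
  have hd : ∀ x, HasDerivAt F (sinh (x + x ^ 3 / 3) / cosh (x + x ^ 3 / 3) * (1 + x ^ 2) - (x + x ^ 3)) x := by
    intro x
    have h1 : HasDerivAt (fun y : ℝ => y + y ^ 3 / 3) (1 + x ^ 2) x :=
      ((hasDerivAt_id x).add ((hasDerivAt_pow 3 x).div_const 3)).congr_deriv (by ring)
    have h2 := h1.cosh.log (cosh_pos _).ne'
    have h3 : HasDerivAt (fun y : ℝ => y ^ 2 / 2 + y ^ 4 / 4) (x + x ^ 3) x :=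
      (((hasDerivAt_pow 2 x).div_const 2).add ((hasDerivAt_pow 4 x).div_const 4)).congr_deriv (by
        simp <;> ring)
    exact (h2.sub h3).congr_deriv (by field_simp)
  have hanti : AntitoneOn F (Icc 0 1) := by
    refine antitoneOn_of_deriv_nonpos (convex_Icc 0 1) (fun x _ => (hd x).continuousAt.continuousWithinAt)
      (fun x _ => (hd x).differentiableAt.differentiableWithinAt) fun x hx => ?_
    rw [interior_Icc] at hx
    rw [(hd x).deriv]
    have hs := Real.sum_range_le_log_div hx.1.le hx.2 2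
    simp only [Finset.sum_range_succ, Finset.sum_range_zero] at hs
    have hy : 2 * (x + x ^ 3 / 3) ≤ log ((1 + x) / (1 - x)) := by
      norm_num at hs ⊢; linarith
    have hxy := exp_le_exp.2 hy
    rw [exp_log (div_pos (by linarith [hx.1]) (by linarith [hx.2])), le_div_iff₀ (by linarith [hx.2])] at hxy
    set y := x + x ^ 3 / 3
    have he : exp (2 * y) = exp y * exp y := by rw [← exp_add]; ring_nf
    have hem : exp y * exp (-y) = 1 := by rw [← exp_add]; simp
    have hth : sinh y / cosh y ≤ x := by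
      rw [div_le_iff₀ (cosh_pos y), sinh_eq, cosh_eq]
      rw [he] at hxy
      nlinarith [mul_le_mul_of_nonneg_left hxy (exp_pos (-y)).le, exp_pos y, exp_pos (-y)]
    have := mul_le_mul_of_nonneg_right hth (by positivity : (0 : ℝ) ≤ 1 + x ^ 2)
    linarith
  have := hanti (left_mem_Icc.2 zero_le_one) ⟨h0, hr⟩ h0
  simp only [F, pEnt] at this ⊢
  norm_num at this
  linarith

/-- The overlap of two configurations. -/
def rOv (N : ℕ) (σ τ : Fin N → Bool) : ℝ :=
  ∑ i, (√(N : ℝ))⁻¹ * spin (σ i) * ((√(N : ℝ))⁻¹ * spin (τ i))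

lemma rOv_eq {N : ℕ} (hN : 0 < N) (σ τ : Fin N → Bool) :
    rOv N σ τ = (∑ i, spin (σ i) * spin (τ i)) / N := by
  have hNR : (0 : ℝ) < N := by exact_mod_cast hN
  rw [rOv, Finset.sum_div]
  refine Finset.sum_congr rfl fun i _ => ?_
  have h : (√(N : ℝ))⁻¹ * (√(N : ℝ))⁻¹ = (N : ℝ)⁻¹ := by rw [← mul_inv, Real.mul_self_sqrt hNR.le]
  linear_combination (spin (σ i) * spin (τ i)) * h

lemma abs_rOv_le {N : ℕ} (hN : 0 < N) (σ τ : Fin N → Bool) : |rOv N σ τ| ≤ 1 := by
  have hNR : (0 : ℝ) < N := by exact_mod_cast hN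
  rw [rOv_eq hN, abs_div, abs_of_pos hNR, div_le_one hNR]
  refine (Finset.abs_sum_le_sum_abs _ _).trans ((Finset.sum_le_card_nsmul _ _ 1 fun i _ => ?_).trans_eq ?_)
  · cases σ i <;> cases τ i <;> simp [spin]
  · simp

/-- The overlap sum with an exponent below the entropy is subexponential. -/
lemma overlap_sum {N : ℕ} (hN : 0 < N) {θ : ℝ} (h0 : 0 ≤ θ) (h1 : θ ≤ 1) (σ : Fin N → Bool) :
    ∑ τ : Fin N → Bool, exp (θ * N * pEnt (rOv N σ τ)) ≤ 2 ^ N * ((N : ℝ) + 1) ^ θ := by
  classical
  have hNR : (0 : ℝ) < N := by exact_mod_cast hN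
  set img := (Finset.univ : Finset (Fin N → Bool)).image (rOv N σ)
  have hK : (img.card : ℝ) ≤ (N : ℝ) + 1 := by
    have hsub : img ⊆ (Finset.range (N + 1)).image (fun k : ℕ => (2 * (k : ℝ) - N) / N) := by
      intro x hx
      simp only [img, Finset.mem_image, Finset.mem_univ, true_and] at hx
      obtain ⟨τ, rfl⟩ := hx
      refine Finset.mem_image.2 ⟨(Finset.univ.filter fun i => σ i = τ i).card, ?_, ?_⟩
      · rw [Finset.mem_range]
        have := Finset.card_filter_le (Finset.univ : Finset (Fin N)) fun i => σ i = τ i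
        simp at this ⊢
        omega
      · rw [rOv_eq hN]
        congr 1
        have e : ∀ i, spin (σ i) * spin (τ i) = 2 * (if σ i = τ i then (1 : ℝ) else 0) - 1 := fun i => by
          cases σ i <;> cases τ i <;> simp [spin] <;> norm_num
        simp [e, Finset.sum_sub_distrib]
        rw [← Finset.sum_filter]
        simp [mul_comm]
    have := Finset.card_le_card hsub
    have h2 := this.trans Finset.card_image_le
    simp at h2
    exact_mod_cast h2
  set a : ℝ → ℝ := fun r => ((Finset.univ.filter fun τ => rOv N σ τ = r).card : ℝ) / 2 ^ N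
  have ha : ∀ r, 0 ≤ a r := fun r => div_nonneg (Nat.cast_nonneg _) (by positivity)
  have hsum : ∑ r ∈ img, a r = 1 := by
    rw [← Finset.sum_div, ← Nat.cast_sum, ← Finset.card_eq_sum_card_image]
    simp
  have key : ∀ r ∈ img, a r * exp (θ * N * pEnt r) ≤ ((N : ℝ) + 1) ^ θ * ((1 - θ) * a r + θ / ((N : ℝ) + 1)) := by
    intro r hr
    simp only [img, Finset.mem_image, Finset.mem_univ, true_and] at hr
    obtain ⟨τ0, hτ0⟩ := hr
    have hr1 : |r| ≤ 1 := hτ0 ▸ abs_rOv_le hN σ τ0
    set h := r + r ^ 3 / 3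
    have hprod : ∑ τ : Fin N → Bool, exp (h * ∑ i, spin (σ i) * spin (τ i)) = (2 * cosh h) ^ N := by
      have e : ∀ i, ∑ b : Bool, exp (h * (spin (σ i) * spin b)) = 2 * cosh h := fun i => by
        cases σ i <;> simp [spin, cosh_eq] <;> ring
      calc _ = ∑ τ : Fin N → Bool, ∏ i, exp (h * (spin (σ i) * spin (τ i))) := by
            simp only [Finset.mul_sum, exp_sum]
        _ = ∏ i, ∑ b : Bool, exp (h * (spin (σ i) * spin b)) :=
            (Fintype.prod_sum fun i b => exp (h * (spin (σ i) * spin b))).symm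
        _ = _ := by simp only [e, Finset.prod_const, Finset.card_univ, Fintype.card_fin]
    have hle : ((Finset.univ.filter fun τ => rOv N σ τ = r).card : ℝ) * exp (h * (N * r)) ≤ (2 * cosh h) ^ N := by
      rw [← hprod]
      refine le_trans (le_of_eq ?_) (Finset.sum_le_sum_of_subset_of_nonneg
        (Finset.subset_univ (Finset.univ.filter fun τ => rOv N σ τ = r)) fun τ _ _ => (exp_pos _).le)
      rw [Finset.sum_congr rfl fun τ hτ => show exp (h * ∑ i, spin (σ i) * spin (τ i)) = exp (h * (N * r)) by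
        rw [← (Finset.mem_filter.1 hτ).2, rOv_eq hN]; field_simp]
      simp
    have hap : 0 < a r := div_pos (Nat.cast_pos.2 (Finset.card_pos.2 ⟨τ0, by simp [hτ0]⟩)) (by positivity)
    have hbound : a r ≤ exp (-((N : ℝ) * pEnt r)) := by
      have h2 := logcosh_tilt hr1
      have e : (2 * cosh h) ^ N = 2 ^ N * exp (N * log (cosh h)) := by
        rw [mul_pow, exp_nat_mul, exp_log (cosh_pos h)]
      rw [e] at hle
      rw [div_le_iff₀ (by positivity)]
      have h3 : (((Finset.univ.filter fun τ => rOv N σ τ = r).card : ℝ))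
          ≤ 2 ^ N * exp (N * log (cosh h)) / exp (h * (N * r)) := by
        rw [le_div_iff₀ (exp_pos _)]; exact hle
      refine h3.trans ?_
      rw [mul_div_assoc, ← exp_sub, mul_comm (exp (-_))]
      exact mul_le_mul_of_nonneg_left (exp_le_exp.2 (by
        have h6 := mul_le_mul_of_nonneg_left h2 hNR.le
        simp only [h]
        linarith)) (by positivity)
    have h4 : a r * exp (θ * N * pEnt r) ≤ a r ^ (1 - θ) := by
      have h5 : exp (θ * N * pEnt r) ≤ (a r) ^ (-θ) := by
        rw [Real.rpow_def_of_pos hap]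
        refine exp_le_exp.2 ?_
        have := (Real.log_le_iff_le_exp hap).2 hbound
        nlinarith
      calc a r * exp (θ * N * pEnt r) ≤ a r * a r ^ (-θ) := mul_le_mul_of_nonneg_left h5 hap.le
        _ = _ := by rw [sub_eq_add_neg, Real.rpow_add hap, Real.rpow_one]
    refine h4.trans ?_
    have hN1 : (0 : ℝ) < (N : ℝ) + 1 := by positivity
    have hg := Real.geom_mean_le_arith_mean2_weighted (sub_nonneg.2 h1) h0 hap.le
      (by positivity : (0 : ℝ) ≤ 1 / ((N : ℝ) + 1)) (by ring)
    rw [Real.div_rpow zero_le_one hN1.le, Real.one_rpow, mul_one_div, mul_one_div,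
      div_le_iff₀ (Real.rpow_pos_of_pos hN1 θ)] at hg
    linarith
  calc ∑ τ : Fin N → Bool, exp (θ * N * pEnt (rOv N σ τ))
      = ∑ r ∈ img, 2 ^ N * (a r * exp (θ * N * pEnt r)) := by
        rw [← Finset.sum_fiberwise_of_maps_to (g := rOv N σ) (t := img)
          (fun τ _ => Finset.mem_image_of_mem _ (Finset.mem_univ τ))]
        refine Finset.sum_congr rfl fun r _ => ?_
        rw [Finset.sum_congr rfl fun τ hτ => by rw [(Finset.mem_filter.1 hτ).2]]
        simp [a]
        field_simp
    _ ≤ ∑ r ∈ img, 2 ^ N * (((N : ℝ) + 1) ^ θ * ((1 - θ) * a r + θ / ((N : ℝ) + 1))) :=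
        Finset.sum_le_sum fun r hr => mul_le_mul_of_nonneg_left (key r hr) (by positivity)
    _ ≤ _ := by
        rw [← Finset.mul_sum, ← Finset.mul_sum, Finset.sum_add_distrib, ← Finset.mul_sum, hsum,
          Finset.sum_const, nsmul_eq_mul]
        refine mul_le_mul_of_nonneg_left (mul_le_of_le_one_right (by positivity) ?_) (by positivity)
        have : (img.card : ℝ) * (θ / ((N : ℝ) + 1)) ≤ θ := by
          rw [mul_div_assoc', div_le_iff₀ (by positivity)]
          nlinarith [mul_le_mul_of_nonneg_right hK h0]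
        linarith

end P157.Conc

end
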