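import Vale.Agent.P157.Conc.Field

/-!
# P157: the replica symmetric upper bound at every density
-/

noncomputable section

open MeasureTheory ProbabilityTheory Real Filter Topology Set
open scoped BigOperators

namespace P157.Conc

open Vale.Agent.P150 (gauss)

variable {f f1 f2 f3 : ℝ → ℝ} {U V W δ κ B : ℝ}

section Slots

variable {ι : Type*} [Fintype ι] [DecidableEq ι]

lemma slots_le (hp : Pot f f1 f2 f3 U V W) (hB : ∀ s, |f s| ≤ B) {w v d : ℝ} (h0 : 0 ≤ w)
    (h1 : w ≤ 1) (hv : 0 ≤ v) (c : ι → ℝ)
    (one : ∀ u, w * T f c base u + (1 - w) * base u ≤ gField v u + d) :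
    ∀ (j : ℕ) (u : (ι → Bool) → ℝ),
      Em w j (fun k => R f c k u) ≤ gField (j * v) u + j * d := by
  intro j
  induction j with
  | zero => intro u; simp [Em, R, gField_zero]
  | succ j ih =>
    intro u
    have hf := hp.cf
    have hRi : ∀ k, Integrable (fun g : ι → ℝ => R f c k (fun σ => u σ + f (S c g σ))) (gM ι) :=
      fun k => T_integrable hf hB (R_lip hf hB c k) c u
    have hjv : 0 ≤ (j : ℝ) * v := mul_nonneg (Nat.cast_nonneg j) hv
    have e1 : Em w j (fun k => R f c (k + 1) u)
        = ∫ g, Em w j (fun k => R f c k (fun σ => u σ + f (S c g σ))) ∂gM ι := by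
      rw [integral_Em hRi]; rfl
    have h2 : Em w j (fun k => R f c (k + 1) u) ≤ T f c (gField ((j : ℝ) * v)) u + j * d := by
      rw [e1]
      have hGi := T_integrable hf hB (lip_gField (ι := ι) ((j : ℝ) * v)) c u
      refine (integral_mono (integrable_Em hRi) (hGi.add (integrable_const _)) fun g => ih _).trans_eq ?_
      rw [integral_add' hGi (integrable_const _), integral_const, probReal_univ, one_smul]
      rfl
    have hswap : T f c (gField ((j : ℝ) * v)) u
        = ∫ h, T f c base (fun σ => u σ + fieldS ((j : ℝ) * v) h σ) ∂gauss ι := by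
      simp only [T, gField]
      have hc2 : Continuous fun p : (ι → ℝ) × (ι → ℝ) =>
          base (fun σ => u σ + f (S c p.1 σ) + fieldS ((j : ℝ) * v) p.2 σ) :=
        lip_base.continuous.comp (continuous_pi fun σ => (continuous_const.add
          (hf.comp ((continuous_S c σ).comp continuous_fst))).add
          ((continuous_apply σ).comp ((continuous_fieldS _).comp continuous_snd)))
      have hi : Integrable (Function.uncurry fun g h : ι → ℝ =>
          base (fun σ => u σ + f (S c g σ) + fieldS ((j : ℝ) * v) h σ)) ((gM ι).prod (gauss ι)) := by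
        have hb : Integrable (fun h : ι → ℝ => |base u| + B + √((j : ℝ) * v) * ∑ i, |h i|) (gauss ι) :=
          (integrable_const _).add ((integrable_finsetSum _ fun i _ =>
            (Vale.Agent.P150.integrable_eval i).abs).const_mul _)
        refine (hb.comp_snd (gM ι)).mono' hc2.aestronglyMeasurable (ae_of_all _ fun p => ?_)
        rw [Real.norm_eq_abs]
        refine (abs_base_field_le _ (fun σ => u σ + f (S c p.1 σ)) p.2).trans
          (add_le_add ?_ le_rfl)
        have h := lip_base (fun σ => u σ + f (S c p.1 σ)) u B fun σ => by simpa using hB _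
        linarith [abs_sub_abs_le_abs_sub (base (fun σ => u σ + f (S c p.1 σ))) (base u)]
      rw [integral_integral_swap hi]
      refine integral_congr_ae (ae_of_all _ fun h => integral_congr_ae (ae_of_all _ fun g => ?_))
      simp only [add_right_comm]
    have hintT : Integrable (fun h => T f c base (fun σ => u σ + fieldS ((j : ℝ) * v) h σ)) (gauss ι) := by
      refine Vale.Agent.P150.integrable_of_linear_bound ((T_lip hf hB lip_base c).continuous.comp
        (continuous_pi fun σ => continuous_const.add ((continuous_apply σ).comp (continuous_fieldS _))))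
        (A := |T f c base u|) (B := √((j : ℝ) * v)) fun h => ?_
      have := T_lip hf hB lip_base c (fun σ => u σ + fieldS ((j : ℝ) * v) h σ) u
        (√((j : ℝ) * v) * ∑ i, |h i|) fun σ => by rw [add_sub_cancel_left]; exact abs_fieldS_le _ h σ
      linarith [abs_sub_abs_le_abs_sub (T f c base (fun σ => u σ + fieldS ((j : ℝ) * v) h σ)) (T f c base u)]
    have hintG : Integrable (fun h => gField v (fun σ => u σ + fieldS ((j : ℝ) * v) h σ)) (gauss ι) := by
      refine Vale.Agent.P150.integrable_of_linear_bound ((lip_gField v).continuous.comp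
        (continuous_pi fun σ => continuous_const.add ((continuous_apply σ).comp (continuous_fieldS _))))
        (A := |gField v u|) (B := √((j : ℝ) * v)) fun h => ?_
      have := lip_gField v (fun σ => u σ + fieldS ((j : ℝ) * v) h σ) u
        (√((j : ℝ) * v) * ∑ i, |h i|) fun σ => by rw [add_sub_cancel_left]; exact abs_fieldS_le _ h σ
      linarith [abs_sub_abs_le_abs_sub (gField v (fun σ => u σ + fieldS ((j : ℝ) * v) h σ)) (gField v u)]
    have h3 := ih u
    have hmix : w * T f c (gField ((j : ℝ) * v)) u + (1 - w) * gField ((j : ℝ) * v) u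
        ≤ gField (((j + 1 : ℕ) : ℝ) * v) u + d := by
      have i1 := integrable_gField ((j : ℝ) * v) u
      calc w * T f c (gField ((j : ℝ) * v)) u + (1 - w) * gField ((j : ℝ) * v) u
          = ∫ h, (w * T f c base (fun σ => u σ + fieldS ((j : ℝ) * v) h σ)
              + (1 - w) * base (fun σ => u σ + fieldS ((j : ℝ) * v) h σ)) ∂gauss ι := by
            rw [integral_add (hintT.const_mul _) (i1.const_mul _), integral_const_mul, integral_const_mul,
              hswap]
            rfl
        _ ≤ ∫ h, (gField v (fun σ => u σ + fieldS ((j : ℝ) * v) h σ) + d) ∂gauss ι :=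
            integral_mono ((hintT.const_mul _).add (i1.const_mul _)) (hintG.add (integrable_const _))
              fun h => one _
        _ = _ := by
            rw [integral_add hintG (integrable_const _), gField_add hjv hv, integral_const,
              probReal_univ, one_smul]
            push_cast
            ring_nf
    simp only [Em]
    have a1 := mul_le_mul_of_nonneg_left h2 h0
    have a2 := mul_le_mul_of_nonneg_left h3 (sub_nonneg.2 h1)
    push_cast at hmix ⊢
    linarith

end Slots

/-- `E log (2 cosh (a z))`. -/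
def site (a : ℝ) : ℝ := ∫ t, log (2 * cosh (a * t)) ∂gaussianReal 0 1

lemma continuous_logcosh (a : ℝ) : Continuous fun t : ℝ => log (2 * cosh (a * t)) :=
  (continuous_const.mul (continuous_cosh.comp (by fun_prop))).log
    fun t => (mul_pos two_pos (cosh_pos _)).ne'

lemma logcosh_lip (x y : ℝ) : |log (2 * cosh x) - log (2 * cosh y)| ≤ |x - y| := by
  have hd : ∀ s, HasDerivAt (fun x => log (2 * cosh x)) (2 * sinh s / (2 * cosh s)) s := fun s =>
    ((hasDerivAt_cosh s).const_mul 2).log (mul_pos two_pos (cosh_pos s)).ne'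
  simpa using abs_sub_le_mul hd (C := 1) (fun s => by
    rw [abs_div, abs_of_pos (mul_pos two_pos (cosh_pos s)), div_le_one (mul_pos two_pos (cosh_pos s)),
      abs_le]
    constructor <;> linarith [sinh_lt_cosh (x := s), exp_pos s, cosh_add_sinh s]) x y

lemma integrable_logcosh (a : ℝ) : Integrable (fun t => log (2 * cosh (a * t))) (gaussianReal 0 1) := by
  refine ((integrable_const (log 2)).add (((memLp_id_gaussianReal 1).integrable le_rfl).abs.const_mul |a|)).mono'
    (continuous_logcosh a).aestronglyMeasurable (ae_of_all _ fun t => ?_)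
  have h := logcosh_lip (a * t) 0
  rw [cosh_zero, mul_one, sub_zero] at h
  have h2 := abs_sub_abs_le_abs_sub (log (2 * cosh (a * t))) (log 2)
  rw [abs_of_nonneg (log_nonneg one_le_two)] at h2
  rw [abs_mul] at h
  simp only [Real.norm_eq_abs, Pi.add_apply, id]
  linarith

lemma site_lip (a b : ℝ) : |site a - site b| ≤ |a - b| * ∫ t, |t| ∂gaussianReal 0 1 := by
  rw [site, site, ← integral_sub (integrable_logcosh a) (integrable_logcosh b), ← integral_const_mul]
  refine (abs_integral_le_integral_abs).trans (integral_mono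
    ((integrable_logcosh a).sub (integrable_logcosh b)).abs
    ((((memLp_id_gaussianReal 1).integrable le_rfl).abs).const_mul _) fun t => ?_)
  refine (logcosh_lip (a * t) (b * t)).trans_eq ?_
  rw [← abs_mul, sub_mul]

lemma rsTau_nonneg (f f1 : ℝ → ℝ) (q : ℝ) : 0 ≤ rsTau f f1 q := integral_nonneg fun z => sq_nonneg _

theorem aSeq_le (hp : Pot f f1 f2 f3 U V W) (hs : Small f f1 f2 U V δ κ) (hB : ∀ s, |f s| ≤ B)
    {α : ℝ} {N : ℕ} (hN : 0 < N) {q : ℝ} (hq : q ∈ Icc (0 : ℝ) 1) :
    aSeq f α N ≤ (⌊α * N⌋₊ : ℝ) * (rsA f q - rsTau f f1 q * (1 - q) / 2)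
      + N * site (√((⌊α * N⌋₊ : ℝ) * rsTau f f1 q / N)) + B * √(⌊α * N⌋₊ : ℝ) := by
  set M := ⌊α * N⌋₊
  set τ := rsTau f f1 q
  have hτ : 0 ≤ τ := rsTau_nonneg f f1 q
  have hB0 : 0 ≤ B := (abs_nonneg _).trans (hB 0)
  have hNR : (0 : ℝ) < N := by exact_mod_cast hN
  set c : Fin N → ℝ := fun _ => (√(N : ℝ))⁻¹
  have hc : ∑ i, c i ^ 2 = 1 := by
    simp [c, Real.sq_sqrt hNR.le, hNR.ne']
  have := Fin.pos_iff_nonempty.1 hN
  obtain ⟨C, hC⟩ := gField_lower (ι := Fin N)
  simp only [Fintype.card_fin] at hC
  set RHS := (M : ℝ) * (rsA f q - τ * (1 - q) / 2) + N * site (√((M : ℝ) * τ / N)) + B * √(M : ℝ)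
  set E := (M : ℝ) * (C * (τ / N * √(τ / N)))
  suffices key : ∀ n : ℕ, aSeq f α N ≤ RHS + E / √((n + 1 : ℕ) : ℝ) by
    refine ge_of_tendsto' (x := (atTop : Filter ℕ)) ?_ key
    have : Tendsto (fun n : ℕ => E / √((n + 1 : ℕ) : ℝ)) atTop (𝓝 0) :=
      tendsto_const_nhds.div_atTop (Real.tendsto_sqrt_atTop.comp
        ((tendsto_natCast_atTop_atTop (R := ℝ)).comp (tendsto_add_atTop_nat 1)))
    simpa using this.const_add RHS
  intro n
  set L : ℕ := n + 1
  have hL : (1 : ℝ) ≤ L := by exact_mod_cast Nat.le_add_left 1 n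
  set w : ℝ := 1 / L
  have hw0 : 0 ≤ w := by positivity
  have hw1 : w ≤ 1 := by rw [div_le_one (by linarith)]; exact hL
  set v : ℝ := w * τ / N
  have hv : 0 ≤ v := by positivity
  set d : ℝ := w * (rsA f q - τ * (1 - q) / 2) + C * (v * √v)
  have one : ∀ u, w * T f c base u + (1 - w) * base u ≤ gField v u + d := by
    intro u
    have h1 := mul_le_mul_of_nonneg_left (row_bound hp hB hs hc hq u) hw0
    have h2 := hC v hv u
    have e : v * N = w * τ := by simp only [v]; field_simp
    rw [e] at h2
    simp only [c, τ, d] at h1 h2 ⊢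
    linarith
  have hsl := slots_le hp hB hw0 hw1 hv c one (M * L) 0
  rw [gField_product, Fintype.card_fin] at hsl
  have e1 : ((M * L : ℕ) : ℝ) * v = (M : ℝ) * τ / N := by
    simp only [v, w]; push_cast; field_simp
  have e2 : ((M * L : ℕ) : ℝ) * d = (M : ℝ) * (rsA f q - τ * (1 - q) / 2)
      + (M : ℝ) * (C * (τ / N * √(τ / N))) / √(L : ℝ) := by
    have hv2 : v * √v = τ / N * √(τ / N) / L / √(L : ℝ) := by
      have : v = τ / N / L := by simp only [v, w]; field_simp
      rw [this, Real.sqrt_div' _ (by linarith : (0 : ℝ) ≤ L)]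
      field_simp
    simp only [d, hv2, w]
    push_cast
    field_simp
  rw [e1, e2] at hsl
  have hlow : aSeq f α N - B * √(M : ℝ) ≤ Em w (M * L) (fun k => R f c k 0) := by
    rcases Nat.eq_zero_or_pos M with hM | hM
    · simp [aSeq, F, M, hM, Em, c]
    · have hMR : (0 : ℝ) < M := by exact_mod_cast hM
      set t := √(M : ℝ)
      have ht : 0 < t := Real.sqrt_pos.2 hMR
      have ht2 : t ^ 2 = M := Real.sq_sqrt hMR.le
      have low : ∀ k ≤ M * L, (aSeq f α N - B * t / 2) + (-(B / (2 * t))) * ((k : ℝ) - M) ^ 2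
          ≤ R f c k 0 := by
        intro k _
        have h := (abs_le.1 (R_dist hp.cf hB c k M 0)).1
        have h2 : |(k : ℝ) - M| ≤ t / 2 + ((k : ℝ) - M) ^ 2 / (2 * t) := by
          rw [div_add_div _ _ two_ne_zero (by positivity), le_div_iff₀ (by positivity)]
          nlinarith [sq_nonneg (|(k : ℝ) - M| - t), sq_abs ((k : ℝ) - M)]
        have h3 := mul_le_mul_of_nonneg_left h2 hB0
        have : aSeq f α N = R f c M 0 := rfl
        have e3 : B / (2 * t) * ((k : ℝ) - M) ^ 2 = B * (((k : ℝ) - M) ^ 2 / (2 * t)) := by ring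
        linarith
      have h := Em_mono hw0 hw1 low
      rw [Em_affine, Em_sq] at h
      have e3 : ((M * L : ℕ) : ℝ) * w = M := by simp only [w]; push_cast; field_simp
      rw [← mul_assoc, e3, sub_self, zero_pow two_ne_zero, zero_add] at h
      have h4 : B / (2 * t) * ((M : ℝ) * (1 - w)) ≤ B * t / 2 := by
        refine (mul_le_mul_of_nonneg_left (mul_le_of_le_one_right hMR.le (by linarith)) (by positivity)).trans_eq ?_
        rw [← ht2]; field_simp
      linarith
  simp only [RHS, E, site]
  linarith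

theorem limit_le (hp : Pot f f1 f2 f3 U V W) (hs : Small f f1 f2 U V δ κ) (hB : ∀ s, |f s| ≤ B)
    {α : ℝ} (hα : 0 ≤ α) {L : ℝ} (hL : Tendsto (fun N : ℕ => aSeq f α N / N) atTop (𝓝 L))
    {q : ℝ} (hq : q ∈ Icc (0 : ℝ) 1) :
    L ≤ α * (rsA f q - rsTau f f1 q * (1 - q) / 2) + site (√(α * rsTau f f1 q)) := by
  set τ := rsTau f f1 q
  have hm : Tendsto (fun N : ℕ => (⌊α * N⌋₊ : ℝ) / N) atTop (𝓝 α) :=
    (tendsto_nat_floor_mul_div_atTop hα).comp tendsto_natCast_atTop_atTop
  have hsite : Continuous site := by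
    refine (LipschitzWith.of_dist_le_mul (K := (∫ t, |t| ∂gaussianReal 0 1).toNNReal) fun a b => ?_).continuous
    rw [Real.dist_eq, Real.dist_eq, Real.coe_toNNReal _ (integral_nonneg fun t => abs_nonneg t), mul_comm]
    exact site_lip a b
  have h1 : Tendsto (fun N : ℕ => site (√((⌊α * N⌋₊ : ℝ) * τ / N))) atTop (𝓝 (site (√(α * τ)))) := by
    refine (hsite.tendsto _).comp ((Real.continuous_sqrt.tendsto _).comp ?_)
    refine (hm.mul_const τ).congr fun N => ?_
    ring
  have h2 : Tendsto (fun N : ℕ => B * √(⌊α * N⌋₊ : ℝ) / N) atTop (𝓝 0) := by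
    have ha : Tendsto (fun N : ℕ => B * √α / √(N : ℝ)) atTop (𝓝 0) :=
      tendsto_const_nhds.div_atTop (Real.tendsto_sqrt_atTop.comp tendsto_natCast_atTop_atTop)
    have hB0 : 0 ≤ B := (abs_nonneg _).trans (hB 0)
    refine squeeze_zero' (Eventually.of_forall fun N => by positivity) ?_ ha
    filter_upwards [eventually_gt_atTop 0] with N hN
    have hNR : (0 : ℝ) < N := by exact_mod_cast hN
    rw [div_le_div_iff₀ hNR (Real.sqrt_pos.2 hNR)]
    have h3 : √(⌊α * N⌋₊ : ℝ) * √(N : ℝ) ≤ √α * N := by
      calc √(⌊α * N⌋₊ : ℝ) * √(N : ℝ) ≤ √(α * N) * √(N : ℝ) := by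
            gcongr; exact Nat.floor_le (by positivity)
        _ = _ := by rw [Real.sqrt_mul hα, mul_assoc, Real.mul_self_sqrt hNR.le]
    nlinarith [mul_le_mul_of_nonneg_left h3 hB0]
  refine le_of_tendsto_of_tendsto hL (((hm.mul_const _).add h1).add h2 |>.trans (by rw [add_zero])) ?_
  filter_upwards [eventually_gt_atTop 0] with N hN
  have hNR : (0 : ℝ) < N := by exact_mod_cast hN
  have := aSeq_le hp hs hB (α := α) hN hq
  refine (div_le_div_of_nonneg_right this hNR.le).trans_eq ?_
  simp only [τ]
  field_simp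

end P157.Conc

end
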