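import Vale.Agent.P157.Conc.Tangent

/-!
# P157: the replica symmetric bound for one row
-/

noncomputable section

open MeasureTheory ProbabilityTheory Real Filter Topology Set
open scoped BigOperators

namespace P157.Conc

open Vale.Agent.P150 (gauss)

variable {ι : Type*} [Fintype ι] [DecidableEq ι] {f f1 f2 f3 : ℝ → ℝ} {U V W δ κ : ℝ}

lemma abs_sub_le_mul {G G' : ℝ → ℝ} (hd : ∀ s, HasDerivAt G (G' s) s) {C : ℝ}
    (hC : ∀ s, |G' s| ≤ C) (s t : ℝ) : |G s - G t| ≤ C * |s - t| := by
  have := Convex.norm_image_sub_le_of_norm_hasDerivWithin_le (s := Set.univ)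
    (fun x _ => (hd x).hasDerivWithinAt) (fun x _ => (Real.norm_eq_abs _).trans_le (hC x))
    convex_univ (mem_univ t) (mem_univ s)
  simpa [Real.norm_eq_abs] using this

/-- Deviation of an empirical average over the private fields from its mean. -/
lemma dev_avg {G : ℝ → ℝ} {L B : ℝ} (hG : Continuous G) (hB : ∀ s, |G s| ≤ B)
    (hL : ∀ s t, |G s - G t| ≤ L * |s - t|) {K : ℕ} [NeZero K] {q : ℝ} (hq : q ∈ Icc (0 : ℝ) 1)
    (z : ℝ) (σ : ι → Bool) :
    ∫ ξ, |(∑ k, G (√q * z + √(1 - q) * ξ (σ, k))) / K - cav G q z|
        ∂gauss ((ι → Bool) × Fin K) ≤ L / √K := by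
  have hK : (0 : ℝ) < K := by exact_mod_cast Nat.pos_of_ne_zero (NeZero.ne K)
  have hL0 : 0 ≤ L := by
    have := (abs_nonneg _).trans (hL 1 0)
    simpa using this
  set F : ((ι → Bool) × Fin K → ℝ) → ℝ := fun ξ => (∑ k, G (√q * z + √(1 - q) * ξ (σ, k))) / K
  set c : (ι → Bool) × Fin K → ℝ := fun x => if x.1 = σ then L / K else 0
  have hs1 : √(1 - q) ≤ 1 := Real.sqrt_le_one.2 (by linarith [hq.1])
  have hF : ∀ g g', |F g - F g'| ≤ ∑ x, c x * |g x - g' x| := by
    intro g g'
    simp only [F, ← sub_div, ← Finset.sum_sub_distrib, abs_div, abs_of_pos hK]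
    rw [div_le_iff₀ hK, Finset.sum_mul, Fintype.sum_prod_type, Finset.sum_eq_single σ
      (fun τ _ hτ => by simp [c, hτ]) (by simp)]
    refine (Finset.abs_sum_le_sum_abs _ _).trans (Finset.sum_le_sum fun k _ => (hL _ _).trans ?_)
    simp only [c, if_true]
    rw [show √q * z + √(1 - q) * g (σ, k) - (√q * z + √(1 - q) * g' (σ, k))
      = √(1 - q) * (g (σ, k) - g' (σ, k)) by ring, abs_mul, abs_of_nonneg (Real.sqrt_nonneg _)]
    rw [div_mul_eq_mul_div, div_mul_cancel₀ _ hK.ne']
    exact mul_le_mul_of_nonneg_left (mul_le_of_le_one_left (abs_nonneg _) hs1) hL0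
  have hm : ∫ ξ, F ξ ∂gauss ((ι → Bool) × Fin K) = cav G q z := by
    have hGc : Continuous fun t => G (√q * z + √(1 - q) * t) := hG.comp (by fun_prop)
    have he : ∀ k : Fin K, ∫ ξ, G (√q * z + √(1 - q) * ξ (σ, k)) ∂gauss ((ι → Bool) × Fin K)
        = cav G q z := by
      intro k
      have h := measurePreserving_eval (fun _ : (ι → Bool) × Fin K => gaussianReal 0 1) (σ, k)
      rw [cav, ← h.map_eq, integral_map h.measurable.aemeasurable hGc.aestronglyMeasurable]
      rfl
    simp only [F]
    have hi : ∀ k : Fin K, Integrable (fun ξ : (ι → Bool) × Fin K → ℝ =>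
        G (√q * z + √(1 - q) * ξ (σ, k))) (gauss _) := fun k =>
      Vale.Agent.P150.integrable_gauss_bound (hGc.comp (continuous_apply (σ, k))) fun ξ => hB _
    rw [integral_div, integral_finsetSum _ fun k _ => hi k]
    simp [he, mul_div_cancel_left₀ _ hK.ne']
  have h := Vale.Agent.P150.abs_dev_le hF
  rw [hm] at h
  refine h.trans (le_of_eq ?_)
  have e : ∑ x, c x ^ 2 = L ^ 2 / K := by
    rw [Fintype.sum_prod_type, Finset.sum_eq_single σ (fun τ _ hτ => by simp [c, hτ]) (by simp)]
    simp [c]
    field_simp
  rw [e, Real.sqrt_div' _ hK.le, Real.sqrt_sq hL0]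

variable (hp : Pot f f1 f2 f3 U V W) {B : ℝ} (hB : ∀ s, |f s| ≤ B)
include hp hB

lemma cav_exp_bounds (q z : ℝ) : exp (-B) ≤ cav (fun s => exp (f s)) q z ∧
    cav (fun s => exp (f s)) q z ≤ exp B := by
  have hi : Integrable (fun ξ => exp (f (√q * z + √(1 - q) * ξ))) (gaussianReal 0 1) := by
    refine Integrable.of_bound (Continuous.aestronglyMeasurable (by have := hp.cf; fun_prop)) (exp B)
      (ae_of_all _ fun ξ => ?_)
    rw [norm_eq_abs, abs_of_pos (exp_pos _)]
    exact exp_le_exp.2 (abs_le.1 (hB _)).2
  constructor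
  · refine le_trans (le_of_eq ?_) (integral_mono (integrable_const (exp (-B))) hi
      fun ξ => exp_le_exp.2 (abs_le.1 (hB _)).1)
    simp
  · refine (integral_mono hi (integrable_const (exp B))
      fun ξ => exp_le_exp.2 (abs_le.1 (hB _)).2).trans (le_of_eq ?_)
    simp

lemma cav_ratio_le (q z : ℝ) :
    |cav (fun s => f1 s * exp (f s)) q z / cav (fun s => exp (f s)) q z| ≤ U := by
  have hpos := (exp_pos _).trans_le (cav_exp_bounds hp hB q z).1
  rw [abs_div, abs_of_pos hpos, div_le_iff₀ hpos, cav, cav, ← integral_const_mul]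
  have := hp.cf
  refine (abs_integral_le_integral_abs).trans (integral_mono_of_nonneg
    (ae_of_all _ fun ξ => abs_nonneg _) ?_ (ae_of_all _ fun ξ => ?_))
  · refine Integrable.of_bound (Continuous.aestronglyMeasurable (by fun_prop)) (|U| * exp B)
      (ae_of_all _ fun ξ => ?_)
    rw [norm_eq_abs, abs_mul, abs_of_pos (exp_pos _)]
    exact mul_le_mul_of_nonneg_left (exp_le_exp.2 (abs_le.1 (hB _)).2) (abs_nonneg _)
  · dsimp only
    rw [abs_mul, abs_of_pos (exp_pos _)]
    exact mul_le_mul_of_nonneg_right (hp.b1 _) (exp_pos _).le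

lemma lip_exp (s t : ℝ) : |exp (f s) - exp (f t)| ≤ U * exp B * |s - t| := by
  refine abs_sub_le_mul (fun x => (hp.d1 x).exp) (fun x => ?_) s t
  rw [abs_mul, abs_of_pos (exp_pos _), mul_comm U]
  exact mul_le_mul (exp_le_exp.2 (abs_le.1 (hB _)).2) (hp.b1 x) (abs_nonneg _) (exp_pos _).le

lemma lip_f1exp (s t : ℝ) : |f1 s * exp (f s) - f1 t * exp (f t)| ≤ V * exp B * |s - t| := by
  refine abs_sub_le_mul (G' := fun x => (f2 x + f1 x ^ 2) * exp (f x))
    (fun x => ((hp.d2 x).mul (hp.d1 x).exp).congr_deriv (by ring)) (fun x => ?_) s t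
  rw [abs_mul, abs_of_pos (exp_pos _)]
  exact mul_le_mul (hp.b2 x) (exp_le_exp.2 (abs_le.1 (hB _)).2) (exp_pos _).le
    ((abs_nonneg _).trans (hp.b2 x))

lemma abs_f1exp_le (s : ℝ) : |f1 s * exp (f s)| ≤ U * exp B := by
  rw [abs_mul, abs_of_pos (exp_pos _)]
  exact mul_le_mul (hp.b1 s) (exp_le_exp.2 (abs_le.1 (hB _)).2) (exp_pos _).le
    ((abs_nonneg _).trans (hp.b1 s))

/-- The replica symmetric bound for one row. -/
theorem row_bound (hs : Small f f1 f2 U V δ κ) {c : ι → ℝ} (hc : ∑ i, c i ^ 2 = 1) {q : ℝ}
    (hq : q ∈ Icc (0 : ℝ) 1) (u : (ι → Bool) → ℝ) :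
    T f c base u ≤ base u + rsA f q + rsTau f f1 q / 2 * (q - ovl c u) := by
  set C := 8 * U * exp B * (V * exp B + U * (U * exp B)) + U ^ 2 * exp (2 * B) with hCdef
  suffices key : ∀ n : ℕ, T f c base u
      ≤ base u + rsA f q + rsTau f f1 q / 2 * (q - ovl c u) + C / 2 / √((n + 1 : ℕ) : ℝ) by
    refine ge_of_tendsto' (x := (atTop : Filter ℕ)) ?_ key
    have : Tendsto (fun n : ℕ => C / 2 / √((n + 1 : ℕ) : ℝ)) atTop (𝓝 0) :=
      tendsto_const_nhds.div_atTop (Real.tendsto_sqrt_atTop.comp
        ((tendsto_natCast_atTop_atTop (R := ℝ)).comp (tendsto_add_atTop_nat 1)))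
    simpa using this.const_add (base u + rsA f q + rsTau f f1 q / 2 * (q - ovl c u))
  intro n
  set K := n + 1
  have hK : (1 : ℝ) ≤ K := by exact_mod_cast Nat.le_add_left 1 n
  have hU : 0 ≤ U := (abs_nonneg _).trans (hp.b1 0)
  set u' : (ι → Bool) × Fin K → ℝ := fun x => u x.1
  have hpath := copy_path (K := K) hc hq
  have htan := phi_tangent hp hpath u' hs
  set E := copyE (ι := ι) K
  have hcf := hp.cf
  have hc1 := hp.c1
  -- the true end
  have h1 : phi f u' E (copyP K q) (copyR K c) 1 = log K + T f c base u := by
    have := integral_lin_eq (pathE E (copyP K q) (copyR K c) 1)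
      (fun x i => c i * spinE x.1 i) (fun x y => by
        simp only [pathE, coef, Fintype.sum_sum_type, E, copyE, copyP, copyR, Sum.elim_inl,
          Sum.elim_inr, Pi.zero_apply, sub_self, zero_mul, one_mul, add_zero, mul_zero,
          Real.sqrt_zero, Finset.sum_const_zero, zero_add, spinE]
        refine Finset.sum_congr rfl fun i _ => ?_
        linear_combination (spin (x.1 i) * spin (y.1 i)) * Real.mul_self_sqrt (sq_nonneg (c i)))
      (continuous_H0 (u := u') hp)
    rw [phi]
    refine this.trans ?_
    have e : ∀ g : ι → ℝ, H0 f u' (lin (fun x i => c i * spinE x.1 i) g)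
        = log K + base (fun σ => u σ + f (S c g σ)) := fun g => by
      have e1 : ∀ x : (ι → Bool) × Fin K, lin (fun x i => c i * spinE x.1 i) g x = S c g x.1 :=
        fun x => Finset.sum_congr rfl fun i _ => by simp only [spinE]; ring
      simp only [H0, part, e1, u', Fintype.sum_prod_type, Finset.sum_const, Finset.card_univ,
        Fintype.card_fin, nsmul_eq_mul, ← Finset.mul_sum, base]
      rw [Real.log_mul (by linarith) (sum_exp_pos _).ne']
    simp only [e]
    rw [show gauss ι = gM ι from rfl, integral_add (integrable_const _) (T_integrable hcf hB lip_base c u), integral_const,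
      probReal_univ, one_smul]
    rfl
  -- the replica symmetric end
  set e0 : (ι → Bool) × Fin K → Unit ⊕ ((ι → Bool) × Fin K) → ℝ :=
    fun x => Sum.elim (fun _ => √q) fun y => if x = y then √(1 - q) else 0
  have hgram : ∀ x y, ∑ i, pathE E (copyP K q) (copyR K c) 0 x i * pathE E (copyP K q) (copyR K c) 0 y i
      = ∑ i, e0 x i * e0 y i := by
    intro x y
    simp only [pathE, coef, Fintype.sum_sum_type, E, copyE, copyP, copyR, e0, Sum.elim_inl,
      Sum.elim_inr, Pi.zero_apply, sub_zero, zero_mul, one_mul, add_zero, mul_zero,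
      Real.sqrt_zero, Finset.sum_const_zero, zero_add]
    congr 1
    · simp
    · refine Finset.sum_congr rfl fun z _ => ?_
      split_ifs <;> simp
  have hlin : ∀ (z : Unit → ℝ) (ξ : (ι → Bool) × Fin K → ℝ),
      lin e0 (Sum.elim z ξ) = fun x => √q * z () + √(1 - q) * ξ x := fun z ξ => by
    funext x
    simp [lin, e0, Fintype.sum_sum_type]
  have hint : ∀ H : ((ι → Bool) × Fin K → ℝ) → ℝ, Continuous H →
      Integrable (fun g => H (lin e0 g)) (gauss _) →
      ∫ g, H (Sp E (copyP K q) (copyR K c) 0 g) ∂gauss _
        = ∫ t, ∫ ξ, H (fun x => √q * t + √(1 - q) * ξ x) ∂gauss _ ∂gaussianReal 0 1 ∨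
      ¬ Continuous fun t => ∫ ξ, H (fun x => √q * t + √(1 - q) * ξ x) ∂gauss ((ι → Bool) × Fin K) := by
    intro H hH hi
    by_cases hc : Continuous fun t => ∫ ξ, H (fun x => √q * t + √(1 - q) * ξ x) ∂gauss ((ι → Bool) × Fin K)
    · left
      refine (integral_lin_eq _ e0 hgram hH).trans ((integral_split hi).trans ?_)
      simp only [hlin]
      exact integral_unit _ hc
    · exact Or.inr hc
  have h0 : phi f u' E (copyP K q) (copyR K c) 0 ≤ log K + base u + rsA f q := by
    obtain ⟨CL, hCL⟩ := Bd.bound2 fun x => bd_qw (u := u') hp x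
    have hlip := (grad_H0 (u := u') hp).lip hCL
    have hbd : ∀ v, |H0 f u' v| ≤ |H0 (fun _ => (0 : ℝ)) u' v| + B := fun v => by
      have hpart : ∀ (g : ℝ → ℝ), 0 < part g u' v := fun g =>
        Finset.sum_pos (fun _ _ => exp_pos _) Finset.univ_nonempty
      have : |H0 f u' v - H0 (fun _ => (0 : ℝ)) u' v| ≤ B := by
        simp only [H0]
        rw [← Real.log_div (hpart _).ne' (hpart _).ne', abs_le]
        constructor
        · rw [Real.le_log_iff_exp_le (div_pos (hpart _) (hpart _)), le_div_iff₀ (hpart _), part, part,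
            Finset.mul_sum]
          refine Finset.sum_le_sum fun x _ => ?_
          rw [← exp_add]; exact exp_le_exp.2 (by linarith [(abs_le.1 (hB (v x))).1])
        · rw [Real.log_le_iff_le_exp (div_pos (hpart _) (hpart _)), div_le_iff₀ (hpart _), part, part,
            Finset.mul_sum]
          refine Finset.sum_le_sum fun x _ => ?_
          rw [← exp_add]; exact exp_le_exp.2 (by linarith [(abs_le.1 (hB (v x))).2])
      have := abs_sub_abs_le_abs_sub (H0 f u' v) (H0 (fun _ => (0 : ℝ)) u' v)
      linarith
    have hconst : ∀ v, H0 (fun _ => (0 : ℝ)) u' v = log K + base u := fun v => by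
      simp only [H0, part, u', add_zero, Fintype.sum_prod_type, Finset.sum_const, Finset.card_univ,
        Fintype.card_fin, nsmul_eq_mul, ← Finset.mul_sum, base]
      rw [Real.log_mul (by linarith) (sum_exp_pos _).ne']
    have hbd' : ∀ v, |H0 f u' v| ≤ |log K + base u| + B := fun v => by rw [← hconst v]; exact hbd v
    have hcont : Continuous fun t : ℝ => ∫ ξ, H0 f u' (fun x => √q * t + √(1 - q) * ξ x) ∂gauss _ :=
      continuous_of_dominated
        (fun t => ((continuous_H0 hp).comp (by fun_prop)).aestronglyMeasurable)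
        (fun t => ae_of_all _ fun ξ => hbd' _) (integrable_const (|log K + base u| + B))
        (ae_of_all _ fun ξ => (continuous_H0 hp).comp (by fun_prop))
    rw [phi, (hint _ (continuous_H0 hp) (integrable_H (continuous_H0 hp) hlip e0)).resolve_right
      (not_not.2 hcont)]
    have hb := cav_exp_bounds hp hB q
    have hcc : Continuous fun t => log (cav (fun s => exp (f s)) q t) :=
      (continuous_cav (by fun_prop) (B := exp B) (fun s => by
        rw [abs_of_pos (exp_pos _)]; exact exp_le_exp.2 (abs_le.1 (hB _)).2) q).log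
        fun t => ((exp_pos _).trans_le (hb t).1).ne'
    have hli : Integrable (fun t => log (cav (fun s => exp (f s)) q t)) (gaussianReal 0 1) := by
      refine Integrable.of_bound hcc.aestronglyMeasurable B (ae_of_all _ fun t => ?_)
      rw [norm_eq_abs, abs_le]
      exact ⟨(Real.le_log_iff_exp_le ((exp_pos _).trans_le (hb t).1)).2 (hb t).1,
        (Real.log_le_iff_le_exp ((exp_pos _).trans_le (hb t).1)).2 (hb t).2⟩
    calc ∫ t, ∫ ξ, H0 f u' (fun x => √q * t + √(1 - q) * ξ x) ∂gauss _ ∂gaussianReal 0 1
        ≤ ∫ t, (log K + base u + log (cav (fun s => exp (f s)) q t)) ∂gaussianReal 0 1 := by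
          refine integral_mono (Integrable.of_bound hcont.aestronglyMeasurable (|log K + base u| + B)
            (ae_of_all _ fun t => ?_)) ((integrable_const _).add hli) fun t => ?_
          · refine (norm_integral_le_of_norm_le_const (ae_of_all _ fun ξ => hbd' _)).trans_eq ?_
            simp
          · dsimp only
            have hcv : 0 < cav (fun s => exp (f s)) q t := (exp_pos _).trans_le (hb t).1
            have hS := sum_exp_pos u
            set mu := (K : ℝ) * (∑ σ, exp (u σ)) * cav (fun s => exp (f s)) q t
            have hmu : 0 < mu := mul_pos (mul_pos (by linarith) hS) hcv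
            have hpi : ∀ x : (ι → Bool) × Fin K,
                Integrable (fun ξ => exp (u' x + f (√q * t + √(1 - q) * ξ x))) (gauss _) := fun x =>
              Vale.Agent.P150.integrable_gauss_bound (by fun_prop) (B := exp (u' x + B)) fun ξ => by
                rw [abs_of_pos (exp_pos _)]
                exact exp_le_exp.2 (by linarith [(abs_le.1 (hB (√q * t + √(1 - q) * ξ x))).2])
            have hmean : ∫ ξ, part f u' (fun x => √q * t + √(1 - q) * ξ x) ∂gauss _ = mu := by
              simp only [part]
              rw [integral_finsetSum _ fun x _ => hpi x]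
              have : ∀ x : (ι → Bool) × Fin K, ∫ ξ, exp (u' x + f (√q * t + √(1 - q) * ξ x)) ∂gauss _
                  = exp (u x.1) * cav (fun s => exp (f s)) q t := by
                intro x
                simp only [exp_add, u']
                rw [integral_const_mul]
                congr 1
                have h := measurePreserving_eval (fun _ : (ι → Bool) × Fin K => gaussianReal 0 1) x
                rw [cav, ← h.map_eq, integral_map h.measurable.aemeasurable
                  (Continuous.aestronglyMeasurable (by fun_prop))]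
                rfl
              simp only [this, Fintype.sum_prod_type, Finset.sum_const, Finset.card_univ,
                Fintype.card_fin, nsmul_eq_mul, mu, Finset.mul_sum, Finset.sum_mul]
              exact Finset.sum_congr rfl fun σ _ => by ring
            have hlog : log mu = log K + base u + log (cav (fun s => exp (f s)) q t) := by
              simp only [mu, base]
              rw [Real.log_mul (mul_ne_zero (by linarith) hS.ne') hcv.ne',
                Real.log_mul (by linarith) hS.ne']
            have hip : Integrable (fun ξ => part f u' (fun x => √q * t + √(1 - q) * ξ x)) (gauss _) := by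
              simp only [part]; exact integrable_finsetSum _ fun x _ => hpi x
            calc ∫ ξ, H0 f u' (fun x => √q * t + √(1 - q) * ξ x) ∂gauss _
                ≤ ∫ ξ, (log mu + (part f u' (fun x => √q * t + √(1 - q) * ξ x) / mu - 1)) ∂gauss _ := by
                  refine integral_mono (Vale.Agent.P150.integrable_gauss_bound
                    ((continuous_H0 hp).comp (by fun_prop)) fun ξ => hbd' _)
                    ((integrable_const _).add ((hip.div_const mu).sub (integrable_const _))) fun ξ => ?_
                  have hpp := part_pos (f := f) (u := u') (fun x => √q * t + √(1 - q) * ξ x)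
                  have := Real.log_le_sub_one_of_pos (div_pos hpp hmu)
                  rw [Real.log_div hpp.ne' hmu.ne'] at this
                  simp only [H0]; linarith
              _ = _ := by
                  have i1 : Integrable (fun ξ => part f u' (fun x => √q * t + √(1 - q) * ξ x) / mu - 1)
                      (gauss _) := (hip.div_const mu).sub (integrable_const _)
                  rw [integral_add (integrable_const _) i1, integral_sub (hip.div_const mu)
                    (integrable_const _), integral_div, hmean, hlog]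
                  simp [hmu.ne']
      _ = _ := by
          rw [integral_add (integrable_const _) hli, integral_const, probReal_univ, one_smul]
          rfl
  -- the derivative at the replica symmetric end
  have hps : rsTau f f1 q * (ovl c u - q) - C / √K ≤ psi f f1 u' E (copyP K q) (copyR K c) 0 := by
    obtain ⟨CQ, hCQ⟩ := bd_QD (u := u') (D := Dmat E (copyP K q) (copyR K c)) hp
    have hQc := continuous_QD (u := u') (D := Dmat E (copyP K q) (copyR K c)) hp
    have hcont : Continuous fun t : ℝ => ∫ ξ, QD f f1 u' (Dmat E (copyP K q) (copyR K c))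
        (fun x => √q * t + √(1 - q) * ξ x) ∂gauss ((ι → Bool) × Fin K) :=
      continuous_of_dominated (fun t => (hQc.comp (by fun_prop)).aestronglyMeasurable)
        (fun t => ae_of_all _ fun ξ => hCQ _) (integrable_const CQ)
        (ae_of_all _ fun ξ => hQc.comp (by fun_prop))
    rw [psi, (hint _ hQc (Vale.Agent.P150.integrable_gauss_bound (hQc.comp (continuous_lin _))
      fun g => hCQ _)).resolve_right (not_not.2 hcont)]
    set ρ : ℝ → ℝ := fun t => cav (fun s => f1 s * exp (f s)) q t / cav (fun s => exp (f s)) q t
    have hρc : Continuous ρ := (continuous_cav (by fun_prop) (abs_f1exp_le hp hB) q).div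
      (continuous_cav (by fun_prop) (B := exp B) (fun s => by
        rw [abs_of_pos (exp_pos _)]; exact exp_le_exp.2 (abs_le.1 (hB _)).2) q)
      fun t => ((exp_pos _).trans_le (cav_exp_bounds hp hB q t).1).ne'
    have hρi : Integrable (fun t => ρ t ^ 2) (gaussianReal 0 1) :=
      Integrable.of_bound (hρc.pow 2).aestronglyMeasurable (U ^ 2) (ae_of_all _ fun t => by
        rw [norm_eq_abs, abs_pow]
        exact pow_le_pow_left₀ (abs_nonneg _) (cav_ratio_le hp hB q t) 2)
    calc rsTau f f1 q * (ovl c u - q) - C / √K
        = ∫ t, (ρ t ^ 2 * (ovl c u - q) - C / √K) ∂gaussianReal 0 1 := by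
          rw [integral_sub (hρi.mul_const _) (integrable_const _), integral_mul_const]
          simp [rsTau, ρ]
      _ ≤ _ := by
          refine integral_mono ((hρi.mul_const _).sub (integrable_const _))
            (Integrable.of_bound hcont.aestronglyMeasurable CQ (ae_of_all _ fun t =>
              (norm_integral_le_of_norm_le_const (ae_of_all _ fun ξ => hCQ _)).trans_eq (by simp)))
            fun t => ?_
          dsimp only
          set A0 := cav (fun s => f1 s * exp (f s)) q t
          set B0 := cav (fun s => exp (f s)) q t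
          have hi : ∀ σ (G : ℝ → ℝ), Continuous G → ∀ M, (∀ s, |G s| ≤ M) → ∀ a, Integrable (fun ξ =>
              |(∑ k, G (√q * t + √(1 - q) * ξ (σ, k))) / K - a|) (gauss ((ι → Bool) × Fin K)) := by
            intro σ G hG M hM a
            refine Vale.Agent.P150.integrable_gauss_bound (by fun_prop) (B := M + |a|) fun ξ => ?_
            rw [abs_abs]
            refine (abs_sub _ _).trans (add_le_add ?_ le_rfl)
            rw [abs_div, abs_of_pos (by linarith : (0 : ℝ) < K), div_le_iff₀ (by linarith)]
            refine (Finset.abs_sum_le_sum_abs _ _).trans ((Finset.sum_le_card_nsmul _ _ M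
              fun k _ => hM _).trans_eq ?_)
            simp [mul_comm]
          have ia := fun σ => hi σ (fun s => f1 s * exp (f s)) (by fun_prop) _ (abs_f1exp_le hp hB) A0
          have ib := fun σ => hi σ (fun s => exp (f s)) (by fun_prop) (exp B) (fun s => by
            rw [abs_of_pos (exp_pos _)]; exact exp_le_exp.2 (abs_le.1 (hB _)).2) B0
          have hsum : Integrable (fun ξ : (ι → Bool) × Fin K → ℝ => ∑ σ, wt u σ *
              (|(∑ k, f1 (√q * t + √(1 - q) * ξ (σ, k)) * exp (f (√q * t + √(1 - q) * ξ (σ, k)))) / K - A0|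
                + U * |(∑ k, exp (f (√q * t + √(1 - q) * ξ (σ, k)))) / K - B0|)) (gauss _) :=
            integrable_finsetSum _ fun σ _ => ((ia σ).add ((ib σ).const_mul U)).const_mul _
          have hlow : Integrable (fun ξ : (ι → Bool) × Fin K → ℝ => (A0 / B0) ^ 2 * (ovl c u - q) -
              (8 * U * exp B * (∑ σ, wt u σ *
              (|(∑ k, f1 (√q * t + √(1 - q) * ξ (σ, k)) * exp (f (√q * t + √(1 - q) * ξ (σ, k)))) / K - A0|
                + U * |(∑ k, exp (f (√q * t + √(1 - q) * ξ (σ, k)))) / K - B0|))
              + U ^ 2 * exp (2 * B) / K)) (gauss _) :=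
            (integrable_const _).sub ((hsum.const_mul _).add (integrable_const _))
          refine le_trans ?_ (integral_mono hlow (Vale.Agent.P150.integrable_gauss_bound
            (hQc.comp (by fun_prop)) fun ξ => hCQ _) fun ξ => QD_copy hp hB hc hq u
              (fun x => √q * t + √(1 - q) * ξ x) ((exp_pos _).trans_le (cav_exp_bounds hp hB q t).1)
              (cav_ratio_le hp hB q t))
          have i4 : Integrable (fun ξ : (ι → Bool) × Fin K → ℝ => 8 * U * exp B * (∑ σ, wt u σ *
              (|(∑ k, f1 (√q * t + √(1 - q) * ξ (σ, k)) * exp (f (√q * t + √(1 - q) * ξ (σ, k)))) / K - A0|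
                + U * |(∑ k, exp (f (√q * t + √(1 - q) * ξ (σ, k)))) / K - B0|))
              + U ^ 2 * exp (2 * B) / K) (gauss _) := (hsum.const_mul _).add (integrable_const _)
          rw [integral_sub (integrable_const _) i4,
            integral_add (hsum.const_mul _) (integrable_const _), integral_const_mul]
          have hdev : ∫ ξ : (ι → Bool) × Fin K → ℝ, ∑ σ, wt u σ *
              (|(∑ k, f1 (√q * t + √(1 - q) * ξ (σ, k)) * exp (f (√q * t + √(1 - q) * ξ (σ, k)))) / K - A0|
                + U * |(∑ k, exp (f (√q * t + √(1 - q) * ξ (σ, k)))) / K - B0|) ∂gauss _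
              ≤ (V * exp B + U * (U * exp B)) / √K := by
            rw [integral_finsetSum _ fun σ _ => ((ia σ).fun_add ((ib σ).const_mul U)).const_mul _]
            calc _ ≤ ∑ σ, wt u σ * ((V * exp B + U * (U * exp B)) / √K) := by
                  refine Finset.sum_le_sum fun σ _ => ?_
                  rw [integral_const_mul, integral_add (ia σ) ((ib σ).const_mul U), integral_const_mul]
                  refine mul_le_mul_of_nonneg_left ?_ (wt_nonneg u σ)
                  have h1 := dev_avg (K := K) (by fun_prop) (abs_f1exp_le hp hB) (lip_f1exp hp hB) hq t σ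
                  have h2 := dev_avg (K := K) (by fun_prop) (B := exp B) (fun s => by
                    rw [abs_of_pos (exp_pos _)]; exact exp_le_exp.2 (abs_le.1 (hB _)).2) (lip_exp hp hB) hq t σ
                  rw [add_div, mul_div_assoc U]
                  exact add_le_add h1 (mul_le_mul_of_nonneg_left h2 hU)
              _ = _ := by rw [← Finset.sum_mul, sum_wt, one_mul]
          simp only [integral_const, probReal_univ, one_smul]
          have h3 : U ^ 2 * exp (2 * B) / K ≤ U ^ 2 * exp (2 * B) / √K := by
            refine div_le_div_of_nonneg_left (by positivity) (Real.sqrt_pos.2 (by linarith)) ?_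
            rw [Real.sqrt_le_iff]; exact ⟨by linarith, by nlinarith⟩
          have h4 := mul_le_mul_of_nonneg_left hdev (by positivity : 0 ≤ 8 * U * exp B)
          rw [hCdef, add_div, mul_div_assoc]
          simp only [ρ, A0, B0, integral_const_mul] at h4 ⊢
          linarith
  have : C / 2 / √(K : ℝ) = C / √(K : ℝ) / 2 := by ring
  rw [h1] at htan
  linarith

end P157.Conc

end
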