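import Vale.Agent.P157.Conc.Ising

/-!
# P157: the tangent of one row at a replica symmetric covariance
-/

noncomputable section

open MeasureTheory ProbabilityTheory Real Filter Topology Set
open scoped BigOperators

namespace P157.Conc

open Vale.Agent.P150 (gauss)

/-- The cavity field average of `G`. -/
def cav (G : ℝ → ℝ) (q z : ℝ) : ℝ := ∫ ξ, G (√q * z + √(1 - q) * ξ) ∂gaussianReal 0 1

/-- The Gardner energy term. -/
def rsA (f : ℝ → ℝ) (q : ℝ) : ℝ :=
  ∫ z, log (cav (fun s => exp (f s)) q z) ∂gaussianReal 0 1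

/-- The Gardner conjugate overlap. -/
def rsTau (f f1 : ℝ → ℝ) (q : ℝ) : ℝ :=
  ∫ z, (cav (fun s => f1 s * exp (f s)) q z / cav (fun s => exp (f s)) q z) ^ 2 ∂gaussianReal 0 1

variable {ι : Type*} [Fintype ι] [DecidableEq ι]

/-- Gibbs weights of `u`. -/
def wt (u : (ι → Bool) → ℝ) (σ : ι → Bool) : ℝ := exp (u σ) / ∑ τ, exp (u τ)

/-- The mean overlap of two replicas. -/
def ovl (c : ι → ℝ) (u : (ι → Bool) → ℝ) : ℝ :=
  ∑ σ, ∑ τ, (∑ i, c i ^ 2 * (spin (σ i) * spin (τ i))) * (wt u σ * wt u τ)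

lemma wt_nonneg (u : (ι → Bool) → ℝ) (σ : ι → Bool) : 0 ≤ wt u σ :=
  div_nonneg (exp_pos _).le (sum_exp_pos u).le

lemma sum_wt (u : (ι → Bool) → ℝ) : ∑ σ, wt u σ = 1 := by
  simp only [wt, ← Finset.sum_div]; exact div_self (sum_exp_pos u).ne'

variable {f f1 f2 f3 : ℝ → ℝ} {U V W δ κ : ℝ}

lemma continuous_cav {G : ℝ → ℝ} (hG : Continuous G) {B : ℝ} (hB : ∀ s, |G s| ≤ B) (q : ℝ) :
    Continuous (cav G q) :=
  continuous_of_dominated (fun z => (hG.comp (by fun_prop)).aestronglyMeasurable)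
    (fun z => ae_of_all _ fun ξ => hB _) (integrable_const B)
    (ae_of_all _ fun ξ => hG.comp (by fun_prop))

lemma integral_unit (F : ℝ → ℝ) (hF : Continuous F) :
    ∫ z, F (z ()) ∂gauss Unit = ∫ t, F t ∂gaussianReal 0 1 := by
  have h := measurePreserving_eval (fun _ : Unit => gaussianReal 0 1) ()
  rw [← h.map_eq, integral_map h.measurable.aemeasurable hF.aestronglyMeasurable]
  rfl

lemma integral_split {α β : Type*} [Fintype α] [Fintype β] {F : (α ⊕ β → ℝ) → ℝ}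
    (hF : Integrable F (gauss (α ⊕ β))) :
    ∫ g, F g ∂gauss (α ⊕ β) = ∫ a, ∫ b, F (Sum.elim a b) ∂gauss β ∂gauss α := by
  have h := (measurePreserving_sumPiEquivProdPi fun _ : α ⊕ β => gaussianReal 0 1).symm
  have hi := h.integrable_comp_of_integrable hF
  rw [gauss, ← h.map_eq, integral_map_equiv]
  rw [Function.comp_def] at hi
  refine (integral_prod _ hi).trans ?_
  refine integral_congr_ae (ae_of_all _ fun a => integral_congr_ae (ae_of_all _ fun b => ?_))
  congr 1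

/-- Coefficients of the copies. -/
def copyE (K : ℕ) (x : (ι → Bool) × Fin K) : ι ⊕ (Unit ⊕ ((ι → Bool) × Fin K)) → ℝ :=
  Sum.elim (fun i => spin (x.1 i)) (Sum.elim (fun _ => 1) fun z => if x = z then 1 else 0)

/-- Squares at the replica symmetric end. -/
def copyP (K : ℕ) (q : ℝ) : ι ⊕ (Unit ⊕ ((ι → Bool) × Fin K)) → ℝ :=
  Sum.elim 0 (Sum.elim (fun _ => q) fun _ => 1 - q)

/-- Squares at the true end. -/
def copyR (K : ℕ) (c : ι → ℝ) : ι ⊕ (Unit ⊕ ((ι → Bool) × Fin K)) → ℝ :=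
  Sum.elim (fun i => c i ^ 2) 0

lemma copy_path {K : ℕ} {c : ι → ℝ} (hc : ∑ i, c i ^ 2 = 1) {q : ℝ} (hq : q ∈ Icc (0 : ℝ) 1) :
    Path (copyE (ι := ι) K) (copyP K q) (copyR K c) where
  hP i := by rcases i with i | i | i <;> simp [copyP, hq.1, hq.2]
  hR i := by rcases i with i | i | i <;> simp [copyR, sq_nonneg]
  nP x := by simp [copyE, copyP, Fintype.sum_sum_type]
  nR x := by simp [copyE, copyR, Fintype.sum_sum_type, spin_sq, hc]

lemma copy_D {K : ℕ} (c : ι → ℝ) (q : ℝ) (x y : (ι → Bool) × Fin K) :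
    Dmat (copyE K) (copyP K q) (copyR K c) x y
      = (∑ i, c i ^ 2 * (spin (x.1 i) * spin (y.1 i))) - q - (1 - q) * (if x = y then 1 else 0) := by
  simp [Dmat, copyE, copyP, copyR, Fintype.sum_sum_type, eq_comm (a := y) (b := x)]
  ring

lemma abs_ovl_entry {c : ι → ℝ} (hc : ∑ i, c i ^ 2 = 1) {q : ℝ} (hq : q ∈ Icc (0 : ℝ) 1)
    (σ τ : ι → Bool) : |(∑ i, c i ^ 2 * (spin (σ i) * spin (τ i))) - q| ≤ 2 := by
  have h : |∑ i, c i ^ 2 * (spin (σ i) * spin (τ i))| ≤ 1 := by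
    refine (Finset.abs_sum_le_sum_abs _ _).trans_eq ?_
    rw [← hc]
    refine Finset.sum_congr rfl fun i _ => ?_
    rw [abs_mul, abs_of_nonneg (sq_nonneg (c i))]
    cases σ i <;> cases τ i <;> simp [spin]
  have := abs_le.1 h
  rw [abs_le]
  constructor <;> linarith [hq.1, hq.2]

/-- Deterministic comparison of the replica average with its limit. -/
lemma QD_copy {K : ℕ} [NeZero K] (hp : Pot f f1 f2 f3 U V W) {B : ℝ} (hB : ∀ s, |f s| ≤ B)
    {c : ι → ℝ} (hc : ∑ i, c i ^ 2 = 1) {q : ℝ} (hq : q ∈ Icc (0 : ℝ) 1) (u : (ι → Bool) → ℝ)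
    (v : (ι → Bool) × Fin K → ℝ) {A0 B0 : ℝ} (hB0 : 0 < B0) (hρ : |A0 / B0| ≤ U) :
    (A0 / B0) ^ 2 * (ovl c u - q)
      - (8 * U * exp B * ∑ σ, wt u σ * (|(∑ k, f1 (v (σ, k)) * exp (f (v (σ, k)))) / K - A0|
          + U * |(∑ k, exp (f (v (σ, k)))) / K - B0|)
        + U ^ 2 * exp (2 * B) / K)
      ≤ QD f f1 (fun x => u x.1) (Dmat (copyE K) (copyP K q) (copyR K c)) v := by
  have hK : (0 : ℝ) < K := by exact_mod_cast Nat.pos_of_ne_zero (NeZero.ne K)
  set ρ := A0 / B0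
  set aF : (ι → Bool) → ℝ := fun σ => (∑ k, f1 (v (σ, k)) * exp (f (v (σ, k)))) / K
  set bF : (ι → Bool) → ℝ := fun σ => (∑ k, exp (f (v (σ, k)))) / K
  set Z := ∑ σ, wt u σ * bF σ
  set qq : (ι → Bool) × Fin K → ℝ := qw f f1 (fun x => u x.1) v
  have hU : 0 ≤ U := (abs_nonneg _).trans (hp.b1 0)
  have hs := sum_exp_pos u
  have hb : ∀ σ, exp (-B) ≤ bF σ := fun σ => by
    rw [le_div_iff₀ hK]
    refine le_trans (le_of_eq ?_) (Finset.card_nsmul_le_sum Finset.univ _ (exp (-B))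
      fun k _ => exp_le_exp.2 (abs_le.1 (hB _)).1)
    simp [mul_comm]
  have hZ : exp (-B) ≤ Z := by
    calc exp (-B) = ∑ σ, wt u σ * exp (-B) := by rw [← Finset.sum_mul, sum_wt, one_mul]
      _ ≤ Z := Finset.sum_le_sum fun σ _ => mul_le_mul_of_nonneg_left (hb σ) (wt_nonneg u σ)
  have hZ0 : 0 < Z := (exp_pos _).trans_le hZ
  have hpart : part f (fun x => u x.1) v = K * (∑ τ, exp (u τ)) * Z := by
    simp only [part, Z, bF, wt, Finset.mul_sum, Fintype.sum_prod_type, exp_add, Finset.sum_div]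
    refine Finset.sum_congr rfl fun σ _ => Finset.sum_congr rfl fun k _ => ?_
    field_simp
    rw [← Finset.mul_sum]
  have hsum : ∀ σ, ∑ k, qq (σ, k) = wt u σ * aF σ / Z := by
    intro σ
    simp only [qq, qw, pw, hpart, exp_add, aF, wt, Finset.sum_div, Finset.mul_sum]
    refine Finset.sum_congr rfl fun k _ => ?_
    field_simp
    rw [← Finset.mul_sum]
    ring
  have hAl : ∑ σ, |∑ k, qq (σ, k)| ≤ U := by
    calc ∑ σ, |∑ k, qq (σ, k)| ≤ ∑ σ, ∑ k, |qq (σ, k)| :=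
          Finset.sum_le_sum fun σ _ => Finset.abs_sum_le_sum_abs _ _
      _ = ∑ x, |qq x| := by rw [Fintype.sum_prod_type]
      _ ≤ ∑ x, pw f (fun x => u x.1) v x * U := Finset.sum_le_sum fun x _ => by
          simp only [qq, qw, abs_mul, abs_of_nonneg (pw_nonneg (f := f) (u := fun x => u x.1) v x)]
          exact mul_le_mul_of_nonneg_left (hp.b1 _) (pw_nonneg v x)
      _ = U := by rw [← Finset.sum_mul, sum_pw, one_mul]
  have hCl : ∑ σ, |ρ * wt u σ| ≤ U := by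
    simp only [abs_mul, abs_of_nonneg (wt_nonneg u _), ← Finset.mul_sum, sum_wt, mul_one]
    exact hρ
  have hE : ∑ σ, |∑ k, qq (σ, k) - ρ * wt u σ|
      ≤ exp B * ∑ σ, wt u σ * (|aF σ - A0| + U * |bF σ - B0|) + U * (exp B * ∑ σ, wt u σ * |bF σ - B0|) := by
    have e : ∀ σ, ∑ k, qq (σ, k) - ρ * wt u σ
        = wt u σ / Z * ((aF σ - A0) - ρ * (Z - B0)) := fun σ => by
      rw [hsum]; simp only [ρ]; field_simp; ring
    have hZB : |Z - B0| ≤ ∑ σ, wt u σ * |bF σ - B0| := by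
      have : Z - B0 = ∑ σ, wt u σ * (bF σ - B0) := by
        simp only [mul_sub, Finset.sum_sub_distrib, ← Finset.sum_mul, sum_wt, one_mul, Z]
      rw [this]
      refine (Finset.abs_sum_le_sum_abs _ _).trans_eq (Finset.sum_congr rfl fun σ _ => ?_)
      rw [abs_mul, abs_of_nonneg (wt_nonneg u σ)]
    have h1 : 1 / Z ≤ exp B := by
      rw [div_le_iff₀ hZ0]
      calc (1 : ℝ) = exp B * exp (-B) := by rw [← exp_add]; simp
        _ ≤ exp B * Z := mul_le_mul_of_nonneg_left hZ (exp_pos _).le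
    have h2 : ∀ σ, |∑ k, qq (σ, k) - ρ * wt u σ| ≤
        exp B * (wt u σ * (|aF σ - A0| + U * |bF σ - B0|))
          + wt u σ * (U * (exp B * ∑ τ, wt u τ * |bF τ - B0|)) := by
      intro σ
      rw [e, abs_mul, abs_of_nonneg (div_nonneg (wt_nonneg u σ) hZ0.le)]
      have h3 : |(aF σ - A0) - ρ * (Z - B0)| ≤ |aF σ - A0| + U * ∑ τ, wt u τ * |bF τ - B0| := by
        refine (abs_sub _ _).trans (add_le_add le_rfl ?_)
        rw [abs_mul]
        exact mul_le_mul hρ hZB (abs_nonneg _) hU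
      refine (mul_le_mul_of_nonneg_left h3 (div_nonneg (wt_nonneg u σ) hZ0.le)).trans ?_
      have h4 : wt u σ / Z ≤ wt u σ * exp B := by
        rw [div_eq_mul_one_div]; exact mul_le_mul_of_nonneg_left h1 (wt_nonneg u σ)
      refine (mul_le_mul_of_nonneg_right h4 (add_nonneg (abs_nonneg _)
        (mul_nonneg hU (Finset.sum_nonneg fun τ _ => mul_nonneg (wt_nonneg u τ) (abs_nonneg _))))).trans ?_
      have h5 := mul_nonneg (mul_nonneg (exp_pos B).le (wt_nonneg u σ))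
        (mul_nonneg hU (abs_nonneg (bF σ - B0)))
      linarith
    refine (Finset.sum_le_sum fun σ _ => h2 σ).trans_eq ?_
    rw [Finset.sum_add_distrib, ← Finset.mul_sum, ← Finset.sum_mul, sum_wt, one_mul]
  have hE2 : ∑ σ, |∑ k, qq (σ, k) - ρ * wt u σ|
      ≤ 2 * (exp B * ∑ σ, wt u σ * (|aF σ - A0| + U * |bF σ - B0|)) := by
    refine hE.trans ?_
    have : U * (exp B * ∑ σ, wt u σ * |bF σ - B0|)
        ≤ exp B * ∑ σ, wt u σ * (|aF σ - A0| + U * |bF σ - B0|) := by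
      rw [mul_left_comm]
      refine mul_le_mul_of_nonneg_left ?_ (exp_pos _).le
      rw [Finset.mul_sum]
      refine Finset.sum_le_sum fun σ _ => ?_
      nlinarith [mul_nonneg (wt_nonneg u σ) (abs_nonneg (aF σ - A0))]
    linarith
  set Ro : (ι → Bool) → (ι → Bool) → ℝ :=
    fun σ τ => (∑ i, c i ^ 2 * (spin (σ i) * spin (τ i))) - q
  set Aσ : (ι → Bool) → ℝ := fun σ => ∑ k, qq (σ, k)
  set Cσ : (ι → Bool) → ℝ := fun σ => ρ * wt u σ
  have hQ : QD f f1 (fun x => u x.1) (Dmat (copyE K) (copyP K q) (copyR K c)) v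
      = (∑ σ, ∑ τ, Ro σ τ * (Aσ σ * Aσ τ)) - (1 - q) * ∑ x, qq x ^ 2 := by
    simp only [QD, rD, copy_D, sub_mul (_ - q), mul_sub, Finset.mul_sum, Finset.sum_sub_distrib]
    congr 1
    · simp only [Aσ, Fintype.sum_prod_type]
      simp only [Finset.sum_mul_sum]
      simp only [Finset.mul_sum]
      refine Finset.sum_congr rfl fun σ _ => ?_
      rw [Finset.sum_comm]
      refine Finset.sum_congr rfl fun τ _ => Finset.sum_congr rfl fun k _ =>
        Finset.sum_congr rfl fun l _ => ?_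
      simp only [qq, Ro]
      ring
    · refine Finset.sum_congr rfl fun x _ => ?_
      simp [qq]
      ring
  have hC : ρ ^ 2 * (ovl c u - q) = ∑ σ, ∑ τ, Ro σ τ * (Cσ σ * Cσ τ) := by
    have h1 : ∑ σ, ∑ τ, wt u σ * wt u τ = 1 := by
      simp only [← Finset.mul_sum, sum_wt, mul_one]
    have h2 : ovl c u - q = ∑ σ, ∑ τ, Ro σ τ * (wt u σ * wt u τ) := by
      simp only [Ro, sub_mul, Finset.sum_sub_distrib, ← Finset.mul_sum, ovl]
      simp only [sum_wt, mul_one]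
    rw [h2, Finset.mul_sum]
    refine Finset.sum_congr rfl fun σ _ => ?_
    rw [Finset.mul_sum]
    exact Finset.sum_congr rfl fun τ _ => by simp only [Cσ]; ring
  have hsq : ∑ x, qq x ^ 2 ≤ U ^ 2 * exp (2 * B) / K := by
    have hpm : ∀ x, pw f (fun x => u x.1) v x ≤ exp (2 * B) / K := by
      intro x
      refine (pw_bounds (δ := 2 * B) (fun s t => ?_) (fun x => u x.1) v x).2.trans ?_
      · have := abs_le.1 (hB s); have := abs_le.1 (hB t)
        rw [abs_le]; constructor <;> linarith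
      · rw [Fintype.sum_prod_type]
        simp only [Finset.sum_const, Finset.card_univ, Fintype.card_fin, nsmul_eq_mul, ← Finset.mul_sum]
        rw [mul_div_assoc', div_le_div_iff₀ (mul_pos hK hs) hK]
        have := Finset.single_le_sum (f := fun τ => exp (u τ)) (fun τ _ => (exp_pos _).le) (Finset.mem_univ x.1)
        nlinarith [mul_le_mul_of_nonneg_left this (mul_nonneg (exp_pos (2 * B)).le hK.le)]
    calc ∑ x, qq x ^ 2 ≤ ∑ x, exp (2 * B) / K * (pw f (fun x => u x.1) v x * U ^ 2) :=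
          Finset.sum_le_sum fun x _ => by
            simp only [qq, qw, mul_pow]
            have hp0 := pw_nonneg (f := f) (u := fun x => u x.1) v x
            calc _ ≤ pw f (fun x => u x.1) v x ^ 2 * U ^ 2 := by
                  refine mul_le_mul_of_nonneg_left ?_ (sq_nonneg _)
                  rw [← sq_abs]; exact pow_le_pow_left₀ (abs_nonneg _) (hp.b1 _) 2
              _ ≤ _ := by
                  rw [sq, mul_assoc]
                  exact mul_le_mul_of_nonneg_right (hpm x) (mul_nonneg hp0 (sq_nonneg U))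
      _ = _ := by rw [← Finset.mul_sum, ← Finset.sum_mul, sum_pw]; ring
  have hdiff : (∑ σ, ∑ τ, Ro σ τ * (Cσ σ * Cσ τ)) - (∑ σ, ∑ τ, Ro σ τ * (Aσ σ * Aσ τ))
      ≤ 2 * (2 * U) * ∑ σ, |Aσ σ - Cσ σ| := by
    have h1 : ∀ σ τ, Ro σ τ * (Cσ σ * Cσ τ) - Ro σ τ * (Aσ σ * Aσ τ)
        ≤ 2 * (|Aσ σ - Cσ σ| * |Cσ τ| + |Aσ σ| * |Aσ τ - Cσ τ|) := by
      intro σ τ
      rw [← mul_sub]
      refine (le_abs_self _).trans ?_
      rw [abs_mul]
      refine mul_le_mul (abs_ovl_entry hc hq σ τ) ?_ (abs_nonneg _) (by norm_num)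
      rw [show Cσ σ * Cσ τ - Aσ σ * Aσ τ = -((Aσ σ - Cσ σ) * Cσ τ) + -(Aσ σ * (Aσ τ - Cσ τ)) by ring]
      refine (abs_add_le _ _).trans_eq ?_
      simp [abs_mul]
    simp only [← Finset.sum_sub_distrib]
    refine (Finset.sum_le_sum fun σ _ => Finset.sum_le_sum fun τ _ => h1 σ τ).trans ?_
    · simp only [← Finset.mul_sum, Finset.sum_add_distrib, ← Finset.sum_mul]
      have := mul_le_mul_of_nonneg_left hCl (Finset.sum_nonneg fun σ (_ : σ ∈ Finset.univ) => abs_nonneg (Aσ σ - Cσ σ))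
      have := mul_le_mul_of_nonneg_right hAl (Finset.sum_nonneg fun σ (_ : σ ∈ Finset.univ) => abs_nonneg (Aσ σ - Cσ σ))
      linarith
  rw [hQ, hC]
  have := mul_le_mul_of_nonneg_left hE2 (by positivity : (0 : ℝ) ≤ 2 * (2 * U))
  have hxx : 0 ≤ ∑ x, qq x ^ 2 := Finset.sum_nonneg fun x _ => sq_nonneg _
  have hq' : (1 - q) * ∑ x, qq x ^ 2 ≤ U ^ 2 * exp (2 * B) / K :=
    (mul_le_of_le_one_left hxx (by linarith [hq.1])).trans hsq
  nlinarith

end P157.Conc

end
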