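import Vale.Agent.P157.Conc.Amplitude

/-!
# P157: the pair function `r ↦ E U(G) U(G_r)` and its derivatives
-/

noncomputable section

open MeasureTheory ProbabilityTheory Real Filter Topology Set
open scoped BigOperators

namespace P157.Conc

open Vale.Agent.P150 (gauss)

/-- A weight with five bounded derivatives, the fifth continuous. -/
structure Wt (U0 U1 U2 U3 U4 U5 : ℝ → ℝ) (M : ℝ) : Prop where
  d0 : ∀ s, HasDerivAt U0 (U1 s) s
  d1 : ∀ s, HasDerivAt U1 (U2 s) s
  d2 : ∀ s, HasDerivAt U2 (U3 s) s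
  d3 : ∀ s, HasDerivAt U3 (U4 s) s
  d4 : ∀ s, HasDerivAt U4 (U5 s) s
  c5 : Continuous U5
  b : ∀ s, |U0 s| ≤ M ∧ |U1 s| ≤ M ∧ |U2 s| ≤ M ∧ |U3 s| ≤ M ∧ |U4 s| ≤ M ∧ |U5 s| ≤ M

/-- The path from independence to correlation `σ`. -/
def cpE (σ : ℝ) (b : Bool) : Fin 3 → ℝ := if b then ![σ, 0, 1] else ![1, 1, 0]

/-- Squares of the coordinates at independence. -/
def cpP : Fin 3 → ℝ := ![0, 1, 1]

/-- Squares of the coordinates at full correlation. -/
def cpR : Fin 3 → ℝ := ![1, 0, 0]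

variable {a a' a'' : ℝ → ℝ} {M : ℝ}

lemma cp_path {σ : ℝ} (hσ : σ ^ 2 = 1) : Path (cpE σ) cpP cpR where
  hP i := by fin_cases i <;> simp [cpP]
  hR i := by fin_cases i <;> simp [cpR]
  nP b := by cases b <;> simp [cpE, cpP, Fin.sum_univ_three]
  nR b := by cases b <;> simp [cpE, cpR, Fin.sum_univ_three, hσ]

lemma pairG_path (hc : Continuous a) {σ t : ℝ} (hσ : σ ^ 2 = 1) (ht : t ∈ Icc (0 : ℝ) 1) :
    pairG a (σ * t)
      = ∫ g, a (Sp (cpE σ) cpP cpR t g false) * a (Sp (cpE σ) cpP cpR t g true) ∂gauss (Fin 3) := by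
  have h := integral_pair (G := fun x y => a x * a y) ((hc.comp continuous_fst).mul
    (hc.comp continuous_snd)) (pathE (cpE σ) cpP cpR t) ((cp_path hσ).unit ht) false true
  have e : ∑ i, pathE (cpE σ) cpP cpR t false i * pathE (cpE σ) cpP cpR t true i = σ * t := by
    simp [pathE, cpE, coef, cpP, cpR, Fin.sum_univ_three]
    linear_combination σ * Real.mul_self_sqrt ht.1
  rw [e] at h
  exact h.2.symm

/-- The derivative of the pair function. -/
theorem hasDerivAt_pairG (d : ∀ s, HasDerivAt a (a' s) s) (d' : ∀ s, HasDerivAt a' (a'' s) s)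
    (c'' : Continuous a'') (hb : ∀ s, |a s| ≤ M) (hb' : ∀ s, |a' s| ≤ M) (hb'' : ∀ s, |a'' s| ≤ M)
    {σ t : ℝ} (hσ : σ ^ 2 = 1) (ht : t ∈ Ioo (0 : ℝ) 1) :
    HasDerivAt (fun x => pairG a (σ * x)) (σ * pairG a' (σ * t)) t := by
  have hc : Continuous a := continuous_iff_continuousAt.2 fun s => (d s).continuousAt
  have hc' : Continuous a' := continuous_iff_continuousAt.2 fun s => (d' s).continuousAt
  have hM : 0 ≤ M := (abs_nonneg _).trans (hb 0)
  set H : (Bool → ℝ) → ℝ := fun v => a (v false) * a (v true)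
  set H1 : (Bool → ℝ) → Bool → ℝ :=
    fun v x => if x then a (v false) * a' (v true) else a' (v false) * a (v true)
  set H2 : (Bool → ℝ) → Bool → Bool → ℝ := fun v x y =>
    if x then (if y then a (v false) * a'' (v true) else a' (v false) * a' (v true))
    else (if y then a' (v false) * a' (v true) else a'' (v false) * a (v true))
  have g1 : Grad H H1 := by
    intro v w s hv
    refine (((d (v s false)).comp s (hv false)).mul ((d (v s true)).comp s (hv true))).congr_deriv ?_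
    simp [H1]
    ring
  have g2 : ∀ x, Grad (fun v => H1 v x) (fun v => H2 v x) := by
    intro x v w s hv
    cases x
    · refine (((d' (v s false)).comp s (hv false)).mul ((d (v s true)).comp s (hv true))).congr_deriv ?_
      simp [H2]
      ring
    · refine (((d (v s false)).comp s (hv false)).mul ((d' (v s true)).comp s (hv true))).congr_deriv ?_
      simp [H2]
      ring
  have hmul : ∀ (p q : ℝ → ℝ), (∀ s, |p s| ≤ M) → (∀ s, |q s| ≤ M) → ∀ x y, |p x * q y| ≤ M * M :=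
    fun p q hp hq x y => by rw [abs_mul]; exact mul_le_mul (hp x) (hq y) (abs_nonneg _) hM
  have h := hasDerivAt_path (e := cpE σ) (cp_path hσ).hP (cp_path hσ).hR g1 g2
    (by simp only [H]; fun_prop)
    (fun x => by cases x <;> simp [H1] <;> fun_prop)
    (fun x y => by cases x <;> cases y <;> simp [H2] <;> fun_prop) (C := M * M)
    (fun v x => by cases x <;> simp [H1] <;> rw [← abs_mul] <;> apply hmul <;> assumption)
    (fun v x y => by cases x <;> cases y <;> simp [H2] <;> rw [← abs_mul] <;> apply hmul <;> assumption) ht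
  refine (h.congr_of_eventuallyEq ?_).congr_deriv ?_
  · filter_upwards [Ioo_mem_nhds ht.1 ht.2] with x hx
    exact pairG_path hc hσ ⟨hx.1.le, hx.2.le⟩
  · have hD : ∀ x y, Dmat (cpE σ) cpP cpR x y = if x = y then 0 else σ := fun x y => by
      cases x <;> cases y <;> simp [Dmat, cpE, cpP, cpR, Fin.sum_univ_three]
      linear_combination hσ
    simp only [hD, Fintype.sum_bool, H2]
    simp only [if_true, Bool.false_eq_true, if_false, zero_mul, zero_add, add_zero,
      reduceCtorEq]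
    have hi := integral_const_mul (μ := gauss (Fin 3)) σ
      (fun g => a' (Sp (cpE σ) cpP cpR t g false) * a' (Sp (cpE σ) cpP cpR t g true))
    have e2 : ∀ g, σ * (a' (Sp (cpE σ) cpP cpR t g false) * a' (Sp (cpE σ) cpP cpR t g true))
        + σ * (a' (Sp (cpE σ) cpP cpR t g false) * a' (Sp (cpE σ) cpP cpR t g true))
        = 2 * (σ * (a' (Sp (cpE σ) cpP cpR t g false) * a' (Sp (cpE σ) cpP cpR t g true))) := fun g => by ring
    simp only [e2]
    rw [integral_const_mul, hi, pairG_path hc' hσ ⟨ht.1.le, ht.2.le⟩]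
    ring

/-- Comparison from a derivative bound on `[0,1]`. -/
lemma le_of_deriv_bound {φ φ' : ℝ → ℝ} (hc : ContinuousOn φ (Icc 0 1))
    (hd : ∀ t ∈ Ioo (0 : ℝ) 1, HasDerivAt φ (φ' t) t) (hn : ∀ t ∈ Ioo (0 : ℝ) 1, φ' t ≤ 0)
    {t : ℝ} (ht : t ∈ Icc (0 : ℝ) 1) : φ t ≤ φ 0 := by
  refine antitoneOn_of_deriv_nonpos (convex_Icc 0 1) hc (fun x hx => ?_) (fun x hx => ?_)
    (left_mem_Icc.2 zero_le_one) ht ht.1 <;> rw [interior_Icc] at hx
  · exact (hd x hx).differentiableAt.differentiableWithinAt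
  · rw [(hd x hx).deriv]; exact hn x hx

lemma pairG_zero (hc : Continuous a) : pairG a 0 = (∫ s, a s ∂gaussianReal 0 1) ^ 2 := by
  simp only [pairG, zero_mul, zero_add, sq, mul_zero, sub_zero, Real.sqrt_one, one_mul]
  exact integral_prod_mul a a

lemma pairG_le_sq (hc : Continuous a) (hb : ∀ s, |a s| ≤ M) {r : ℝ} (hr : r ∈ Icc (-1 : ℝ) 1) :
    pairG a r ≤ ∫ s, a s ^ 2 ∂gaussianReal 0 1 := by
  have hs : √(1 - r ^ 2) ^ 2 = 1 - r ^ 2 := Real.sq_sqrt (by nlinarith [hr.1, hr.2])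
  set b : Bool → Fin 2 → ℝ := fun x => if x then ![r, √(1 - r ^ 2)] else ![1, 0]
  have hu : ∀ x, ∑ i, b x i ^ 2 = 1 := fun x => by cases x <;> simp [b, Fin.sum_univ_two, hs]
  have e : ∑ i, b false i * b true i = r := by simp [b, Fin.sum_univ_two]
  have h := (integral_pair (G := fun x y => a x * a y) ((hc.comp continuous_fst).mul
    (hc.comp continuous_snd)) b hu false true).2
  rw [e] at h
  have hsq : ∀ x, ∫ g, a (lin b g x) ^ 2 ∂gauss (Fin 2) = ∫ s, a s ^ 2 ∂gaussianReal 0 1 := fun x => by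
    rw [(integral_pair (G := fun s _ => a s ^ 2) ((hc.comp continuous_fst).pow 2) b hu x x).2,
      integral_fun_fst (f := fun s => a s ^ 2)]
    simp
  have hi : ∀ x, Integrable (fun g => a (lin b g x) ^ 2) (gauss (Fin 2)) := fun x =>
    Vale.Agent.P150.integrable_gauss_bound
      ((hc.comp ((continuous_apply x).comp (continuous_lin b))).pow 2) (B := M ^ 2) fun g => by
        rw [abs_pow]; exact pow_le_pow_left₀ (abs_nonneg _) (hb _) 2
  have hi2 : Integrable (fun g => a (lin b g false) * a (lin b g true)) (gauss (Fin 2)) :=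
    Vale.Agent.P150.integrable_gauss_bound
      ((hc.comp ((continuous_apply false).comp (continuous_lin b))).mul
        (hc.comp ((continuous_apply true).comp (continuous_lin b)))) (B := M * M) fun g => by
        rw [abs_mul]; exact mul_le_mul (hb _) (hb _) (abs_nonneg _) ((abs_nonneg _).trans (hb 0))
  have e2 : pairG a r = ∫ g, a (lin b g false) * a (lin b g true) ∂gauss (Fin 2) := h.symm
  rw [e2]
  refine (integral_mono hi2 (((hi false).add (hi true)).div_const 2) fun g => ?_).trans_eq ?_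
  · dsimp only [Pi.add_apply]
    nlinarith [sq_nonneg (a (lin b g false) - a (lin b g true))]
  · rw [integral_div, integral_add' (hi false) (hi true), hsq, hsq]
    ring

variable {U0 U1 U2 U3 U4 U5 : ℝ → ℝ}

lemma Wt.cont (w : Wt U0 U1 U2 U3 U4 U5 M) :
    Continuous U0 ∧ Continuous U1 ∧ Continuous U2 ∧ Continuous U3 ∧ Continuous U4 :=
  ⟨continuous_iff_continuousAt.2 fun s => (w.d0 s).continuousAt,
    continuous_iff_continuousAt.2 fun s => (w.d1 s).continuousAt,
    continuous_iff_continuousAt.2 fun s => (w.d2 s).continuousAt,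
    continuous_iff_continuousAt.2 fun s => (w.d3 s).continuousAt,
    continuous_iff_continuousAt.2 fun s => (w.d4 s).continuousAt⟩

lemma continuousOn_scaled (hc : Continuous a) (hb : ∀ s, |a s| ≤ M) (σ : ℝ) :
    ContinuousOn (fun x => pairG a (σ * x)) (Icc 0 1) :=
  ((continuous_pairG hc hb).comp (continuous_const.mul continuous_id)).continuousOn

/-- Fourth order upper bound. -/
theorem pairG_upper (w : Wt U0 U1 U2 U3 U4 U5 M) (h1 : ∫ s, U1 s ∂gaussianReal 0 1 = 0)
    (h3 : ∫ s, U3 s ∂gaussianReal 0 1 = 0) {r : ℝ} (hr : r ∈ Icc (-1 : ℝ) 1) :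
    pairG U0 r ≤ (∫ s, U0 s ∂gaussianReal 0 1) ^ 2
      + (∫ s, U2 s ∂gaussianReal 0 1) ^ 2 * (r ^ 2 / 2)
      + (∫ s, U4 s ^ 2 ∂gaussianReal 0 1) * (r ^ 4 / 24) := by
  obtain ⟨c0, c1, c2, c3, c4⟩ := w.cont
  set z := (∫ s, U2 s ∂gaussianReal 0 1) ^ 2
  set q := ∫ s, U4 s ^ 2 ∂gaussianReal 0 1
  obtain ⟨σ, t, hσ, ht, rfl⟩ : ∃ σ t : ℝ, σ ^ 2 = 1 ∧ t ∈ Icc (0 : ℝ) 1 ∧ r = σ * t := by
    rcases le_total 0 r with h | h
    · exact ⟨1, r, one_pow 2, ⟨h, hr.2⟩, (one_mul r).symm⟩
    · exact ⟨-1, -r, by norm_num, ⟨by linarith, by linarith [hr.1]⟩, by ring⟩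
  have hmem : ∀ x ∈ Ioo (0 : ℝ) 1, σ * x ∈ Icc (-1 : ℝ) 1 := fun x hx => by
    rcases sq_eq_one_iff.1 hσ with rfl | rfl <;> constructor <;> linarith [hx.1, hx.2]
  have s3 : ∀ x ∈ Icc (0 : ℝ) 1, σ * pairG U3 (σ * x) ≤ q * x := by
    intro x hx
    have := le_of_deriv_bound (φ := fun x => σ * pairG U3 (σ * x) - q * x)
      (φ' := fun x => σ * (σ * pairG U4 (σ * x)) - q)
      (((continuousOn_scaled c3 (fun s => (w.b s).2.2.2.1) σ).const_smul σ).sub (by fun_prop))
      (fun y hy => ((hasDerivAt_pairG w.d3 w.d4 w.c5 (fun s => (w.b s).2.2.2.1)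
        (fun s => (w.b s).2.2.2.2.1) (fun s => (w.b s).2.2.2.2.2) hσ hy).const_mul σ).sub
        ((hasDerivAt_id y).const_mul q |>.congr_deriv (mul_one q)))
      (fun y hy => by
        rw [← mul_assoc, ← sq, hσ, one_mul, sub_nonpos]
        exact pairG_le_sq c4 (fun s => (w.b s).2.2.2.2.1) (hmem y hy)) hx
    simp only [mul_zero, pairG_zero c3, h3] at this
    norm_num at this
    linarith
  have s2 : ∀ x ∈ Icc (0 : ℝ) 1, pairG U2 (σ * x) ≤ z + q * (x ^ 2 / 2) := by
    intro x hx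
    have := le_of_deriv_bound (φ := fun x => pairG U2 (σ * x) - q * (x ^ 2 / 2))
      (φ' := fun x => σ * pairG U3 (σ * x) - q * x)
      ((continuousOn_scaled c2 (fun s => (w.b s).2.2.1) σ).sub (by fun_prop))
      (fun y hy => (hasDerivAt_pairG w.d2 w.d3 c4 (fun s => (w.b s).2.2.1)
        (fun s => (w.b s).2.2.2.1) (fun s => (w.b s).2.2.2.2.1) hσ hy).sub
        ((((hasDerivAt_pow 2 y).div_const 2).const_mul q).congr_deriv (by push_cast; ring)))
      (fun y hy => sub_nonpos.2 (s3 y ⟨hy.1.le, hy.2.le⟩)) hx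
    simp only [mul_zero, pairG_zero c2] at this
    norm_num at this
    linarith
  have s1 : ∀ x ∈ Icc (0 : ℝ) 1, σ * pairG U1 (σ * x) ≤ z * x + q * (x ^ 3 / 6) := by
    intro x hx
    have := le_of_deriv_bound (φ := fun x => σ * pairG U1 (σ * x) - (z * x + q * (x ^ 3 / 6)))
      (φ' := fun x => σ * (σ * pairG U2 (σ * x)) - (z + q * (x ^ 2 / 2)))
      (((continuousOn_scaled c1 (fun s => (w.b s).2.1) σ).const_smul σ).sub (by fun_prop))
      (fun y hy => ((hasDerivAt_pairG w.d1 w.d2 c3 (fun s => (w.b s).2.1)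
        (fun s => (w.b s).2.2.1) (fun s => (w.b s).2.2.2.1) hσ hy).const_mul σ).sub
        (((hasDerivAt_id y).const_mul z |>.congr_deriv (mul_one z)).add
          ((((hasDerivAt_pow 3 y).div_const 6).const_mul q).congr_deriv (by push_cast; ring))))
      (fun y hy => by
        rw [← mul_assoc, ← sq, hσ, one_mul, sub_nonpos]
        exact s2 y ⟨hy.1.le, hy.2.le⟩) hx
    simp only [mul_zero, pairG_zero c1, h1] at this
    norm_num at this
    linarith
  have := le_of_deriv_bound (φ := fun x => pairG U0 (σ * x) - (z * (x ^ 2 / 2) + q * (x ^ 4 / 24)))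
    (φ' := fun x => σ * pairG U1 (σ * x) - (z * x + q * (x ^ 3 / 6)))
    ((continuousOn_scaled c0 (fun s => (w.b s).1) σ).sub (by fun_prop))
    (fun y hy => (hasDerivAt_pairG w.d0 w.d1 c2 (fun s => (w.b s).1)
      (fun s => (w.b s).2.1) (fun s => (w.b s).2.2.1) hσ hy).sub
      (((((hasDerivAt_pow 2 y).div_const 2).const_mul z).congr_deriv (by push_cast; ring)).add
        ((((hasDerivAt_pow 4 y).div_const 24).const_mul q).congr_deriv (by push_cast; ring))))
    (fun y hy => sub_nonpos.2 (s1 y ⟨hy.1.le, hy.2.le⟩)) ht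
  simp only [mul_zero, pairG_zero c0] at this
  norm_num at this
  rw [mul_pow, hσ, one_mul, show (σ * t) ^ 4 = t ^ 4 by rw [mul_pow, show σ ^ 4 = (σ ^ 2) ^ 2 by ring, hσ]; ring]
  linarith

/-- Second order lower bounds on `[0,1]`. -/
theorem pairG_lower (w : Wt U0 U1 U2 U3 U4 U5 M) (h1 : ∫ s, U1 s ∂gaussianReal 0 1 = 0)
    {r : ℝ} (hr : r ∈ Icc (0 : ℝ) 1) :
    (∫ s, U2 s ∂gaussianReal 0 1) ^ 2 * r ≤ pairG U1 r ∧
    (∫ s, U0 s ∂gaussianReal 0 1) ^ 2 + (∫ s, U2 s ∂gaussianReal 0 1) ^ 2 * (r ^ 2 / 2)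
      ≤ pairG U0 r := by
  obtain ⟨c0, c1, c2, c3, -⟩ := w.cont
  set z := (∫ s, U2 s ∂gaussianReal 0 1) ^ 2
  have s1 : ∀ x ∈ Icc (0 : ℝ) 1, z * x ≤ pairG U1 x := by
    intro x hx
    have := le_of_deriv_bound (φ := fun x => z * x - pairG U1 (1 * x))
      (φ' := fun x => z - 1 * pairG U2 (1 * x))
      ((by fun_prop : Continuous fun x : ℝ => z * x).continuousOn.sub
        (continuousOn_scaled c1 (fun s => (w.b s).2.1) 1))
      (fun y hy => ((hasDerivAt_id y).const_mul z |>.congr_deriv (mul_one z)).sub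
        (hasDerivAt_pairG w.d1 w.d2 c3 (fun s => (w.b s).2.1)
        (fun s => (w.b s).2.2.1) (fun s => (w.b s).2.2.2.1) (one_pow 2) hy))
      (fun y hy => by
        rw [one_mul, one_mul, sub_nonpos]
        exact pairG_ge_sq c2 (fun s => (w.b s).2.2.1) hy.1.le hy.2.le) hx
    simp only [mul_zero, pairG_zero c1, h1, one_mul] at this
    norm_num at this
    linarith
  refine ⟨s1 r hr, ?_⟩
  have := le_of_deriv_bound (φ := fun x => z * (x ^ 2 / 2) - pairG U0 (1 * x))
    (φ' := fun x => z * x - 1 * pairG U1 (1 * x))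
    ((by fun_prop : Continuous fun x : ℝ => z * (x ^ 2 / 2)).continuousOn.sub
      (continuousOn_scaled c0 (fun s => (w.b s).1) 1))
    (fun y hy => ((((hasDerivAt_pow 2 y).div_const 2).const_mul z).congr_deriv (by push_cast; ring)).sub
      (hasDerivAt_pairG w.d0 w.d1 c2 (fun s => (w.b s).1)
      (fun s => (w.b s).2.1) (fun s => (w.b s).2.2.1) (one_pow 2) hy))
    (fun y hy => by
      rw [one_mul, one_mul, sub_nonpos]
      exact s1 y ⟨hy.1.le, hy.2.le⟩) hr
  simp only [mul_zero, pairG_zero c0, one_mul] at this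
  norm_num at this
  linarith

end P157.Conc

end
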