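import Vale.Agent.P157.Conc.Moment
import Vale.Agent.P157.Conc.Taylor
import Vale.Agent.P150.Guerra

/-!
# P157: the annealed value below the threshold, and strict inequality beyond it
-/

noncomputable section

open MeasureTheory ProbabilityTheory Real Filter Topology Set
open scoped BigOperators

namespace P157.Conc

open Vale.Agent.P150 (gauss)

variable {f f1 f2 f3 U1 U2 U3 U4 U5 : ℝ → ℝ} {U V W δ κ M B : ℝ}

/-- The annealed mean of the weight. -/
def mean1 (f : ℝ → ℝ) : ℝ := ∫ s, exp (f s) ∂gaussianReal 0 1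

lemma mean1_pos (hf : Continuous f) (hB : ∀ s, |f s| ≤ B) : 0 < mean1 f := by
  refine lt_of_lt_of_le (exp_pos (-B)) (le_trans (le_of_eq ?_) (integral_mono (integrable_const (exp (-B)))
    (Integrable.of_bound (hf.rexp).aestronglyMeasurable (exp B) (ae_of_all _ fun s => ?_))
    fun s => exp_le_exp.2 (abs_le.1 (hB s)).1))
  · simp
  · rw [norm_eq_abs, abs_of_pos (exp_pos _)]; exact exp_le_exp.2 (abs_le.1 (hB s)).2

/-- The annealed value is attained up to `o(N)` strictly below the threshold. -/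
theorem aSeq_ge (hf : Continuous f) (hB : ∀ s, |f s| ≤ B)
    (w : Wt (fun s => exp (f s)) U1 U2 U3 U4 U5 M)
    (h1 : ∫ s, U1 s ∂gaussianReal 0 1 = 0) (h3 : ∫ s, U3 s ∂gaussianReal 0 1 = 0)
    (h4 : ∫ s, U4 s ^ 2 ∂gaussianReal 0 1 ≤ 2 * (∫ s, U2 s ∂gaussianReal 0 1) ^ 2)
    {α θ : ℝ} (hα : 0 ≤ α) (hθ : θ ≤ 1)
    (hαθ : α * ((∫ s, U2 s ∂gaussianReal 0 1) / mean1 f) ^ 2 ≤ θ) {N : ℕ} (hN : 0 < N) :
    N * log 2 + (⌊α * N⌋₊ : ℝ) * log (mean1 f) - log 2
        - √(5 * (4 * B ^ 2 * (⌊α * N⌋₊ : ℝ)) * ((N : ℝ) + 1) ^ θ) ≤ aSeq f α N := by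
  set M0 := ⌊α * N⌋₊
  set z2 := ∫ s, U2 s ∂gaussianReal 0 1
  set m1 := mean1 f
  have hNR : (0 : ℝ) < N := by exact_mod_cast hN
  have hm1 : 0 < m1 := mean1_pos hf hB
  set c : Fin N → ℝ := fun _ => (√(N : ℝ))⁻¹
  set μ := Measure.pi fun _ : Fin M0 => gM (Fin N)
  set a : (Fin N → Bool) → Fin N → ℝ := fun σ i => c i * spin (σ i)
  have hu : ∀ σ, ∑ i, a σ i ^ 2 = 1 := fun σ => by
    simp [a, c, mul_pow, spin_sq, Real.sq_sqrt hNR.le, hNR.ne']
  have hS : ∀ (g : Fin N → ℝ) σ, S c g σ = lin a g σ := fun g σ =>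
    Finset.sum_congr rfl fun i _ => by simp only [a]; ring
  have hUc : Continuous fun s => exp (f s) := hf.rexp
  have hone : ∀ σ, ∫ g, exp (f (S c g σ)) ∂gM (Fin N) = m1 := fun σ => by
    simp only [hS]
    refine ((integral_pair (G := fun x _ => exp (f x)) (hUc.comp continuous_fst) a hu σ σ).2).trans ?_
    rw [integral_fun_fst (f := fun x => exp (f x))]
    simp [m1, mean1]
  have htwo : ∀ σ τ, ∫ g, exp (f (S c g σ)) * exp (f (S c g τ)) ∂gM (Fin N)
      = pairG (fun s => exp (f s)) (rOv N σ τ) := fun σ τ => by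
    simp only [hS]
    exact (integral_pair (G := fun x y => exp (f x) * exp (f y)) ((hUc.comp continuous_fst).mul
      (hUc.comp continuous_snd)) a hu σ τ).2
  have hX : ∀ G, exp (rows f c M0 0 G) = ∑ σ, ∏ b, exp (f (S c (G b) σ)) := fun G => by
    simp only [rows, base, Pi.zero_apply, zero_add, exp_sum]
    rw [exp_log]
    exact Finset.sum_pos (fun σ _ => Finset.prod_pos fun b _ => exp_pos _) Finset.univ_nonempty
  have hp1 : ∀ σ, Integrable (fun G : Fin M0 → Fin N → ℝ => ∏ b, exp (f (S c (G b) σ))) μ := fun σ => by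
    refine Integrable.of_bound (continuous_finsetProd _ fun b _ => hUc.comp
      ((continuous_S c σ).comp (continuous_apply b))).aestronglyMeasurable (exp B ^ M0) (ae_of_all _ fun G => ?_)
    rw [norm_eq_abs, abs_of_nonneg (Finset.prod_nonneg fun b _ => (exp_pos _).le)]
    refine (Finset.prod_le_prod (fun b _ => (exp_pos _).le) fun b _ => exp_le_exp.2 (abs_le.1 (hB _)).2).trans_eq ?_
    simp
  have hp2 : ∀ σ τ, Integrable (fun G : Fin M0 → Fin N → ℝ =>
      ∏ b, exp (f (S c (G b) σ)) * exp (f (S c (G b) τ))) μ := fun σ τ => by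
    refine Integrable.of_bound (continuous_finsetProd _ fun b _ => (hUc.comp
      ((continuous_S c σ).comp (continuous_apply b))).mul (hUc.comp
      ((continuous_S c τ).comp (continuous_apply b)))).aestronglyMeasurable
      ((exp B * exp B) ^ M0) (ae_of_all _ fun G => ?_)
    rw [norm_eq_abs, abs_of_nonneg (Finset.prod_nonneg fun b _ => (mul_pos (exp_pos _) (exp_pos _)).le)]
    refine (Finset.prod_le_prod (fun b _ => (mul_pos (exp_pos _) (exp_pos _)).le) fun b _ =>
      mul_le_mul (exp_le_exp.2 (abs_le.1 (hB _)).2) (exp_le_exp.2 (abs_le.1 (hB _)).2) (exp_pos _).le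
        (exp_pos _).le).trans_eq ?_
    simp
  have hm : ∫ G, exp (rows f c M0 0 G) ∂μ = 2 ^ N * m1 ^ M0 := by
    simp only [hX]
    rw [integral_finsetSum _ fun σ _ => hp1 σ]
    have e : ∀ σ, ∫ G : Fin M0 → Fin N → ℝ, ∏ b, exp (f (S c (G b) σ)) ∂μ = m1 ^ M0 := fun σ => by
      simp only [μ]
      rw [integral_fintype_prod_eq_prod (f := fun (_ : Fin M0) (g : Fin N → ℝ) => exp (f (S c g σ)))]
      simp [hone]
    simp [e]
  have hsq : ∫ G, exp (rows f c M0 0 G) ^ 2 ∂μ ≤ ((N : ℝ) + 1) ^ θ * (2 ^ N * m1 ^ M0) ^ 2 := by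
    simp only [hX, sq, Finset.sum_mul_sum, ← Finset.prod_mul_distrib]
    rw [integral_finsetSum _ fun σ _ => integrable_finsetSum _ fun τ _ => hp2 σ τ]
    have hb : ∀ σ τ, ∫ G : Fin M0 → Fin N → ℝ, ∏ b, exp (f (S c (G b) σ)) * exp (f (S c (G b) τ)) ∂μ
        ≤ m1 ^ M0 * m1 ^ M0 * exp (θ * N * pEnt (rOv N σ τ)) := fun σ τ => by
      simp only [μ]
      rw [integral_fintype_prod_eq_prod
        (f := fun (_ : Fin M0) (g : Fin N → ℝ) => exp (f (S c g σ)) * exp (f (S c g τ)))]
      simp only [htwo, Finset.prod_const, Finset.card_univ, Fintype.card_fin]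
      have hr := abs_le.1 (abs_rOv_le hN σ τ)
      set r := rOv N σ τ
      have hpnn : 0 ≤ pEnt r := by unfold pEnt; positivity
      have hb1 : pairG (fun s => exp (f s)) r ≤ m1 * m1 * exp ((z2 / m1) ^ 2 * pEnt r) := by
        refine (pairG_upper w h1 h3 hr).trans ?_
        have := mul_le_mul_of_nonneg_right h4 (by positivity : 0 ≤ r ^ 4 / 24)
        calc _ ≤ m1 * m1 * ((z2 / m1) ^ 2 * pEnt r + 1) := by
              simp only [m1, mean1, z2, pEnt] at *
              field_simp
              linarith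
          _ ≤ _ := mul_le_mul_of_nonneg_left (add_one_le_exp _) (by positivity)
      have h0 : 0 ≤ pairG (fun s => exp (f s)) r := integral_nonneg fun p => (mul_pos (exp_pos _) (exp_pos _)).le
      refine (pow_le_pow_left₀ h0 hb1 M0).trans ?_
      rw [mul_pow, mul_pow, ← exp_nat_mul, ← mul_assoc (M0 : ℝ)]
      refine mul_le_mul_of_nonneg_left (exp_le_exp.2 (mul_le_mul_of_nonneg_right ?_ hpnn)) (by positivity)
      calc (M0 : ℝ) * (z2 / m1) ^ 2 ≤ α * N * (z2 / m1) ^ 2 :=
            mul_le_mul_of_nonneg_right (Nat.floor_le (by positivity)) (sq_nonneg _)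
        _ ≤ θ * N := by nlinarith
    have h0θ : 0 ≤ θ := le_trans (by positivity) hαθ
    refine (Finset.sum_le_sum fun σ _ => ?_).trans_eq (b := ∑ _σ : Fin N → Bool,
      m1 ^ M0 * m1 ^ M0 * (2 ^ N * ((N : ℝ) + 1) ^ θ)) ?_
    · rw [integral_finsetSum _ fun τ _ => hp2 σ τ]
      refine (Finset.sum_le_sum fun τ _ => hb σ τ).trans ?_
      rw [← Finset.mul_sum]
      exact mul_le_mul_of_nonneg_left (overlap_sum hN h0θ hθ σ) (by positivity)
    · simp [mul_pow]
      ring
  have hXi : Integrable (rows f c M0 0) μ := by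
    refine Integrable.of_bound (continuous_rows hf c M0 0).aestronglyMeasurable
      (|base (0 : (Fin N → Bool) → ℝ)| + M0 * B) (ae_of_all _ fun G => ?_)
    rw [norm_eq_abs]
    linarith [abs_sub_abs_le_abs_sub (rows f c M0 0 G) (base (0 : (Fin N → Bool) → ℝ)),
      abs_rows_le hB c M0 0 G]
  have hb0 : ∀ G, |rows f c M0 0 G| ≤ |base (0 : (Fin N → Bool) → ℝ)| + M0 * B := fun G => by
    linarith [abs_sub_abs_le_abs_sub (rows f c M0 0 G) (base (0 : (Fin N → Bool) → ℝ)),
      abs_rows_le hB c M0 0 G]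
  have hZ : Integrable (fun G => exp (rows f c M0 0 G)) μ :=
    Integrable.of_bound (continuous_rows hf c M0 0).rexp.aestronglyMeasurable
      (exp (|base (0 : (Fin N → Bool) → ℝ)| + M0 * B)) (ae_of_all _ fun G => by
        rw [norm_eq_abs, abs_of_pos (exp_pos _)]; exact exp_le_exp.2 ((le_abs_self _).trans (hb0 G)))
  have hZ2 : Integrable (fun G => exp (rows f c M0 0 G) ^ 2) μ :=
    Integrable.of_bound ((continuous_rows hf c M0 0).rexp.pow 2).aestronglyMeasurable
      (exp (|base (0 : (Fin N → Bool) → ℝ)| + M0 * B) ^ 2) (ae_of_all _ fun G => by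
        rw [norm_eq_abs, abs_pow, abs_of_pos (exp_pos _)]
        exact pow_le_pow_left₀ (exp_pos _).le (exp_le_exp.2 ((le_abs_self _).trans (hb0 G))) 2)
  have hE : ∫ G, rows f c M0 0 G ∂μ = aSeq f α N := (R_eq_integral hf hB c M0 0).symm
  have hVi : Integrable (fun G => (rows f c M0 0 G - ∫ x, rows f c M0 0 x ∂μ) ^ 2) μ := by
    refine Integrable.of_bound (((continuous_rows hf c M0 0).sub continuous_const).pow 2).aestronglyMeasurable
      ((|base (0 : (Fin N → Bool) → ℝ)| + M0 * B + |∫ x, rows f c M0 0 x ∂μ|) ^ 2) (ae_of_all _ fun G => ?_)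
    rw [norm_eq_abs, abs_pow]
    exact pow_le_pow_left₀ (abs_nonneg _) ((abs_sub _ _).trans (add_le_add (hb0 G) le_rfl)) 2
  have hV : ∫ G, (rows f c M0 0 G - ∫ x, rows f c M0 0 x ∂μ) ^ 2 ∂μ ≤ 4 * B ^ 2 * M0 := by
    rw [hE]; exact rows_var hf hB c M0 0
  have h := log_lower (by positivity : (0 : ℝ) < 2 ^ N * m1 ^ M0) hXi hZ hZ2 hVi hm hV hsq
  rw [hE, Real.log_mul (by positivity) (by positivity), Real.log_pow, Real.log_pow] at h
  exact h

lemma integrable_abs_pow (n : ℕ) :
    Integrable (fun z : ℝ => (1 + |z|) ^ n) (gaussianReal 0 1) := by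
  rcases Nat.eq_zero_or_pos n with rfl | hn
  · simp
  · have h := (memLp_id_gaussianReal (μ := 0) (v := 1) n).integrable_norm_pow hn.ne'
    refine (((integrable_const (1 : ℝ)).add h).const_mul ((2 : ℝ) ^ n)).mono'
      (Continuous.aestronglyMeasurable (by fun_prop)) (ae_of_all _ fun z => ?_)
    rw [norm_eq_abs, abs_of_nonneg (by positivity)]
    simp only [Pi.add_apply, norm_eq_abs, id]
    calc (1 + |z|) ^ n ≤ (2 * max 1 |z|) ^ n := by
          gcongr; linarith [le_max_left (1 : ℝ) |z|, le_max_right (1 : ℝ) |z|]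
      _ = 2 ^ n * max 1 |z| ^ n := mul_pow _ _ _
      _ ≤ _ := by
          refine mul_le_mul_of_nonneg_left ?_ (by positivity)
          rcases max_cases (1 : ℝ) |z| with ⟨e, -⟩ | ⟨e, -⟩ <;> rw [e] <;>
            linarith [pow_nonneg (abs_nonneg z) n, one_pow (M := ℝ) n]

/-- The nested cavity averages against the pair function. -/
lemma cav_mul {a : ℝ → ℝ} (hc : Continuous a) {M : ℝ} (hb : ∀ s, |a s| ≤ M) {q : ℝ}
    (hq : q ∈ Icc (0 : ℝ) 1) :
    ∫ z, cav a q z * cav a q z ∂gaussianReal 0 1 = pairG a q ∧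
      ∫ z, cav a q z ∂gaussianReal 0 1 = ∫ s, a s ∂gaussianReal 0 1 := by
  set e : Bool → Unit ⊕ Unit ⊕ Unit → ℝ := fun b => Sum.elim (fun _ => √q)
    (Sum.elim (fun _ => if b then 0 else √(1 - q)) (fun _ => if b then √(1 - q) else 0))
  have hu : ∀ b, ∑ i, e b i ^ 2 = 1 := fun b => by
    cases b <;> simp [e, Fintype.sum_sum_type, Real.sq_sqrt hq.1, Real.sq_sqrt (sub_nonneg.2 hq.2)]
  have hg : ∑ i, e false i * e true i = q := by
    simp [e, Fintype.sum_sum_type, Real.mul_self_sqrt hq.1]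
  have hl : ∀ (x y w : Unit → ℝ) b, lin e (Sum.elim x (Sum.elim y w)) b
      = √q * x () + √(1 - q) * (if b then w () else y ()) := fun x y w b => by
    cases b <;> simp [e, lin, Fintype.sum_sum_type]
  have hcl : ∀ b, Continuous fun g => a (lin e g b) := fun b =>
    hc.comp ((continuous_apply b).comp (continuous_lin e))
  have hcav := continuous_cav hc hb q
  constructor
  · have h := (integral_pair (G := fun x y => a x * a y) ((hc.comp continuous_fst).mul
      (hc.comp continuous_snd)) e hu false true).2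
    rw [hg] at h
    refine Eq.trans ?_ h
    have hi : Integrable (fun g => a (lin e g false) * a (lin e g true)) (gauss (Unit ⊕ Unit ⊕ Unit)) :=
      Vale.Agent.P150.integrable_gauss_bound ((hcl false).mul (hcl true)) (B := M * M) fun g => by
        rw [abs_mul]; exact mul_le_mul (hb _) (hb _) (abs_nonneg _) ((abs_nonneg _).trans (hb 0))
    rw [integral_split hi]
    rw [← integral_unit (fun t => cav a q t * cav a q t) (hcav.mul hcav)]
    refine integral_congr_ae (ae_of_all _ fun x => ?_)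
    dsimp only [Pi.mul_apply]
    have hi2 : Integrable (fun g : Unit ⊕ Unit → ℝ =>
        a (lin e (Sum.elim x g) false) * a (lin e (Sum.elim x g) true)) (gauss (Unit ⊕ Unit)) := by
      have hcs : Continuous fun g : Unit ⊕ Unit → ℝ => Sum.elim x g := continuous_pi fun i => by
        rcases i with i | i <;> simp only [Sum.elim_inl, Sum.elim_inr] <;> fun_prop
      refine Vale.Agent.P150.integrable_gauss_bound (((hcl false).comp hcs).mul ((hcl true).comp hcs))
        (B := M * M) fun g => ?_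
      rw [abs_mul]; exact mul_le_mul (hb _) (hb _) (abs_nonneg _) ((abs_nonneg _).trans (hb 0))
    rw [integral_split hi2]
    simp only [hl, Bool.false_eq_true, if_false, if_true, integral_const_mul, integral_mul_const, cav]
    have h2 := integral_unit (fun t => a (√q * x () + √(1 - q) * t)) (by fun_prop)
    simp only [h2]
  · set b1 : Unit → Unit ⊕ Unit → ℝ := fun _ => Sum.elim (fun _ => √q) (fun _ => √(1 - q))
    have h := (integral_pair (G := fun x _ => a x) (hc.comp continuous_fst) b1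
      (fun _ => by simp [b1, Fintype.sum_sum_type, Real.sq_sqrt hq.1, Real.sq_sqrt (sub_nonneg.2 hq.2)]) () ()).2
    have hi : Integrable (fun g => a (lin b1 g ())) (gauss (Unit ⊕ Unit)) :=
      Vale.Agent.P150.integrable_gauss_bound (hc.comp ((continuous_apply ()).comp (continuous_lin b1))) fun g => hb _
    rw [integral_split hi, integral_fun_fst (f := a)] at h
    simp only [probReal_univ, one_smul] at h
    rw [← h, ← integral_unit _ hcav]
    refine integral_congr_ae (ae_of_all _ fun x => ?_)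
    simp only [cav, b1, lin, Fintype.sum_sum_type, Sum.elim_inl, Sum.elim_inr, Finset.univ_unique,
      Finset.sum_singleton]
    exact (integral_unit (fun t => a (√q * x () + √(1 - q) * t)) (by fun_prop)).symm

lemma log_one_add_le {x : ℝ} (hx : -1 < x) : log (1 + x) ≤ x - x ^ 2 / 2 + x ^ 3 / 3 := by
  set F : ℝ → ℝ := fun y => log (1 + y) - (y - y ^ 2 / 2 + y ^ 3 / 3)
  have hd : ∀ y, -1 < y → HasDerivAt F (-(y ^ 3) / (1 + y)) y := fun y hy => by
    have h1 := ((hasDerivAt_id y).const_add 1).log (by simp; linarith : (1 : ℝ) + id y ≠ 0)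
    have h2 : HasDerivAt (fun y : ℝ => y - y ^ 2 / 2 + y ^ 3 / 3) (1 - y + y ^ 2) y :=
      (((hasDerivAt_id y).sub ((hasDerivAt_pow 2 y).div_const 2)).add
        ((hasDerivAt_pow 3 y).div_const 3)).congr_deriv (by simp <;> ring)
    refine (h1.sub h2).congr_deriv ?_
    have : (1 : ℝ) + y ≠ 0 := by linarith
    simp only [id]
    field_simp
    ring
  have h0 : F 0 = 0 := by simp [F]
  have key : F x ≤ F 0 := by
    rcases le_total 0 x with h | h
    · refine antitoneOn_of_deriv_nonpos (convex_Icc 0 x)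
        (fun y hy => (hd y (by linarith [hy.1])).continuousAt.continuousWithinAt)
        (fun y hy => (hd y (by linarith [(interior_subset hy : y ∈ Icc 0 x).1])).differentiableAt.differentiableWithinAt)
        (fun y hy => ?_) (left_mem_Icc.2 h) (right_mem_Icc.2 h) h
      rw [interior_Icc] at hy
      rw [(hd y (by linarith [hy.1])).deriv]
      exact div_nonpos_of_nonpos_of_nonneg (by have := pow_pos hy.1 3; linarith) (by linarith [hy.1])
    · refine monotoneOn_of_deriv_nonneg (convex_Icc x 0)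
        (fun y hy => (hd y (by linarith [hy.1])).continuousAt.continuousWithinAt)
        (fun y hy => (hd y (by linarith [(interior_subset hy : y ∈ Icc x 0).1])).differentiableAt.differentiableWithinAt)
        (fun y hy => ?_) (left_mem_Icc.2 h) (right_mem_Icc.2 h) h
      rw [interior_Icc] at hy
      rw [(hd y (by linarith [hy.1])).deriv]
      exact div_nonneg (by nlinarith [mul_pos (neg_pos.2 hy.2) (neg_pos.2 hy.2), hy.2]) (by linarith [hy.1])
  simp only [F] at key h0
  norm_num at key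
  linarith

set_option maxHeartbeats 2000000 in
/-- Beyond the threshold the replica symmetric bound is below the annealed value. -/
theorem rs_below (hp : Pot f f1 f2 f3 U V W) (hB : ∀ s, |f s| ≤ B)
    (w : Wt (fun s => exp (f s)) U1 U2 U3 U4 U5 M) (h1 : ∫ s, U1 s ∂gaussianReal 0 1 = 0)
    {α : ℝ} (hα : 0 < α) (hgt : 1 < α * ((∫ s, U2 s ∂gaussianReal 0 1) / mean1 f) ^ 2) :
    ∃ q ∈ Icc (0 : ℝ) 1,
      α * (rsA f q - rsTau f f1 q * (1 - q) / 2) + site (√(α * rsTau f f1 q))
        < α * log (mean1 f) + log 2 := by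
  set z := ∫ s, U2 s ∂gaussianReal 0 1
  set m1 := mean1 f with hm1d
  set ζ2 := (z / m1) ^ 2
  set e1 := ∫ t : ℝ, |t| ∂gaussianReal 0 1
  have he1 : 0 ≤ e1 := integral_nonneg fun t => abs_nonneg t
  have hm1 : 0 < m1 := mean1_pos hp.cf hB
  have hM : 0 ≤ M := (abs_nonneg _).trans (w.b 0).1
  obtain ⟨c0, c1, c2, c3, c4⟩ := w.cont
  have hU1 : ∀ s, U1 s = f1 s * exp (f s) := fun s => by
    rw [(w.d0 s).unique (hp.d1 s).exp, mul_comm]
  have hcavU : ∀ q t, cav (fun s => f1 s * exp (f s)) q t = cav U1 q t := fun q t => by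
    simp only [cav, hU1]
  set Ca := M * (1 + 2 * e1) / m1
  set Cb := M * (1 + e1)
  set E6 := ∫ t : ℝ, (1 + |t|) ^ 6 ∂gaussianReal 0 1
  have hE6 : 0 ≤ E6 := integral_nonneg fun t => by positivity
  set K1 := Ca ^ 3 * E6 / 3
  set K2 := 2 * Cb ^ 2 * Ca * E6 / m1 ^ 2
  set K3 := exp (2 * B) * Cb ^ 2 * E6
  set a := α * ζ2
  have ha1 : 1 < a := hgt
  set K := α * K1 + (α * K3) ^ 3 / 3 + (a - 1) * (α * K2) / 2
  have hK1 : 0 ≤ K1 := by positivity
  have hK2 : 0 ≤ K2 := by positivity
  have hK3 : 0 ≤ K3 := by positivity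
  have hK : 0 ≤ K := by
    have := mul_nonneg (sub_nonneg.2 ha1.le) (mul_nonneg hα.le hK2)
    positivity
  obtain ⟨q, hq0, hq1, hq2, hq3⟩ : ∃ q : ℝ, 0 < q ∧ q ≤ 1 ∧ α * K2 * q < a - 1 ∧ K * q < a * (a - 1) / 4 := by
    refine ⟨min 1 (min ((a - 1) / (α * K2 + 1)) (a * (a - 1) / 4 / (K + 1))), ?_, min_le_left _ _, ?_, ?_⟩
    · have : 0 < a - 1 := by linarith
      have : 0 < a := by linarith
      positivity
    · refine lt_of_le_of_lt (mul_le_mul_of_nonneg_left ((min_le_right _ _).trans (min_le_left _ _)) (by positivity)) ?_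
      rw [mul_div_assoc', div_lt_iff₀ (by positivity)]
      nlinarith
    · refine lt_of_le_of_lt (mul_le_mul_of_nonneg_left ((min_le_right _ _).trans (min_le_right _ _)) hK) ?_
      rw [mul_div_assoc', div_lt_iff₀ (by positivity)]
      have : 0 < a * (a - 1) := mul_pos (by linarith) (by linarith)
      nlinarith
  have hq : q ∈ Icc (0 : ℝ) 1 := ⟨hq0.le, hq1⟩
  refine ⟨q, hq, ?_⟩
  set X : ℝ → ℝ := fun t => (cav (fun s => exp (f s)) q t - m1) / m1
  set Y : ℝ → ℝ := fun t => cav U1 q t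
  have hb0 : ∀ s, |exp (f s)| ≤ M := fun s => (w.b s).1
  have hb1 : ∀ s, |U1 s| ≤ M := fun s => (w.b s).2.1
  have hX0 : Continuous X := ((continuous_cav c0 hb0 q).sub continuous_const).div_const _
  have hY0 : Continuous Y := continuous_cav c1 hb1 q
  have hs : 1 - √(1 - q) ≤ q := by
    have : 1 - q ≤ √(1 - q) := by
      nlinarith [Real.sq_sqrt (sub_nonneg.2 hq1), Real.sqrt_nonneg (1 - q),
        Real.sqrt_le_one.2 (show 1 - q ≤ 1 by linarith)]
    linarith
  have hs0 : 0 ≤ 1 - √(1 - q) := by linarith [Real.sqrt_le_one.2 (show 1 - q ≤ 1 by linarith)]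
  have hshift : ∀ (F F' : ℝ → ℝ), (∀ s, HasDerivAt F (F' s) s) → (∀ s, |F' s| ≤ M) →
      (∀ s, |F s| ≤ M) → |(∫ t, F (√(1 - q) * t) ∂gaussianReal 0 1) - ∫ t, F t ∂gaussianReal 0 1| ≤ M * q * e1 := by
    intro F F' hd hb hbF
    have hFc : Continuous F := continuous_iff_continuousAt.2 fun s => (hd s).continuousAt
    have i1 : Integrable (fun t => F (√(1 - q) * t)) (gaussianReal 0 1) :=
      Integrable.of_bound (hFc.comp (by fun_prop)).aestronglyMeasurable M (ae_of_all _ fun t => hbF _)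
    have i2 : Integrable F (gaussianReal 0 1) :=
      Integrable.of_bound hFc.aestronglyMeasurable M (ae_of_all _ fun t => hbF _)
    rw [← integral_sub i1 i2, ← integral_const_mul]
    refine (abs_integral_le_integral_abs).trans (integral_mono (i1.sub i2).abs
      ((((memLp_id_gaussianReal 1).integrable le_rfl).abs).const_mul _) fun t => ?_)
    refine (abs_sub_le_mul hd hb _ _).trans ?_
    rw [show √(1 - q) * t - t = -((1 - √(1 - q)) * t) by ring, abs_neg, abs_mul, abs_of_nonneg hs0,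
      mul_assoc M q]
    exact mul_le_mul_of_nonneg_left (mul_le_mul_of_nonneg_right hs (abs_nonneg _)) hM
  have hsq : √q ≤ 1 := Real.sqrt_le_one.2 hq1
  have hqs : q ≤ √q := by
    nlinarith [Real.sq_sqrt hq0.le, Real.sqrt_nonneg q]
  have hYb : ∀ t, |Y t| ≤ Cb * √q * (1 + |t|) := by
    intro t
    have h := hshift U1 U2 w.d1 (fun s => (w.b s).2.2.1) hb1
    rw [h1, sub_zero] at h
    have i1 : Integrable (fun x => U1 (√q * t + √(1 - q) * x)) (gaussianReal 0 1) :=
      Integrable.of_bound (c1.comp (by fun_prop)).aestronglyMeasurable M (ae_of_all _ fun x => hb1 _)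
    have i2 : Integrable (fun x => U1 (√(1 - q) * x)) (gaussianReal 0 1) :=
      Integrable.of_bound (c1.comp (by fun_prop)).aestronglyMeasurable M (ae_of_all _ fun x => hb1 _)
    have h2 : |(∫ x, U1 (√q * t + √(1 - q) * x) ∂gaussianReal 0 1) - ∫ x, U1 (√(1 - q) * x) ∂gaussianReal 0 1|
        ≤ M * (√q * |t|) := by
      rw [← integral_sub i1 i2]
      refine (abs_integral_le_integral_abs).trans
        ((integral_mono (i1.sub i2).abs (integrable_const (M * (√q * |t|))) fun x => ?_).trans_eq (by simp))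
      refine (abs_sub_le_mul w.d1 (fun s => (w.b s).2.2.1) _ _).trans (le_of_eq ?_)
      rw [add_sub_cancel_right, abs_mul, abs_of_nonneg (Real.sqrt_nonneg q)]
    have h3 := abs_sub_abs_le_abs_sub (∫ x, U1 (√q * t + √(1 - q) * x) ∂gaussianReal 0 1)
      (∫ x, U1 (√(1 - q) * x) ∂gaussianReal 0 1)
    have h4 : M * q * e1 ≤ M * √q * e1 := by gcongr
    have h5 : 0 ≤ M * e1 * √q * |t| := by positivity
    have h6 : 0 ≤ M * √q := by positivity
    simp only [Y, cav, Cb]
    linarith
  have hXb : ∀ t, |X t| ≤ Ca * q * (1 + t ^ 2) := by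
    intro t
    have g0 := hshift (fun s => exp (f s)) U1 w.d0 hb1 hb0
    have g1 := hshift U1 U2 w.d1 (fun s => (w.b s).2.2.1) hb1
    rw [h1, sub_zero] at g1
    set d := √q * t
    have i1 : Integrable (fun x => exp (f (d + √(1 - q) * x))) (gaussianReal 0 1) :=
      Integrable.of_bound (c0.comp (by fun_prop : Continuous fun x : ℝ => d + √(1 - q) * x)).aestronglyMeasurable
        M (ae_of_all _ fun x => hb0 _)
    have i2 : Integrable (fun x => exp (f (√(1 - q) * x))) (gaussianReal 0 1) :=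
      Integrable.of_bound (c0.comp (by fun_prop : Continuous fun x : ℝ => √(1 - q) * x)).aestronglyMeasurable
        M (ae_of_all _ fun x => hb0 _)
    have i3 : Integrable (fun x => d * U1 (√(1 - q) * x)) (gaussianReal 0 1) :=
      (Integrable.of_bound (c1.comp (by fun_prop : Continuous fun x : ℝ => √(1 - q) * x)).aestronglyMeasurable
        M (ae_of_all _ fun x => hb1 _)).const_mul d
    have i4 : Integrable (fun x => exp (f (d + √(1 - q) * x)) - exp (f (√(1 - q) * x))
        - d * U1 (√(1 - q) * x)) (gaussianReal 0 1) := (i1.sub i2).sub i3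
    have h2 : |∫ x, (exp (f (d + √(1 - q) * x)) - exp (f (√(1 - q) * x)) - d * U1 (√(1 - q) * x))
        ∂gaussianReal 0 1| ≤ M * d ^ 2 := by
      refine (abs_integral_le_integral_abs).trans
        ((integral_mono i4.abs (integrable_const (M * d ^ 2)) fun x => ?_).trans_eq (by simp))
      set b := √(1 - q) * x
      have hd : ∀ y ∈ Icc (-|d|) |d|, HasDerivWithinAt (fun y => exp (f (y + b)) - exp (f b) - y * U1 b)
          (U1 (y + b) - U1 b) (Icc (-|d|) |d|) y := fun y _ =>
        ((((w.d0 (y + b)).comp y ((hasDerivAt_id y).add_const b)).congr_deriv (mul_one _)).sub_const _ |>.sub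
          (((hasDerivAt_id y).mul_const (U1 b)).congr_deriv (one_mul _))).hasDerivWithinAt
      have := Convex.norm_image_sub_le_of_norm_hasDerivWithin_le hd (C := M * |d|) (fun y hy => by
        rw [norm_eq_abs]
        refine (abs_sub_le_mul w.d1 (fun s => (w.b s).2.2.1) _ _).trans ?_
        rw [add_sub_cancel_right]
        exact mul_le_mul_of_nonneg_left (abs_le.2 ⟨hy.1, hy.2⟩) hM) (convex_Icc _ _)
        (by constructor <;> linarith [abs_nonneg d] : (0 : ℝ) ∈ Icc (-|d|) |d|)
        (⟨neg_abs_le d, le_abs_self d⟩ : d ∈ Icc (-|d|) |d|)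
      simp only [norm_eq_abs, zero_add, zero_mul, sub_self, sub_zero] at this
      refine this.trans_eq ?_
      rw [mul_assoc, ← sq, sq_abs]
    have i12 : Integrable (fun x => exp (f (d + √(1 - q) * x)) - exp (f (√(1 - q) * x))) (gaussianReal 0 1) :=
      i1.sub i2
    rw [integral_sub i12 i3, integral_sub i1 i2, integral_const_mul] at h2
    have hd2 : d ^ 2 = q * t ^ 2 := by simp only [d, mul_pow, Real.sq_sqrt hq0.le]
    rw [hd2] at h2
    set A := ∫ x, exp (f (d + √(1 - q) * x)) ∂gaussianReal 0 1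
    set A0 := ∫ x, exp (f (√(1 - q) * x)) ∂gaussianReal 0 1
    set A1 := ∫ x, U1 (√(1 - q) * x) ∂gaussianReal 0 1
    have hd1 : |d| ≤ 1 + t ^ 2 := by
      simp only [d, abs_mul, abs_of_nonneg (Real.sqrt_nonneg q)]
      nlinarith [sq_nonneg (|t| - 1), sq_abs t, abs_nonneg t, Real.sqrt_nonneg q]
    have h3 : |d * A1| ≤ (1 + t ^ 2) * (M * q * e1) := by
      rw [abs_mul]; exact mul_le_mul hd1 g1 (abs_nonneg _) (by positivity)
    have h4 : |A - m1| ≤ M * (1 + 2 * e1) * (q * (1 + t ^ 2)) := by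
      have e : A - m1 = (A - A0 - d * A1) + d * A1 + (A0 - m1) := by ring
      rw [e]
      refine (abs_add_three _ _ _).trans ?_
      have h5 : 0 ≤ M * q * e1 * t ^ 2 := by positivity
      have h6 : 0 ≤ M * q := by positivity
      simp only [hm1d, mean1] at g0 ⊢
      simp only [A0] at g0 h2 ⊢
      linarith
    simp only [X, abs_div, abs_of_pos hm1, div_le_iff₀ hm1]
    refine h4.trans_eq ?_
    simp only [Ca]
    field_simp
  have hpow : ∀ t : ℝ, 1 + t ^ 2 ≤ (1 + |t|) ^ 2 := fun t => by nlinarith [abs_nonneg t, sq_abs t]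
  have hX3 : ∀ t, |X t| ^ 3 ≤ Ca ^ 3 * q ^ 3 * (1 + |t|) ^ 6 := fun t => by
    refine (pow_le_pow_left₀ (abs_nonneg _) (hXb t) 3).trans ?_
    rw [mul_pow, mul_pow, show (1 + |t|) ^ 6 = ((1 + |t|) ^ 2) ^ 3 by ring]
    exact mul_le_mul_of_nonneg_left (pow_le_pow_left₀ (by positivity) (hpow t) 3) (by positivity)
  have hX1 : ∀ t, -1 < X t := fun t => by
    simp only [X]
    rw [lt_div_iff₀ hm1]
    linarith [(exp_pos (-B)).trans_le (cav_exp_bounds hp hB q t).1]
  have hcav : ∀ t, cav (fun s => exp (f s)) q t = m1 * (1 + X t) := fun t => by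
    simp only [X]; field_simp; ring
  obtain ⟨hmm, hmean⟩ := cav_mul c0 hb0 hq
  obtain ⟨hmm1, -⟩ := cav_mul c1 hb1 hq
  obtain ⟨hlow1, hlow0⟩ := pairG_lower w h1 hq
  have hcavb : ∀ t, |cav (fun s => exp (f s)) q t| ≤ exp B := fun t => by
    rw [abs_of_pos ((exp_pos _).trans_le (cav_exp_bounds hp hB q t).1)]
    exact (cav_exp_bounds hp hB q t).2
  have iC : Integrable (fun t => cav (fun s => exp (f s)) q t) (gaussianReal 0 1) :=
    Integrable.of_bound (continuous_cav c0 hb0 q).aestronglyMeasurable (exp B) (ae_of_all _ hcavb)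
  have iX : Integrable X (gaussianReal 0 1) := (iC.sub (integrable_const m1)).div_const m1
  have hXabs : ∀ t, |X t| ≤ (exp B + m1) / m1 := fun t => by
    simp only [X, abs_div, abs_of_pos hm1]
    gcongr
    exact (abs_sub _ _).trans (add_le_add (hcavb t) (abs_of_pos hm1).le)
  have iX2 : Integrable (fun t => X t ^ 2) (gaussianReal 0 1) :=
    Integrable.of_bound (hX0.pow 2).aestronglyMeasurable (((exp B + m1) / m1) ^ 2) (ae_of_all _ fun t => by
      rw [norm_eq_abs, abs_pow]; exact pow_le_pow_left₀ (abs_nonneg _) (hXabs t) 2)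
  have hEX : ∫ t, X t ∂gaussianReal 0 1 = 0 := by
    simp only [X]
    rw [integral_div, integral_sub iC (integrable_const _), hmean]
    simp [hm1d, mean1]
  have hEX2 : ζ2 * q ^ 2 / 2 ≤ ∫ t, X t ^ 2 ∂gaussianReal 0 1 := by
    have iC2 : Integrable (fun t => cav (fun s => exp (f s)) q t * cav (fun s => exp (f s)) q t) (gaussianReal 0 1) :=
      iC.bdd_mul (continuous_cav c0 hb0 q).aestronglyMeasurable (ae_of_all _ fun t => hcavb t)
    have e : ∀ t, X t ^ 2 = (cav (fun s => exp (f s)) q t * cav (fun s => exp (f s)) q t) / m1 ^ 2 - (2 * X t + 1) := by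
      intro t; simp only [X]; field_simp; ring
    simp only [e]
    rw [integral_sub (iC2.div_const _) ((iX.const_mul 2).fun_add (integrable_const _)), integral_div, hmm,
      integral_add (iX.const_mul 2) (integrable_const _), integral_const_mul, hEX]
    simp only [integral_const, probReal_univ, one_smul, mul_zero, zero_add]
    have h := div_le_div_of_nonneg_right hlow0 (sq_nonneg m1)
    have e2 : ((∫ s, exp (f s) ∂gaussianReal 0 1) ^ 2 + z ^ 2 * (q ^ 2 / 2)) / m1 ^ 2 = 1 + ζ2 * q ^ 2 / 2 := by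
      simp only [ζ2, hm1d, mean1] at hm1 ⊢
      field_simp
    linarith
  have hA : rsA f q ≤ log m1 - ζ2 * q ^ 2 / 4 + K1 * q ^ 3 := by
    have i3 : Integrable (fun t => Ca ^ 3 * q ^ 3 * (1 + |t|) ^ 6 / 3) (gaussianReal 0 1) :=
      ((integrable_abs_pow 6).const_mul _).div_const 3
    have i12 : Integrable (fun t => X t - X t ^ 2 / 2) (gaussianReal 0 1) := iX.sub (iX2.div_const 2)
    have i123 : Integrable (fun t => X t - X t ^ 2 / 2 + Ca ^ 3 * q ^ 3 * (1 + |t|) ^ 6 / 3) (gaussianReal 0 1) :=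
      i12.add i3
    have hli : Integrable (fun t => log (cav (fun s => exp (f s)) q t)) (gaussianReal 0 1) := by
      have hb := cav_exp_bounds hp hB q
      refine Integrable.of_bound ((continuous_cav c0 hb0 q).log fun t =>
        ((exp_pos _).trans_le (hb t).1).ne').aestronglyMeasurable B (ae_of_all _ fun t => ?_)
      rw [norm_eq_abs, abs_le]
      exact ⟨(Real.le_log_iff_exp_le ((exp_pos _).trans_le (hb t).1)).2 (hb t).1,
        (Real.log_le_iff_le_exp ((exp_pos _).trans_le (hb t).1)).2 (hb t).2⟩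
    have h := integral_mono hli ((integrable_const (log m1)).add i123) fun t => by
      dsimp only [Pi.add_apply]
      rw [hcav, Real.log_mul hm1.ne' (by linarith [hX1 t])]
      have h1 := log_one_add_le (hX1 t)
      have h2 : X t ^ 3 ≤ |X t| ^ 3 := by rw [← abs_pow]; exact le_abs_self _
      have h3 := hX3 t
      linarith
    rw [integral_add' (integrable_const _) i123, integral_add i12 i3, integral_sub iX (iX2.div_const 2),
      hEX, integral_div, integral_div, integral_const_mul] at h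
    simp only [integral_const, probReal_univ, one_smul] at h
    simp only [rsA, K1]
    have : Ca ^ 3 * E6 / 3 * q ^ 3 = Ca ^ 3 * q ^ 3 * E6 / 3 := by ring
    simp only [E6] at h this ⊢
    linarith
  have iY2 : Integrable (fun t => Y t * Y t) (gaussianReal 0 1) :=
    Integrable.of_bound (hY0.mul hY0).aestronglyMeasurable (M * M) (ae_of_all _ fun t => by
      have hY : |Y t| ≤ M := (norm_integral_le_of_norm_le_const (μ := gaussianReal 0 1)
        (f := fun x => U1 (√q * t + √(1 - q) * x)) (ae_of_all _ fun x => hb1 _)).trans_eq (by simp)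
      rw [norm_eq_abs, abs_mul]; exact mul_le_mul hY hY (abs_nonneg _) hM)
  have hρb : ∀ t, |Y t / cav (fun s => exp (f s)) q t| ≤ exp B * (Cb * √q * (1 + |t|)) := fun t => by
    have hb := (cav_exp_bounds hp hB q t).1
    rw [abs_div, abs_of_pos ((exp_pos _).trans_le hb), div_le_iff₀ ((exp_pos _).trans_le hb)]
    have h : 1 ≤ exp B * cav (fun s => exp (f s)) q t := by
      refine le_trans (le_of_eq ?_) (mul_le_mul_of_nonneg_left hb (exp_pos B).le)
      rw [← exp_add]; simp
    calc |Y t| ≤ Cb * √q * (1 + |t|) * 1 := by rw [mul_one]; exact hYb t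
      _ ≤ _ := by
        refine (mul_le_mul_of_nonneg_left h (by positivity)).trans_eq ?_
        ring
  have hτeq : rsTau f f1 q = ∫ t, (Y t / cav (fun s => exp (f s)) q t) ^ 2 ∂gaussianReal 0 1 := by
    simp only [rsTau, hcavU, Y]
  have iρ : Integrable (fun t => (Y t / cav (fun s => exp (f s)) q t) ^ 2) (gaussianReal 0 1) :=
    Integrable.of_bound ((hY0.div (continuous_cav c0 hb0 q) fun t =>
      ((exp_pos _).trans_le (cav_exp_bounds hp hB q t).1).ne').pow 2).aestronglyMeasurable (U ^ 2)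
      (ae_of_all _ fun t => by
        rw [norm_eq_abs, abs_pow]
        refine pow_le_pow_left₀ (abs_nonneg _) ?_ 2
        simp only [Y, ← hcavU]
        exact cav_ratio_le hp hB q t)
  have hτup : rsTau f f1 q ≤ K3 * q := by
    rw [hτeq]
    refine (integral_mono iρ ((integrable_abs_pow 6).const_mul (exp (2 * B) * Cb ^ 2 * q)) fun t => ?_).trans_eq ?_
    · refine le_trans (le_of_eq (sq_abs _).symm) ((pow_le_pow_left₀ (abs_nonneg _) (hρb t) 2).trans ?_)
      have h6 : (1 + |t|) ^ 2 ≤ (1 + |t|) ^ 6 := pow_le_pow_right₀ (by linarith [abs_nonneg t]) (by norm_num)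
      rw [mul_pow, mul_pow, mul_pow, Real.sq_sqrt hq0.le, show exp (2 * B) = exp B ^ 2 by rw [← exp_nat_mul]; norm_num]
      have := mul_le_mul_of_nonneg_left h6 (by positivity : 0 ≤ exp B ^ 2 * Cb ^ 2 * q)
      linarith
    · rw [integral_const_mul]; simp only [K3, E6]; ring
  have hτlow : ζ2 * q - K2 * q ^ 2 ≤ rsTau f f1 q := by
    rw [hτeq]
    have i6 : Integrable (fun t => 2 * Cb ^ 2 * Ca * q ^ 2 / m1 ^ 2 * (1 + |t|) ^ 6) (gaussianReal 0 1) :=
      (integrable_abs_pow 6).const_mul _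
    have h := integral_mono ((iY2.div_const (m1 ^ 2)).sub i6) iρ fun t => by
      dsimp only [Pi.sub_apply]
      rw [hcav]
      have hx := hX1 t
      have hx' : 0 < 1 + X t := by linarith
      have e : (Y t / (m1 * (1 + X t))) ^ 2 = Y t * Y t / m1 ^ 2 * (1 / (1 + X t) ^ 2) := by
        field_simp
      have h2 : 1 - 2 * |X t| ≤ 1 / (1 + X t) ^ 2 := by
        rw [le_div_iff₀ (by positivity)]
        rcases abs_cases (X t) with ⟨h, h'⟩ | ⟨h, h'⟩ <;> rw [h] <;>
          nlinarith [mul_nonneg (sq_nonneg (X t)) hx'.le, sq_nonneg (X t)]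
      rw [e]
      refine le_trans ?_ (mul_le_mul_of_nonneg_left h2 (div_nonneg (mul_self_nonneg _) (sq_nonneg m1)))
      have h7 : Y t * Y t * |X t| ≤ Cb ^ 2 * Ca * q ^ 2 * (1 + |t|) ^ 6 := by
        have h8 : Y t * Y t ≤ Cb ^ 2 * q * (1 + |t|) ^ 2 := by
          have := pow_le_pow_left₀ (abs_nonneg _) (hYb t) 2
          rw [sq_abs, mul_pow, mul_pow, Real.sq_sqrt hq0.le] at this
          nlinarith
        refine (mul_le_mul h8 (hXb t) (abs_nonneg _) (by positivity)).trans ?_
        have h9 : (1 + |t|) ^ 2 * (1 + t ^ 2) ≤ (1 + |t|) ^ 6 :=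
          (mul_le_mul_of_nonneg_left (hpow t) (by positivity)).trans (by
            rw [← pow_add]; exact pow_le_pow_right₀ (by linarith [abs_nonneg t]) (by norm_num))
        have := mul_le_mul_of_nonneg_left h9 (by positivity : 0 ≤ Cb ^ 2 * Ca * q ^ 2)
        linarith
      have := div_le_div_of_nonneg_right h7 (sq_nonneg m1)
      have e3 : 2 * Cb ^ 2 * Ca * q ^ 2 / m1 ^ 2 * (1 + |t|) ^ 6 = 2 * (Cb ^ 2 * Ca * q ^ 2 * (1 + |t|) ^ 6 / m1 ^ 2) := by ring
      have e4 : Y t * Y t / m1 ^ 2 * (1 - 2 * |X t|) = Y t * Y t / m1 ^ 2 - 2 * (Y t * Y t * |X t| / m1 ^ 2) := by ring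
      linarith
    rw [integral_sub' (iY2.div_const _) i6, integral_div, hmm1, integral_const_mul] at h
    have h2 := div_le_div_of_nonneg_right hlow1 (sq_nonneg m1)
    have e2 : z ^ 2 * q / m1 ^ 2 = ζ2 * q := by simp only [ζ2]; ring
    have e3 : 2 * Cb ^ 2 * Ca * q ^ 2 / m1 ^ 2 * E6 = K2 * q ^ 2 := by simp only [K2]; ring
    simp only [E6] at h e3
    linarith
  set τ := rsTau f f1 q
  set v := α * τ
  have hτ0 : 0 ≤ τ := rsTau_nonneg f f1 q
  have hv : 0 ≤ v := mul_nonneg hα.le hτ0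
  have hsite : site (√v) ≤ log 2 + v / 2 - v ^ 2 / 4 + v ^ 3 / 3 := by
    have h := Vale.Agent.P150.oneSite_le (Real.sqrt_nonneg v)
    have e : Vale.Agent.P150.oneSite (√v) = site (√v) := by
      have h2 : ∀ g : Fin 1 → ℝ, Vale.Agent.P150.lse (Vale.Agent.P150.wsum
          (fun _ x => √v * Vale.Agent.P150.sgn x) g) = log (2 * cosh (√v * g 0)) := fun g => by
        simp [Vale.Agent.P150.lse, Vale.Agent.P150.wsum, Vale.Agent.P150.sgn, cosh_eq]
        ring_nf
      simp only [Vale.Agent.P150.oneSite, h2, site]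
      have hm := measurePreserving_eval (fun _ : Fin 1 => gaussianReal 0 1) 0
      rw [← hm.map_eq, integral_map hm.measurable.aemeasurable (continuous_logcosh _).aestronglyMeasurable]
      rfl
    rw [e, show √v ^ 4 = (√v ^ 2) ^ 2 by ring, show √v ^ 6 = (√v ^ 2) ^ 3 by ring, Real.sq_sqrt hv] at h
    exact h
  have hv0 : a * q - α * K2 * q ^ 2 ≤ v := by
    have := mul_le_mul_of_nonneg_left hτlow hα.le
    simp only [v, a]; linarith
  have hv3 : v ^ 3 ≤ (α * K3 * q) ^ 3 := pow_le_pow_left₀ hv (by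
    have := mul_le_mul_of_nonneg_left hτup hα.le
    simp only [v]; linarith) 3
  have hquad : (a * q - α * K2 * q ^ 2 - q) ^ 2 ≤ (v - q) ^ 2 := by
    refine pow_le_pow_left₀ ?_ (by linarith) 2
    nlinarith
  have hAα := mul_le_mul_of_nonneg_left hA hα.le
  have hKq : K * q * q ^ 2 < a * (a - 1) / 4 * q ^ 2 := mul_lt_mul_of_pos_right hq3 (by positivity)
  simp only [K] at hKq
  simp only [v, a] at *
  linarith [sq_nonneg (α * K2 * q ^ 2)]

end P157.Conc

end
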