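import Vale.Agent.P157.Conc.Threshold

/-!
# P157: the sharp annealed threshold, with the cosine potential as an example
-/

noncomputable section

open MeasureTheory ProbabilityTheory Real Filter Topology Set
open scoped BigOperators

namespace P157.Conc

open Vale.Agent.P150 (gauss)

variable {f f1 f2 f3 U1 U2 U3 U4 U5 : ℝ → ℝ} {U V W δ κ M B : ℝ}

lemma aSeq_dist (hf : Continuous f) (hB : ∀ s, |f s| ≤ B) (α α' : ℝ) (N : ℕ) :
    |aSeq f α N - aSeq f α' N| ≤ B * |((⌊α * N⌋₊ : ℕ) : ℝ) - (⌊α' * N⌋₊ : ℕ)| :=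
  R_dist hf hB _ _ _ _

theorem transition (hp : Pot f f1 f2 f3 U V W) (hs : Small f f1 f2 U V δ κ)
    (w : Wt (fun s => exp (f s)) U1 U2 U3 U4 U5 M)
    (h1 : ∫ s, U1 s ∂gaussianReal 0 1 = 0) (h3 : ∫ s, U3 s ∂gaussianReal 0 1 = 0)
    (h4 : ∫ s, U4 s ^ 2 ∂gaussianReal 0 1 ≤ 2 * (∫ s, U2 s ∂gaussianReal 0 1) ^ 2)
    {α : ℝ} (hα : 0 < α) :
    ∃ L : ℝ, Tendsto (pressure f α) atTop (𝓝 L) ∧
      (α * ((∫ s, U2 s ∂gaussianReal 0 1) / mean1 f) ^ 2 ≤ 1 → L = α * log (mean1 f)) ∧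
      (1 < α * ((∫ s, U2 s ∂gaussianReal 0 1) / mean1 f) ^ 2 → L < α * log (mean1 f)) := by
  set B := |f 0| + δ
  have hB : ∀ s, |f s| ≤ B := abs_pot hs
  have hB0 : 0 ≤ B := (abs_nonneg _).trans (hB 0)
  set m1 := mean1 f
  set ζ2 := ((∫ s, U2 s ∂gaussianReal 0 1) / m1) ^ 2
  obtain ⟨L, hL⟩ := limit_exists hp hs hα.le
  refine ⟨L - log 2, (hL.sub_const (log 2)).congr' ?_, fun hle => ?_, fun hgt => ?_⟩
  · filter_upwards [eventually_gt_atTop 0] with N hN
    exact (pressure_eq hp.cf hB hN).symm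
  · have hU1 : ∀ s, U1 s = f1 s * exp (f s) := fun s => by
      rw [(w.d0 s).unique (hp.d1 s).exp, mul_comm]
    have up : L ≤ α * log m1 + log 2 := by
      have h := limit_le hp hs hB hα.le hL (q := 0) ⟨le_rfl, zero_le_one⟩
      have e1 : ∀ (G : ℝ → ℝ) z, cav G 0 z = ∫ s, G s ∂gaussianReal 0 1 := fun G z => by simp [cav]
      have e2 : rsTau f f1 0 = 0 := by
        simp only [rsTau, e1, ← hU1, h1]
        simp
      have e3 : rsA f 0 = log m1 := by
        simp only [rsA, e1]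
        simp [m1, mean1]
      rw [e2, e3] at h
      simpa [site] using h
    have low : ∀ θ : ℝ, θ < 1 → ∀ α', 0 ≤ α' → α' ≤ α → α' * ζ2 ≤ θ →
        α' * log m1 + log 2 - B * (α - α') ≤ L := by
      intro θ hθ α' hα' hle' hαθ
      have h0θ : 0 ≤ θ := le_trans (by positivity) hαθ
      have hm : ∀ a : ℝ, 0 ≤ a → Tendsto (fun N : ℕ => (⌊a * N⌋₊ : ℝ) / N) atTop (𝓝 a) := fun a ha =>
        (tendsto_nat_floor_mul_div_atTop ha).comp tendsto_natCast_atTop_atTop
      have herr : Tendsto (fun N : ℕ => (log 2 + √(5 * (4 * B ^ 2 * (⌊α' * N⌋₊ : ℝ)) * ((N : ℝ) + 1) ^ θ)) / N)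
          atTop (𝓝 0) := by
        have hA : Tendsto (fun N : ℕ => 20 * B ^ 2 * α' * (2 * ((N : ℝ) + 1) ^ (-(1 - θ)))) atTop (𝓝 0) := by
          have := (((tendsto_rpow_neg_atTop (sub_pos.2 hθ)).comp
            (tendsto_atTop_add_const_right _ (1 : ℝ) tendsto_natCast_atTop_atTop)).const_mul 2).const_mul (20 * B ^ 2 * α')
          simpa using this
        have hA2 := (Real.continuous_sqrt.tendsto 0).comp hA
        rw [Real.sqrt_zero] at hA2
        have hB2 : Tendsto (fun N : ℕ => log 2 / (N : ℝ)) atTop (𝓝 0) := tendsto_const_div_atTop_nhds_zero_nat _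
        have hsum := hB2.add hA2
        rw [add_zero] at hsum
        refine squeeze_zero' (Eventually.of_forall fun N => by positivity) ?_ hsum
        filter_upwards [eventually_gt_atTop 0] with N hN
        have hNR : (0 : ℝ) < N := by exact_mod_cast hN
        simp only [Function.comp_apply]
        rw [add_div]
        refine add_le_add le_rfl ?_
        rw [div_le_iff₀ hNR]
        calc √(5 * (4 * B ^ 2 * (⌊α' * N⌋₊ : ℝ)) * ((N : ℝ) + 1) ^ θ)
            ≤ √(20 * B ^ 2 * α' * (2 * ((N : ℝ) + 1) ^ (-(1 - θ))) * (N : ℝ) ^ 2) := by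
              refine Real.sqrt_le_sqrt ?_
              have e : ((N : ℝ) + 1) ^ θ = ((N : ℝ) + 1) ^ (-(1 - θ)) * ((N : ℝ) + 1) := by
                rw [← Real.rpow_add_one (by positivity)]; ring_nf
              rw [e]
              have h5 : (⌊α' * N⌋₊ : ℝ) * ((N : ℝ) + 1) ≤ α' * N * (2 * N) :=
                mul_le_mul (Nat.floor_le (by positivity)) (by
                  have : (1 : ℝ) ≤ N := by exact_mod_cast hN
                  linarith) (by positivity) (by positivity)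
              have := mul_le_mul_of_nonneg_left h5
                (by positivity : 0 ≤ 20 * B ^ 2 * ((N : ℝ) + 1) ^ (-(1 - θ)))
              linarith
          _ = _ := by rw [Real.sqrt_mul (by positivity), Real.sqrt_sq hNR.le]
      have hlim := ((((hm α' hα').mul_const (log m1)).const_add (log 2)).sub herr).sub
        (((hm α hα.le).sub (hm α' hα')).abs.const_mul B)
      rw [sub_zero, abs_of_nonneg (sub_nonneg.2 hle')] at hlim
      refine le_trans (le_of_eq (by ring)) (le_of_tendsto_of_tendsto hlim hL ?_)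
      filter_upwards [eventually_gt_atTop 0] with N hN
      have hNR : (0 : ℝ) < N := by exact_mod_cast hN
      have h := aSeq_ge hp.cf hB w h1 h3 h4 hα' hθ.le hαθ hN
      have h2 := (abs_le.1 (aSeq_dist hp.cf hB α α' N)).1
      rw [le_div_iff₀ hNR]
      have e : |(⌊α * N⌋₊ : ℝ) / N - (⌊α' * N⌋₊ : ℝ) / N| * N = |(⌊α * N⌋₊ : ℝ) - (⌊α' * N⌋₊ : ℕ)| := by
        rw [← sub_div, abs_div, abs_of_pos hNR, div_mul_cancel₀ _ hNR.ne']
      have t1 : (⌊α' * N⌋₊ : ℝ) / N * log m1 * N = (⌊α' * N⌋₊ : ℝ) * log m1 := by field_simp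
      rw [sub_mul, sub_mul, add_mul, t1, div_mul_cancel₀ _ hNR.ne', mul_assoc B, e]
      simp only [m1] at *
      linarith
    have hkey : α * log m1 + log 2 ≤ L := by
      have hn : Tendsto (fun n : ℕ => 1 - 1 / ((n : ℝ) + 1)) atTop (𝓝 1) := by
        simpa using tendsto_one_div_add_atTop_nhds_zero_nat.const_sub (1 : ℝ)
      have hlim : Tendsto (fun n : ℕ => (1 - 1 / ((n : ℝ) + 1)) * α * log m1 + log 2
          - B * (α - (1 - 1 / ((n : ℝ) + 1)) * α)) atTop (𝓝 (α * log m1 + log 2)) := by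
        have := ((((hn.mul_const α).mul_const (log m1)).add_const (log 2))).sub
          (((hn.mul_const α).const_sub α).const_mul B)
        simpa using this
      refine le_of_tendsto' hlim fun n => ?_
      have h0 : 0 ≤ 1 - 1 / ((n : ℝ) + 1) := by
        rw [sub_nonneg, div_le_one (by positivity)]; linarith [Nat.cast_nonneg (α := ℝ) n]
      have h1' : 1 - 1 / ((n : ℝ) + 1) < 1 := by
        have : 0 < 1 / ((n : ℝ) + 1) := by positivity
        linarith
      refine low _ h1' _ (mul_nonneg h0 hα.le) (mul_le_of_le_one_left hα.le h1'.le) ?_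
      rw [mul_assoc]
      exact mul_le_of_le_one_right h0 hle
    linarith
  · obtain ⟨q, hq, hlt⟩ := rs_below hp hB w h1 hα hgt
    have := limit_le hp hs hB hα.le hL hq
    simp only [m1]
    linarith

lemma integral_odd {F : ℝ → ℝ} (hF : Continuous F) (ho : ∀ s, F (-s) = -F s) :
    ∫ s, F s ∂gaussianReal 0 1 = 0 := by
  have h := gaussianReal_map_neg (μ := 0) (v := 1)
  rw [neg_zero] at h
  have h2 : ∫ s, F s ∂gaussianReal 0 1 = -∫ s, F s ∂gaussianReal 0 1 := by
    conv_lhs => rw [← h, integral_map (by fun_prop) hF.aestronglyMeasurable]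
    simp only [ho, integral_neg]
  linarith

lemma integral_cos (b : ℝ) : ∫ s, cos (b * s) ∂gaussianReal 0 1 = exp (-(b ^ 2) / 2) := by
  have h := congrArg Complex.re (charFun_gaussianReal (μ := 0) (v := 1) b)
  rw [charFun_apply_real] at h
  have hi : Integrable (fun s : ℝ => Complex.exp ((b : ℂ) * (s : ℂ) * Complex.I)) (gaussianReal 0 1) :=
    Integrable.of_bound (Continuous.aestronglyMeasurable (by fun_prop)) 1 (ae_of_all _ fun s => by
      simp [Complex.norm_exp])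
  rw [← RCLike.re_eq_complex_re, ← integral_re hi] at h
  simp only [RCLike.re_eq_complex_re] at h
  simp only [Complex.exp_re] at h
  rw [neg_div]
  simpa [← Complex.ofReal_pow] using h

/-- `(exp (ε cos))'' / ε`. -/
def cU2 (ε s : ℝ) : ℝ := (-cos s + ε * sin s ^ 2) * exp (ε * cos s)

/-- `(exp (ε cos))'''' / ε`. -/
def cU4 (ε s : ℝ) : ℝ :=
  (cos s + ε * (3 * cos s ^ 2 - 4 * sin s ^ 2) - 6 * ε ^ 2 * cos s * sin s ^ 2 + ε ^ 3 * sin s ^ 4)
    * exp (ε * cos s)

/-- The example: `f = ε cos`. -/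
theorem cos_transition : ∃ ε₀ : ℝ, 0 < ε₀ ∧ ∀ ε : ℝ, |ε| < ε₀ → ∀ α : ℝ, 0 < α →
    ∃ L : ℝ, Tendsto (pressure (fun s => ε * cos s) α) atTop (𝓝 L) ∧
      (α * ((∫ s, (ε ^ 2 * sin s ^ 2 - ε * cos s) * exp (ε * cos s) ∂gaussianReal 0 1)
          / ∫ s, exp (ε * cos s) ∂gaussianReal 0 1) ^ 2 ≤ 1 →
        L = α * log (∫ s, exp (ε * cos s) ∂gaussianReal 0 1)) ∧
      (1 < α * ((∫ s, (ε ^ 2 * sin s ^ 2 - ε * cos s) * exp (ε * cos s) ∂gaussianReal 0 1)
          / ∫ s, exp (ε * cos s) ∂gaussianReal 0 1) ^ 2 →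
        L < α * log (∫ s, exp (ε * cos s) ∂gaussianReal 0 1)) := by
  have hne : ∫ s, -cos s ∂gaussianReal 0 1 ≠ 0 := by
    have h := integral_cos 1
    simp only [one_mul] at h
    rw [integral_neg, h, neg_ne_zero]
    exact (exp_pos _).ne'
  obtain ⟨ε₁, hε₁, hsm⟩ := small_amplitude (h := cos) (h1 := fun s => -sin s) (h2 := fun s => -cos s)
    (h3 := sin) hasDerivAt_cos (fun s => (hasDerivAt_sin s).neg)
    (fun s => ((hasDerivAt_cos s).neg).congr_deriv (neg_neg _)) continuous_sin (M := 1)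
    abs_cos_le_one (fun s => by rw [abs_neg]; exact abs_sin_le_one s)
    (fun s => by rw [abs_neg]; exact abs_cos_le_one s) abs_sin_le_one (Or.inr ⟨cos_neg, hne⟩)
  set b := fun ε : ℝ => 2 * (∫ s, cU2 ε s ∂gaussianReal 0 1) ^ 2 - ∫ s, cU4 ε s ^ 2 ∂gaussianReal 0 1
  have hexp : ∀ ε ∈ Icc (-1 : ℝ) 1, ∀ s, exp (ε * cos s) ≤ exp 1 := fun ε hε s =>
    exp_le_exp.2 ((le_abs_self _).trans (by
      rw [abs_mul]; exact mul_le_one₀ (abs_le.2 hε) (abs_nonneg _) (abs_cos_le_one s)))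
  have b2 : ∀ ε ∈ Icc (-1 : ℝ) 1, ∀ s, |cU2 ε s| ≤ 2 * exp 1 := fun ε hε s => by
    rw [cU2, abs_mul, abs_of_pos (exp_pos _)]
    refine mul_le_mul ?_ (hexp ε hε s) (exp_pos _).le (by norm_num)
    have h1 := abs_le.2 hε
    have h2 := abs_cos_le_one s
    have h3 : sin s ^ 2 ≤ 1 := sin_sq_le_one s
    refine (abs_add_le _ _).trans ?_
    rw [abs_neg, abs_mul, abs_of_nonneg (sq_nonneg (sin s))]
    have := mul_le_one₀ h1 (sq_nonneg (sin s)) h3
    linarith
  have b4 : ∀ ε ∈ Icc (-1 : ℝ) 1, ∀ s, |cU4 ε s| ≤ 15 * exp 1 := fun ε hε s => by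
    rw [cU4, abs_mul, abs_of_pos (exp_pos _)]
    refine mul_le_mul ?_ (hexp ε hε s) (exp_pos _).le (by norm_num)
    have h1 := abs_le.2 hε
    have hc := abs_le.1 (abs_cos_le_one s)
    have q1 : |ε * (3 * cos s ^ 2 - 4 * sin s ^ 2)| ≤ 1 * 7 := by
      rw [abs_mul]
      refine mul_le_mul h1 (abs_le.2 ⟨?_, ?_⟩) (abs_nonneg _) zero_le_one <;>
        nlinarith [sin_sq_add_cos_sq s, sq_nonneg (sin s), sq_nonneg (cos s)]
    have q2 : |6 * ε ^ 2 * cos s * sin s ^ 2| ≤ 6 * 1 * 1 * 1 := by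
      rw [abs_mul, abs_mul, abs_mul, abs_of_nonneg (sq_nonneg (sin s)), abs_of_nonneg (sq_nonneg ε),
        abs_of_nonneg (by norm_num : (0 : ℝ) ≤ 6)]
      exact mul_le_mul (mul_le_mul (mul_le_mul_of_nonneg_left (by rw [← sq_abs]; exact pow_le_one₀ (abs_nonneg _) h1) (by norm_num))
        (abs_cos_le_one s) (abs_nonneg _) (by norm_num)) (sin_sq_le_one s) (sq_nonneg _) (by norm_num)
    have q3 : |ε ^ 3 * sin s ^ 4| ≤ 1 * 1 := by
      rw [abs_mul, abs_pow, abs_of_nonneg (by positivity : 0 ≤ sin s ^ 4)]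
      refine mul_le_mul (pow_le_one₀ (abs_nonneg _) h1) ?_ (by positivity) zero_le_one
      rw [show sin s ^ 4 = (sin s ^ 2) ^ 2 by ring]; exact pow_le_one₀ (sq_nonneg _) (sin_sq_le_one s)
    have h5 := abs_le.1 q1
    have h6 := abs_le.1 q2
    have h7 := abs_le.1 q3
    rw [abs_le]; constructor <;> linarith
  have hb0 : 0 < b 0 := by
    have h1 := integral_cos 1
    have h2 := integral_cos 2
    simp only [one_mul] at h1
    have e4 : ∫ s, cos s ^ 2 ∂gaussianReal 0 1 = (1 + exp (-(2 ^ 2) / 2)) / 2 := by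
      simp only [Real.cos_sq]
      have i : Integrable (fun s => cos (2 * s) / 2) (gaussianReal 0 1) :=
        Integrable.of_bound (Continuous.aestronglyMeasurable (by fun_prop)) 1 (ae_of_all _ fun s => by
          rw [norm_eq_abs, abs_div, abs_two]; linarith [abs_cos_le_one (2 * s)])
      rw [integral_add (integrable_const _) i]
      simp only [integral_div]
      rw [h2]
      simp
      ring
    simp only [b, cU2, cU4, zero_mul, mul_zero, exp_zero, mul_one, add_zero, sub_zero, zero_pow,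
      ne_eq, OfNat.ofNat_ne_zero, not_false_eq_true, integral_neg, h1, e4]
    have he : exp (-(1 ^ 2) / 2) ^ 2 = exp (-1) := by rw [← exp_nat_mul]; norm_num
    have he2 : exp (-(2 ^ 2) / 2) = exp (-1) ^ 2 := by rw [← exp_nat_mul]; norm_num
    rw [neg_sq, he, he2]
    have h3 : 1 / 3 ≤ exp (-1) := by
      rw [exp_neg, one_div]
      exact inv_anti₀ (exp_pos 1) (by linarith [exp_one_lt_three])
    have h4 : exp (-1) ≤ 1 := exp_le_one_iff.2 (by norm_num)
    nlinarith
  have hbc : ContinuousOn b (Icc (-1) 1) := by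
    refine ((continuousOn_of_dominated (bound := fun _ => 2 * exp 1) ?_ (fun ε hε => ae_of_all _ fun s => b2 ε hε s)
      (integrable_const _) (ae_of_all _ fun s => ?_)).pow 2 |>.const_smul (2 : ℝ)).sub
      (continuousOn_of_dominated (bound := fun _ => (15 * exp 1) ^ 2) ?_ (fun ε hε => ae_of_all _ fun s => by
        rw [norm_eq_abs, abs_pow]; exact pow_le_pow_left₀ (abs_nonneg _) (b4 ε hε s) 2)
        (integrable_const _) (ae_of_all _ fun s => ?_))
    · intro ε _; exact Continuous.aestronglyMeasurable (by unfold cU2; fun_prop)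
    · exact Continuous.continuousOn (by unfold cU2; fun_prop)
    · intro ε _; exact Continuous.aestronglyMeasurable (by unfold cU4; fun_prop)
    · exact Continuous.continuousOn (by unfold cU4; fun_prop)
  have hnh := (hbc.continuousAt (Icc_mem_nhds (by norm_num) (by norm_num : (0 : ℝ) < 1))).preimage_mem_nhds
    (Ioi_mem_nhds hb0)
  obtain ⟨ε₂, hε₂, hball⟩ := Metric.mem_nhds_iff.1 hnh
  refine ⟨min ε₁ (min ε₂ 1), lt_min hε₁ (lt_min hε₂ one_pos), fun ε hε α hα => ?_⟩
  obtain ⟨he1, he23⟩ := lt_min_iff.1 hε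
  obtain ⟨he2, he3⟩ := lt_min_iff.1 he23
  have hεI : ε ∈ Icc (-1 : ℝ) 1 := abs_le.1 he3.le
  have hbpos : 0 < b ε := hball (by simpa [Real.dist_eq] using he2)
  obtain ⟨U, V, W, δ, κ, hp, hs⟩ := hsm ε he1
  set e : ℝ → ℝ := fun s => exp (ε * cos s)
  set P : ℝ → ℝ := fun s => ε * cos s + ε ^ 2 * (3 * cos s ^ 2 - 4 * sin s ^ 2)
    - 6 * ε ^ 3 * cos s * sin s ^ 2 + ε ^ 4 * sin s ^ 4
  set P' : ℝ → ℝ := fun s => -ε * sin s - 14 * ε ^ 2 * cos s * sin s
    - 6 * ε ^ 3 * (2 * cos s ^ 2 * sin s - sin s ^ 3) + 4 * ε ^ 4 * sin s ^ 3 * cos s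
  have de : ∀ s, HasDerivAt e (-(ε * sin s) * e s) s := fun s =>
    ((hasDerivAt_cos s).const_mul ε).exp.congr_deriv (by simp only [e]; ring)
  have w : Wt e (fun s => -(ε * sin s) * e s) (fun s => (ε ^ 2 * sin s ^ 2 - ε * cos s) * e s)
      (fun s => (ε * sin s + 3 * ε ^ 2 * (cos s * sin s) - ε ^ 3 * sin s ^ 3) * e s)
      (fun s => P s * e s) (fun s => (P' s - ε * sin s * P s) * e s) (100 * exp 1) := by
    refine ⟨de, fun s => ?_, fun s => ?_, fun s => ?_, fun s => ?_, by fun_prop, fun s => ?_⟩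
    · exact ((((hasDerivAt_sin s).const_mul ε).neg).mul (de s)).congr_deriv (by simp only [Pi.neg_apply]; ring)
    · exact (((((hasDerivAt_sin s).pow 2).const_mul (ε ^ 2)).sub ((hasDerivAt_cos s).const_mul ε)).mul
        (de s)).congr_deriv (by simp only [Pi.sub_apply, Pi.pow_apply]; push_cast; ring)
    · exact (((((hasDerivAt_sin s).const_mul ε).add (((hasDerivAt_cos s).mul (hasDerivAt_sin s)).const_mul
        (3 * ε ^ 2))).sub (((hasDerivAt_sin s).pow 3).const_mul (ε ^ 3))).mul (de s)).congr_deriv (by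
          simp only [P, Pi.sub_apply, Pi.add_apply, Pi.pow_apply, Pi.mul_apply]; push_cast; ring)
    · have hP : HasDerivAt P (P' s) s :=
        (((((hasDerivAt_cos s).const_mul ε).add
          (((((hasDerivAt_cos s).pow 2).const_mul 3).sub (((hasDerivAt_sin s).pow 2).const_mul 4)).const_mul (ε ^ 2))).sub
          ((((hasDerivAt_cos s).const_mul (6 * ε ^ 3)).mul ((hasDerivAt_sin s).pow 2)))).add
          (((hasDerivAt_sin s).pow 4).const_mul (ε ^ 4))).congr_deriv (by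
            simp only [P', Pi.pow_apply]; push_cast; ring)
      exact (hP.mul (de s)).congr_deriv (by ring)
    · have ha := abs_le.2 hεI
      have hc1 := abs_cos_le_one s
      have hs1 := abs_sin_le_one s
      have he : |e s| ≤ exp 1 := by rw [abs_of_pos (exp_pos _)]; exact hexp ε hεI s
      have key : ∀ x : ℝ, |x| ≤ 100 → |x * e s| ≤ 100 * exp 1 := fun x hx => by
        rw [abs_mul]; exact mul_le_mul hx he (abs_nonneg _) (by norm_num)
      have pe : ∀ n : ℕ, |ε| ^ n ≤ 1 := fun n => pow_le_one₀ (abs_nonneg _) ha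
      have ps : ∀ n : ℕ, |sin s| ^ n ≤ 1 := fun n => pow_le_one₀ (abs_nonneg _) hs1
      have m2 : ∀ x y : ℝ, |x| ≤ 1 → |y| ≤ 1 → |x * y| ≤ 1 := fun x y hx hy => by
        rw [abs_mul]; exact mul_le_one₀ hx (abs_nonneg _) hy
      have me : ∀ n : ℕ, |ε ^ n| ≤ 1 := fun n => by rw [abs_pow]; exact pe n
      have ms : ∀ n : ℕ, |sin s ^ n| ≤ 1 := fun n => by rw [abs_pow]; exact ps n
      have mc : |cos s ^ 2| ≤ 1 := by rw [abs_pow]; exact pow_le_one₀ (abs_nonneg _) hc1
      have a1 := abs_le.1 (m2 _ _ ha hs1)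
      have a2 := abs_le.1 (m2 _ _ (me 2) (ms 2))
      have a3 := abs_le.1 (m2 _ _ ha hc1)
      have a4 := abs_le.1 (m2 _ _ (me 2) (m2 _ _ hc1 hs1))
      have a5 := abs_le.1 (m2 _ _ (me 3) (ms 3))
      have a6 := abs_le.1 (m2 _ _ (me 2) mc)
      have a7 := abs_le.1 (m2 _ _ (me 3) (m2 _ _ hc1 (ms 2)))
      have a8 := abs_le.1 (m2 _ _ (me 4) (ms 4))
      have a9 := abs_le.1 (m2 _ _ (me 3) (m2 _ _ mc hs1))
      have a10 := abs_le.1 (m2 _ _ (me 4) (m2 _ _ (ms 3) hc1))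
      have hP : |P s| ≤ 15 := by simp only [P]; rw [abs_le]; constructor <;> linarith
      have hsP : |ε * sin s * P s| ≤ 15 := by
        rw [abs_mul]
        calc |ε * sin s| * |P s| ≤ 1 * 15 := mul_le_mul (m2 _ _ ha hs1) hP (abs_nonneg _) zero_le_one
          _ = 15 := one_mul _
      have h5 := abs_le.1 hsP
      refine ⟨?_, key _ ?_, key _ ?_, key _ ?_, key _ (hP.trans (by norm_num)), key _ ?_⟩
      · exact he.trans (by linarith [exp_pos 1])
      all_goals (try simp only [P'])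
      all_goals rw [abs_le]
      all_goals constructor <;> linarith
  have h1 : ∫ s, -(ε * sin s) * e s ∂gaussianReal 0 1 = 0 :=
    integral_odd (by fun_prop) fun s => by simp [e]
  have h3 : ∫ s, (ε * sin s + 3 * ε ^ 2 * (cos s * sin s) - ε ^ 3 * sin s ^ 3) * e s ∂gaussianReal 0 1 = 0 :=
    integral_odd (by fun_prop) fun s => by simp [e]; ring
  have h4 : ∫ s, (P s * e s) ^ 2 ∂gaussianReal 0 1
      ≤ 2 * (∫ s, (ε ^ 2 * sin s ^ 2 - ε * cos s) * e s ∂gaussianReal 0 1) ^ 2 := by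
    have e4 : ∀ s, (P s * e s) ^ 2 = ε ^ 2 * cU4 ε s ^ 2 := fun s => by simp only [P, e, cU4]; ring
    have e2 : ∀ s, (ε ^ 2 * sin s ^ 2 - ε * cos s) * e s = ε * cU2 ε s := fun s => by simp only [e, cU2]; ring
    simp only [e4, e2, integral_const_mul, mul_pow]
    simp only [b] at hbpos
    nlinarith [mul_nonneg (sq_nonneg ε) hbpos.le]
  obtain ⟨L, hL, ha, hb⟩ := transition hp hs w h1 h3 h4 hα
  exact ⟨L, hL, fun h => ha h, fun h => hb h⟩

end P157.Conc

end
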